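import Mathlib

/-! Basic one-variable functions for the Courtade-Kumar proof. -/

namespace Vale.Agent.P322

open Real Set

/-- inverse hyperbolic tangent -/
noncomputable def A (u : ℝ) : ℝ := (Real.log (1 + u) - Real.log (1 - u)) / 2
/-- `log 2` minus the binary entropy (nats) of `(1 ± u)/2` -/
noncomputable def Ph (u : ℝ) : ℝ := ((1 + u) * Real.log (1 + u) + (1 - u) * Real.log (1 - u)) / 2
/-- binary entropy (nats) of `(1 ± u)/2` -/
noncomputable def H (u : ℝ) : ℝ := Real.log 2 - Ph u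

lemma A_neg (u : ℝ) : A (-u) = -A u := by
  unfold A; rw [← sub_eq_add_neg, sub_neg_eq_add]; ring

lemma Ph_neg (u : ℝ) : Ph (-u) = Ph u := by
  unfold Ph; rw [← sub_eq_add_neg, sub_neg_eq_add]; ring

lemma H_neg (u : ℝ) : H (-u) = H u := by unfold H; rw [Ph_neg]

lemma Ph_abs (u : ℝ) : Ph |u| = Ph u := by
  rcases abs_choice u with h | h <;> rw [h]; exact Ph_neg u

@[simp] lemma A_zero : A 0 = 0 := by simp [A]
@[simp] lemma Ph_zero : Ph 0 = 0 := by simp [Ph]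
lemma Ph_one : Ph 1 = Real.log 2 := by
  unfold Ph; norm_num

lemma continuous_Ph : Continuous Ph := by
  unfold Ph
  have h1 : Continuous fun u : ℝ => (1 + u) * Real.log (1 + u) :=
    Real.continuous_mul_log.comp (by fun_prop)
  have h2 : Continuous fun u : ℝ => (1 - u) * Real.log (1 - u) :=
    Real.continuous_mul_log.comp (by fun_prop)
  exact (h1.add h2).div_const 2

lemma hasDerivAt_A {u : ℝ} (h1 : -1 < u) (h2 : u < 1) : HasDerivAt A (1 / (1 - u ^ 2)) u := by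
  have a1 : (1 + u) ≠ 0 := by linarith
  have a2 : (1 - u) ≠ 0 := by linarith
  have d1 : HasDerivAt (fun u : ℝ => Real.log (1 + u)) (1 / (1 + u)) u :=
    ((hasDerivAt_id u).const_add 1).log a1
  have d2 : HasDerivAt (fun u : ℝ => Real.log (1 - u)) (-1 / (1 - u)) u :=
    ((hasDerivAt_id u).const_sub 1).log a2
  have h := (d1.sub d2).div_const 2
  have e : (1 / (1 + u) - -1 / (1 - u)) / 2 = 1 / (1 - u ^ 2) := by
    have : (1 - u ^ 2) = (1 + u) * (1 - u) := by ring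
    rw [this]; field_simp; ring
  rw [e] at h
  exact h

lemma hasDerivAt_Ph {u : ℝ} (h1 : -1 < u) (h2 : u < 1) : HasDerivAt Ph (A u) u := by
  have a1 : (1 + u) ≠ 0 := by linarith
  have a2 : (1 - u) ≠ 0 := by linarith
  have d0 : HasDerivAt (fun u : ℝ => 1 + u) 1 u := (hasDerivAt_id u).const_add 1
  have d0' : HasDerivAt (fun u : ℝ => 1 - u) (-1) u := (hasDerivAt_id u).const_sub 1
  have d1 : HasDerivAt (fun u : ℝ => Real.log (1 + u)) (1 / (1 + u)) u := d0.log a1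
  have d2 : HasDerivAt (fun u : ℝ => Real.log (1 - u)) (-1 / (1 - u)) u := d0'.log a2
  have h := ((d0.mul d1).add (d0'.mul d2)).div_const 2
  have e : (1 * Real.log (1 + u) + (1 + u) * (1 / (1 + u)) +
      (-1 * Real.log (1 - u) + (1 - u) * (-1 / (1 - u)))) / 2 = A u := by
    unfold A; field_simp; ring
  rw [e] at h
  exact h

lemma hasDerivAt_H {u : ℝ} (h1 : -1 < u) (h2 : u < 1) : HasDerivAt H (-A u) u :=
  (hasDerivAt_Ph h1 h2).const_sub _

lemma A_eq_artanh {u : ℝ} (h1 : -1 < u) (h2 : u < 1) : A u = Real.artanh u := by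
  rw [Real.artanh_eq_half_log ⟨h1.le, h2.le⟩, Real.log_div (by linarith) (by linarith)]
  unfold A; ring

lemma A_tanh (x : ℝ) : A (Real.tanh x) = x := by
  rw [A_eq_artanh (Real.neg_one_lt_tanh x) (Real.tanh_lt_one x), Real.artanh_tanh]

lemma tanh_A {u : ℝ} (h1 : -1 < u) (h2 : u < 1) : Real.tanh (A u) = u := by
  rw [A_eq_artanh h1 h2, Real.tanh_artanh ⟨h1, h2⟩]

lemma A_le_A {u v : ℝ} (h1 : -1 < u) (h2 : v < 1) (h : u ≤ v) : A u ≤ A v := by
  unfold A
  have := Real.log_le_log (by linarith : 0 < 1 + u) (by linarith : 1 + u ≤ 1 + v)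
  have := Real.log_le_log (by linarith : 0 < 1 - v) (by linarith : 1 - v ≤ 1 - u)
  linarith

lemma A_lt_A {u v : ℝ} (h1 : -1 < u) (h2 : v < 1) (h : u < v) : A u < A v := by
  unfold A
  have := Real.log_lt_log (by linarith : 0 < 1 + u) (by linarith : 1 + u < 1 + v)
  have := Real.log_lt_log (by linarith : 0 < 1 - v) (by linarith : 1 - v < 1 - u)
  linarith

lemma le_of_A_le {u v : ℝ} (h1 : -1 < v) (h2 : u < 1) (h : A u ≤ A v) : u ≤ v := by
  by_contra hc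
  push Not at hc
  have := A_lt_A h1 h2 hc
  linarith

lemma tanh_le_tanh {x y : ℝ} (h : x ≤ y) : Real.tanh x ≤ Real.tanh y :=
  le_of_A_le (Real.neg_one_lt_tanh y) (Real.tanh_lt_one x) (by rwa [A_tanh, A_tanh])

lemma tanh_lt_tanh {x y : ℝ} (h : x < y) : Real.tanh x < Real.tanh y := by
  by_contra hc
  push Not at hc
  have := A_le_A (Real.neg_one_lt_tanh y) (Real.tanh_lt_one x) hc
  rw [A_tanh, A_tanh] at this
  linarith

lemma hasDerivAt_tanh (x : ℝ) : HasDerivAt Real.tanh (1 - Real.tanh x ^ 2) x := by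
  have hc : Real.cosh x ≠ 0 := (Real.cosh_pos x).ne'
  have h := (Real.hasDerivAt_sinh x).div (Real.hasDerivAt_cosh x) hc
  have e : (Real.cosh x * Real.cosh x - Real.sinh x * Real.sinh x) / Real.cosh x ^ 2
      = 1 - Real.tanh x ^ 2 := by
    rw [Real.tanh_eq_sinh_div_cosh]; field_simp
  rw [e] at h
  have e2 : Real.tanh = Real.sinh / Real.cosh := by
    funext y; simp [Real.tanh_eq_sinh_div_cosh]
  rw [← e2] at h
  exact h

/-! ### power series -/

lemma hasSum_A {z : ℝ} (h0 : 0 ≤ z) (h1 : z < 1) :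
    HasSum (fun k : ℕ => z * ((z ^ 2) ^ k / (2 * k + 1))) (A z) := by
  have h := (Real.hasSum_log_sub_log_of_abs_lt_one (x := z)
    (by rwa [abs_of_nonneg h0])).div_const 2
  have e : (fun k : ℕ => z * ((z ^ 2) ^ k / (2 * k + 1))) =
      fun k : ℕ => (2 : ℝ) * (1 / (2 * k + 1)) * z ^ (2 * k + 1) / 2 := by
    funext k; rw [← pow_mul]; field_simp; ring
  rw [e]; exact h

lemma Ph_eq {z : ℝ} (h0 : -1 < z) (h1 : z < 1) :
    Ph z = z * A z + Real.log (1 - z ^ 2) / 2 := by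
  have : (1 - z ^ 2) = (1 + z) * (1 - z) := by ring
  rw [this, Real.log_mul (by linarith) (by linarith)]
  unfold Ph A; ring

lemma hasSum_Ph {z : ℝ} (h0 : 0 ≤ z) (h1 : z < 1) :
    HasSum (fun k : ℕ => z ^ 2 * ((z ^ 2) ^ k / ((2 * k + 1) * (2 * k + 2)))) (Ph z) := by
  have hz : |z ^ 2| < 1 := by
    rw [abs_of_nonneg (by positivity)]; nlinarith
  have h := ((hasSum_A h0 h1).mul_left z).sub
    ((Real.hasSum_pow_div_log_of_abs_lt_one hz).div_const 2)
  have e : (fun k : ℕ => z ^ 2 * ((z ^ 2) ^ k / ((2 * k + 1) * (2 * k + 2)))) =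
      fun k : ℕ => z * (z * ((z ^ 2) ^ k / (2 * k + 1))) - (z ^ 2) ^ (k + 1) / (k + 1) / 2 := by
    funext k; field_simp; ring
  rw [e, Ph_eq (by linarith) h1]
  have e2 : z * A z + Real.log (1 - z ^ 2) / 2 = z * A z - -Real.log (1 - z ^ 2) / 2 := by ring
  rw [e2]; exact h

/-- partial sums of the series of `A z / z` -/
noncomputable def sA (y : ℝ) (N : ℕ) : ℝ := ∑ k ∈ Finset.range N, y ^ k / (2 * k + 1)
/-- partial sums of the series of `Ph z / z^2` -/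
noncomputable def sP (y : ℝ) (N : ℕ) : ℝ :=
  ∑ k ∈ Finset.range N, y ^ k / ((2 * k + 1) * (2 * k + 2))

lemma sA_le {z : ℝ} (h0 : 0 ≤ z) (h1 : z < 1) (N : ℕ) : z * sA (z ^ 2) N ≤ A z := by
  unfold sA; rw [Finset.mul_sum]
  exact sum_le_hasSum _ (fun k _ => by positivity) (hasSum_A h0 h1)

lemma sP_le {z : ℝ} (h0 : 0 ≤ z) (h1 : z < 1) (N : ℕ) : z ^ 2 * sP (z ^ 2) N ≤ Ph z := by
  unfold sP; rw [Finset.mul_sum]
  exact sum_le_hasSum _ (fun k _ => by positivity) (hasSum_Ph h0 h1)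

lemma sP_tail {y : ℝ} (h0 : 0 ≤ y) (h1 : y ≤ 1) (N j : ℕ) :
    sP y (N + j) + y ^ N / (4 * ((N + j : ℕ) : ℝ) + 1) ≤ sP y N + y ^ N / (4 * N + 1) := by
  induction j with
  | zero => simp
  | succ j ih =>
    refine le_trans ?_ ih
    rw [← add_assoc]
    unfold sP
    rw [Finset.sum_range_succ]
    have hp : y ^ (N + j) ≤ y ^ N := pow_le_pow_of_le_one h0 h1 (by omega)
    set M : ℝ := ((N + j : ℕ) : ℝ) with hM
    have hM0 : 0 ≤ M := by positivity
    have e : ((N + j + 1 : ℕ) : ℝ) = M + 1 := by rw [hM]; push_cast; ring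
    rw [e]
    have hN : 0 ≤ y ^ N := by positivity
    have k1 : y ^ (N + j) / ((2 * M + 1) * (2 * M + 2)) ≤ y ^ N / ((2 * M + 1) * (2 * M + 2)) := by
      gcongr
    have k2 : 1 / ((2 * M + 1) * (2 * M + 2)) + 1 / (4 * (M + 1) + 1) ≤ 1 / (4 * M + 1) := by
      rw [div_add_div _ _ (by positivity) (by positivity), div_le_div_iff₀ (by positivity) (by positivity)]
      nlinarith
    have k3 := mul_le_mul_of_nonneg_left k2 hN
    have e1 : y ^ N * (1 / ((2 * M + 1) * (2 * M + 2)) + 1 / (4 * (M + 1) + 1)) =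
      y ^ N / ((2 * M + 1) * (2 * M + 2)) + y ^ N / (4 * (M + 1) + 1) := by ring
    have e2 : y ^ N * (1 / (4 * M + 1)) = y ^ N / (4 * M + 1) := by ring
    linarith

lemma sP_mono {y : ℝ} (h0 : 0 ≤ y) {N M : ℕ} (h : N ≤ M) : sP y N ≤ sP y M := by
  unfold sP
  exact Finset.sum_le_sum_of_subset_of_nonneg (Finset.range_subset_range.2 h)
    (fun k _ _ => by positivity)

lemma le_sP {z : ℝ} (h0 : 0 ≤ z) (h1 : z < 1) (N : ℕ) :
    Ph z ≤ z ^ 2 * (sP (z ^ 2) N + (z ^ 2) ^ N / (4 * N + 1)) := by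
  have hy0 : 0 ≤ z ^ 2 := by positivity
  have hy1 : z ^ 2 ≤ 1 := by nlinarith
  refine le_of_tendsto' (hasSum_Ph h0 h1).tendsto_sum_nat (fun M => ?_)
  rw [← Finset.mul_sum]
  refine mul_le_mul_of_nonneg_left ?_ hy0
  have t := sP_tail hy0 hy1 N M
  have t2 : sP (z ^ 2) M ≤ sP (z ^ 2) (N + M) := sP_mono hy0 (by omega)
  have t3 : 0 ≤ (z ^ 2) ^ N / (4 * ((N + M : ℕ) : ℝ) + 1) := by positivity
  change sP (z ^ 2) M ≤ _
  linarith

lemma sA_tail {y : ℝ} (h0 : 0 ≤ y) (h1 : y < 1) (N j : ℕ) :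
    sA y (N + j) + y ^ (N + j) / ((2 * N + 1) * (1 - y)) ≤
      sA y N + y ^ N / ((2 * N + 1) * (1 - y)) := by
  induction j with
  | zero => simp
  | succ j ih =>
    refine le_trans ?_ ih
    rw [← add_assoc]
    unfold sA
    rw [Finset.sum_range_succ]
    have hN : 0 ≤ y ^ (N + j) := by positivity
    have hy : 0 < 1 - y := by linarith
    have k1 : y ^ (N + j) / (2 * ((N + j : ℕ) : ℝ) + 1) ≤ y ^ (N + j) / (2 * N + 1) := by
      gcongr; omega
    have e : y ^ (N + j) / ((2 * N + 1) * (1 - y)) =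
        y ^ (N + j) / (2 * N + 1) + y ^ (N + j + 1) / ((2 * N + 1) * (1 - y)) := by
      field_simp; ring
    linarith

lemma sA_mono {y : ℝ} (h0 : 0 ≤ y) {N M : ℕ} (h : N ≤ M) : sA y N ≤ sA y M := by
  unfold sA
  exact Finset.sum_le_sum_of_subset_of_nonneg (Finset.range_subset_range.2 h)
    (fun k _ _ => by positivity)

lemma le_sA {z : ℝ} (h0 : 0 ≤ z) (h1 : z < 1) (N : ℕ) :
    A z ≤ z * (sA (z ^ 2) N + (z ^ 2) ^ N / ((2 * N + 1) * (1 - z ^ 2))) := by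
  have hy0 : 0 ≤ z ^ 2 := by positivity
  have hy1 : z ^ 2 < 1 := by nlinarith
  refine le_of_tendsto' (hasSum_A h0 h1).tendsto_sum_nat (fun M => ?_)
  rw [← Finset.mul_sum]
  refine mul_le_mul_of_nonneg_left ?_ h0
  have t := sA_tail hy0 hy1 N M
  have t2 : sA (z ^ 2) M ≤ sA (z ^ 2) (N + M) := sA_mono hy0 (by omega)
  have hy : 0 < 1 - z ^ 2 := by linarith
  have t3 : 0 ≤ (z ^ 2) ^ (N + M) / ((2 * N + 1) * (1 - z ^ 2)) := by positivity
  change sA (z ^ 2) M ≤ _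
  linarith

lemma le_A {z : ℝ} (h0 : 0 ≤ z) (h1 : z < 1) : z ≤ A z := by
  have := sA_le h0 h1 1
  simpa [sA] using this

lemma A_nonneg {z : ℝ} (h0 : 0 ≤ z) (h1 : z < 1) : 0 ≤ A z := h0.trans (le_A h0 h1)
lemma A_pos {z : ℝ} (h0 : 0 < z) (h1 : z < 1) : 0 < A z := h0.trans_le (le_A h0.le h1)

lemma Ph_ge2 {z : ℝ} (h0 : 0 ≤ z) (h1 : z < 1) : z ^ 2 / 2 + z ^ 4 / 12 ≤ Ph z := by
  have := sP_le h0 h1 2
  simp [sP, Finset.sum_range_succ] at this
  norm_num at this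
  linarith

lemma Ph_ge1 {u : ℝ} (h0 : -1 < u) (h1 : u < 1) : u ^ 2 / 2 ≤ Ph u := by
  have h := Ph_ge2 (abs_nonneg u) (abs_lt.2 ⟨h0, h1⟩)
  rw [Ph_abs, sq_abs] at h
  have : 0 ≤ |u| ^ 4 / 12 := by positivity
  linarith

lemma Ph_nonneg {u : ℝ} (h0 : -1 < u) (h1 : u < 1) : 0 ≤ Ph u :=
  le_trans (by positivity) (Ph_ge1 h0 h1)

lemma Ph_le1 {z : ℝ} (h0 : 0 ≤ z) (h1 : z < 1) : Ph z ≤ z ^ 2 / 2 + z ^ 4 / 5 := by
  have := le_sP h0 h1 1
  simp [sP] at this
  norm_num at this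
  linarith

lemma Ph_le3 {z : ℝ} (h0 : 0 ≤ z) (h1 : z < 1) :
    Ph z ≤ z ^ 2 / 2 + z ^ 4 / 12 + z ^ 6 / 30 + z ^ 8 / 13 := by
  have := le_sP h0 h1 3
  simp [sP, Finset.sum_range_succ] at this
  norm_num at this
  linarith

lemma four_Ph_le {z : ℝ} (h0 : 0 ≤ z) (h1 : z < 1) : 4 * Ph z ≤ z * A z + z ^ 2 := by
  have h2 : HasSum (fun k : ℕ => if k = 0 then z ^ 2 else 0) (z ^ 2) := hasSum_ite_eq 0 _
  refine hasSum_le ?_ ((hasSum_Ph h0 h1).mul_left 4) (((hasSum_A h0 h1).mul_left z).add h2)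
  intro k
  rcases Nat.eq_zero_or_pos k with rfl | hk
  · simp; linarith
  · rw [if_neg hk.ne']
    have hk' : (1 : ℝ) ≤ k := by exact_mod_cast hk
    have e1 : 4 * (z ^ 2 * ((z ^ 2) ^ k / ((2 * k + 1) * (2 * k + 2)))) =
      z * (z * ((z ^ 2) ^ k / (2 * k + 1))) * (4 / (2 * k + 2)) := by field_simp
    rw [e1, add_zero]
    refine mul_le_of_le_one_right (by positivity) ?_
    rw [div_le_one (by positivity)]; linarith

lemma H_ge {u : ℝ} (h0 : -1 < u) (h1 : u < 1) : (1 - u ^ 2) / 2 ≤ H u := by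
  have a1 := Real.log_le_sub_one_of_pos (show 0 < (1 + u) / 2 by linarith)
  have a2 := Real.log_le_sub_one_of_pos (show 0 < (1 - u) / 2 by linarith)
  rw [Real.log_div (by linarith) (by norm_num)] at a1 a2
  have b1 := mul_le_mul_of_nonneg_left a1 (show 0 ≤ 1 + u by linarith)
  have b2 := mul_le_mul_of_nonneg_left a2 (show 0 ≤ 1 - u by linarith)
  unfold H Ph
  nlinarith

lemma H_pos {u : ℝ} (h0 : -1 < u) (h1 : u < 1) : 0 < H u :=
  lt_of_lt_of_le (by nlinarith) (H_ge h0 h1)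

lemma H_eq {r : ℝ} (h0 : -1 < r) : H r = Real.log (2 / (1 + r)) + (1 - r) * A r := by
  rw [Real.log_div (by norm_num) (by linarith)]
  unfold H Ph A; ring

lemma Ph_mono {u v : ℝ} (h0 : 0 ≤ u) (h : u ≤ v) (h1 : v < 1) : Ph u ≤ Ph v := by
  have : MonotoneOn Ph (Icc 0 v) := by
    refine monotoneOn_of_deriv_nonneg (convex_Icc _ _) continuous_Ph.continuousOn ?_ ?_
    · intro x hx
      rw [interior_Icc] at hx
      exact (hasDerivAt_Ph (by linarith [hx.1]) (by linarith [hx.2])).differentiableAt.differentiableWithinAt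
    · intro x hx
      rw [interior_Icc] at hx
      rw [(hasDerivAt_Ph (by linarith [hx.1]) (by linarith [hx.2])).deriv]
      exact A_nonneg hx.1.le (by linarith [hx.2])
  exact this ⟨h0, h⟩ ⟨h0.trans h, le_rfl⟩ h

/-- monotonicity from a derivative on a closed interval -/
lemma le_of_deriv_nonneg {f f' : ℝ → ℝ} {a b : ℝ} (hab : a ≤ b)
    (hd : ∀ x, a ≤ x → x ≤ b → HasDerivAt f (f' x) x)
    (hp : ∀ x, a < x → x < b → 0 ≤ f' x) : f a ≤ f b := by
  have : MonotoneOn f (Icc a b) := by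
    refine monotoneOn_of_deriv_nonneg (convex_Icc _ _) ?_ ?_ ?_
    · intro x hx
      exact (hd x hx.1 hx.2).continuousAt.continuousWithinAt
    · intro x hx
      rw [interior_Icc] at hx
      exact (hd x hx.1.le hx.2.le).differentiableAt.differentiableWithinAt
    · intro x hx
      rw [interior_Icc] at hx
      rw [(hd x hx.1.le hx.2.le).deriv]
      exact hp x hx.1 hx.2
  exact this ⟨le_rfl, hab⟩ ⟨hab, le_rfl⟩ hab

lemma le_of_deriv_nonpos {f f' : ℝ → ℝ} {a b : ℝ} (hab : a ≤ b)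
    (hd : ∀ x, a ≤ x → x ≤ b → HasDerivAt f (f' x) x)
    (hp : ∀ x, a < x → x < b → f' x ≤ 0) : f b ≤ f a := by
  have := le_of_deriv_nonneg (f := fun x => -f x) (f' := fun x => -f' x) hab
    (fun x h1 h2 => (hd x h1 h2).neg) (fun x h1 h2 => by linarith [hp x h1 h2])
  simpa using this

lemma exists_Ph_eq {T r : ℝ} (hr : 0 ≤ r) (h0 : 0 ≤ T) (h1 : T ≤ Ph r) :
    ∃ s, 0 ≤ s ∧ s ≤ r ∧ Ph s = T := by
  have := intermediate_value_Icc hr continuous_Ph.continuousOn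
  obtain ⟨s, hs, e⟩ := this (show T ∈ Icc (Ph 0) (Ph r) by simpa using ⟨h0, h1⟩)
  exact ⟨s, hs.1, hs.2, e⟩

end Vale.Agent.P322
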