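import Vale.Agent.P322.KBound

/-! A verified subdivision check of a three-variable inequality. -/

namespace Vale.Agent.P322

open Real Set

noncomputable def jH (y n : ℝ) : ℝ :=
  1 / 2 + y * (1 / 12 * (1 + 3 * n) + y * (1 / 30 * (1 + 10 * n + 5 * (n * n)) +
    y * (1 / 13 * (1 + 21 * n + 35 * (n * n) + 7 * (n * n * n)))))
noncomputable def jL (y n : ℝ) : ℝ := 1 / 2 + y * (1 / 12 * (1 + 3 * n))

structure Hyp (n δ I J e K τ : ℝ) : Prop where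
  n0 : 0 ≤ n
  n1 : n ≤ 1
  d0 : 0 < δ
  d1 : δ ≤ 1
  b1 : δ * δ * n < (1 - δ) * (1 - δ)
  dh : δ * (1 - n) ≤ 1 / 2
  I0 : 0 ≤ I
  T1 : 1 / 8 < I + J
  T0 : I + J ≤ 0.5541
  Jhi : J ≤ δ * δ * (1 - n) * jH (δ * δ) n
  Jlo : δ * δ * (1 - n) * jL (δ * δ) n ≤ J
  e0 : 0 ≤ e
  ehi : e + n * sP n 10 + I + J ≤ Real.log 2
  t1 : I + I * (I * (1 / 2 + I * (1 / 6))) ≤ τ
  t2 : δ * δ * (1 - n) + δ * δ * (1 - n) * (δ * δ * (1 - n) + δ * δ * (1 - n) * (δ * δ * (1 - n))) ≤ τ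
  t3 : τ ≤ 1
  q0 : 0 ≤ 1 + (δ * δ * (1 - n)) * (δ * δ * (1 - n)) - 2 * (δ * δ * (1 + n))
  hA : ∀ z c : ℝ, 0 < z → z < 1 → δ ≤ c → z * e ≤ c * H z * (1 - n) →
    δ * δ * (1 - n) * A z ≤ c * K
  hB : ∀ z c : ℝ, 0 < z → z < 1 → δ ≤ c →
    z * z * ((1 + (δ * δ * (1 - n)) * (δ * δ * (1 - n)) - 2 * (δ * δ * (1 + n))) *
      ((1 - τ) * (1 - τ))) ≤ c * c * ((1 - z * z) * (1 - z * z)) →
    δ * δ * (1 - n) * A z ≤ c * K

structure In (n0 n1 d0 d1 i0 i1 : ℕ) (n δ I : ℝ) : Prop where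
  a0 : R n0 ≤ n
  a1 : n ≤ R n1
  b0 : R d0 ≤ δ
  b1 : δ ≤ R d1
  c0 : R i0 ≤ I
  c1 : I ≤ R i1

def nmin (a b : ℕ) : ℕ := cond (Nat.ble a b) a b
def nmax (a b : ℕ) : ℕ := cond (Nat.ble a b) b a

lemma le_nmin {a b : ℕ} {x : ℝ} (ha : x ≤ R a) (hb : x ≤ R b) : x ≤ R (nmin a b) := by
  unfold nmin; cases Nat.ble a b <;> simpa
lemma nmax_le {a b : ℕ} {x : ℝ} (ha : R a ≤ x) (hb : R b ≤ x) : R (nmax a b) ≤ x := by
  unfold nmax; cases Nat.ble a b <;> simpa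

lemma le_add {a b : ℕ} {x y : ℝ} (ha : x ≤ R a) (hb : y ≤ R b) : x + y ≤ R (Nat.add a b) := by
  rw [R_add']; linarith
lemma add_le {a b : ℕ} {x y : ℝ} (ha : R a ≤ x) (hb : R b ≤ y) : R (Nat.add a b) ≤ x + y := by
  rw [R_add']; linarith
lemma le_smul (k : ℕ) {a : ℕ} {x c : ℝ} (hk : (k : ℝ) = c) (ha : x ≤ R a) :
    c * x ≤ R (Nat.mul k a) := by
  rw [R_mul', ← hk]; gcongr
lemma smul_le (k : ℕ) {a : ℕ} {x c : ℝ} (hk : (k : ℝ) = c) (ha : R a ≤ x) :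
    R (Nat.mul k a) ≤ c * x := by
  rw [R_mul', ← hk]; gcongr

def half : ℕ := 2147483648
def eighth : ℕ := 536870912
def T0N : ℕ := 2379841379
def L2lo : ℕ := 2977043696
def L2up : ℕ := 2977047992
lemma R_half : R half = 1 / 2 := by unfold R half; norm_num
lemma R_eighth : R eighth = 1 / 8 := by unfold R eighth; norm_num
lemma R_T0N : 0.5541 ≤ R T0N := by unfold R T0N; norm_num
lemma R_L2lo : R L2lo ≤ Real.log 2 := le_trans (by unfold R L2lo; norm_num) l2lo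
lemma R_L2up : Real.log 2 ≤ R L2up := le_trans l2hi (by unfold R L2up; norm_num)
lemma le_cu' (p q : ℕ) {c : ℝ} (h : (p : ℝ) / q = c) : c ≤ R (cu p q) := h ▸ le_cu p q
lemma cl_le' (p q : ℕ) {c : ℝ} (h : (p : ℝ) / q = c) : R (cl p q) ≤ c := h ▸ cl_le p q

def jhi (y n : ℕ) : ℕ :=
  Nat.add half (mu y (Nat.add (mu (cu 1 12) (Nat.add SS (Nat.mul 3 n)))
    (mu y (Nat.add (mu (cu 1 30) (Nat.add (Nat.add SS (Nat.mul 10 n)) (Nat.mul 5 (mu n n))))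
      (mu y (mu (cu 1 13) (Nat.add (Nat.add (Nat.add SS (Nat.mul 21 n)) (Nat.mul 35 (mu n n)))
        (Nat.mul 7 (mu (mu n n) n)))))))))

def jlo (y n : ℕ) : ℕ := Nat.add half (md y (md (cl 1 12) (Nat.add SS (Nat.mul 3 n))))

lemma le_jhi {y n : ℕ} {x ν : ℝ} (x0 : 0 ≤ x) (hx : x ≤ R y) (v0 : 0 ≤ ν) (hv : ν ≤ R n) :
    jH x ν ≤ R (jhi y n) := by
  have h2 := le_mu v0 hv hv
  have h3 := le_mu v0 h2 hv
  unfold jH jhi
  refine le_add R_half.ge (le_mu (by positivity) hx (le_add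
    (le_mu (by positivity) (le_cu' 1 12 (by norm_num)) (le_add R_SS.ge (le_smul 3 (by norm_num) hv)))
    (le_mu (by positivity) hx (le_add
      (le_mu (by positivity) (le_cu' 1 30 (by norm_num))
        (le_add (le_add R_SS.ge (le_smul 10 (by norm_num) hv)) (le_smul 5 (by norm_num) h2)))
      (le_mu (by positivity) hx (le_mu (by positivity) (le_cu' 1 13 (by norm_num))
        (le_add (le_add (le_add R_SS.ge (le_smul 21 (by norm_num) hv))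
          (le_smul 35 (by norm_num) h2)) (le_smul 7 (by norm_num) h3))))))))

lemma jlo_le {y n : ℕ} {x ν : ℝ} (hx : R y ≤ x) (hv : R n ≤ ν) : R (jlo y n) ≤ jL x ν := by
  unfold jL jlo
  exact add_le R_half.le (md_le hx (md_le (cl_le' 1 12 (by norm_num))
    (add_le R_SS.le (smul_le 3 (by norm_num) hv))))

def kqN (t : ℕ) : ℕ := cu (mu (cu 27 20) t) (Nat.sub SS (mu (cu 57 40) t))

lemma le_kqN {t : ℕ} {x : ℝ} (x0 : 0 ≤ x) (hx : x ≤ R t)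
    (h : Nat.blt (mu (cu 57 40) t) SS = true) : kq x ≤ R (kqN t) := by
  have h1 := le_mu x0 (le_cu' 57 40 (c := 57 / 40) (by norm_num)) hx
  have h2 := le_mu x0 (le_cu' 27 20 (c := 27 / 20) (by norm_num)) hx
  have h3 := R_blt h
  rw [R_SS] at h3
  have h4 := sub_le R_SS.le h1 (by linarith)
  have h5 : 0 < R (Nat.sub SS (mu (cu 57 40) t)) := by
    rw [← R_zero]; exact R_lt (Nat.sub_pos_of_lt (by simpa using h))
  refine le_trans ?_ (le_cu _ _)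
  rw [← R_div]
  unfold kq
  exact div_le_div₀ (R_nonneg _) h2 h5 h4

def Jhi (n0 n1 d1 : ℕ) : ℕ := mu (mu (mu d1 d1) (Nat.sub SS n0)) (jhi (mu d1 d1) n1)
def Jlo (n0 n1 d0 : ℕ) : ℕ := md (md (md d0 d0) (Nat.sub SS n1)) (jlo (md d0 d0) n0)
def P0 (n0 : ℕ) : ℕ := md n0 (hL cPl n0 10 0)

def tgt2 (d1 jh Ih Th z : ℕ) : Bool :=
  Nat.ble (mu d1 (mu (Nat.add (Nat.mul 2 SS) (mu (Nat.add (kqN Ih) (kqN Th)) half)) jh))
    (Alo 14 z) && Nat.blt (mu (cu 57 40) Ih) SS && Nat.blt (mu (cu 57 40) Th) SS &&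
    Nat.blt 0 z && Nat.blt z SS

def tgt (n0 n1 d1 i1 z : ℕ) : Bool :=
  tgt2 d1 (jhi (mu d1 d1) n1) (nmin T0N i1) (nmin T0N (Nat.add i1 (Jhi n0 n1 d1))) z

def chkA2 (n0 n1 z b k c : ℕ) : Bool :=
  Nat.ble (mu z L2up) (Nat.add (md z b) (md c (Nat.sub SS n0))) &&
  Nat.ble (mu z L2up) (Nat.add (md z (Nat.add b (md k (Nat.sub n1 n0)))) (md c (Nat.sub SS n1))) &&
  Nat.ble n1 SS

def chkA (n0 n1 d0 d1 i0 z : ℕ) : Bool :=
  chkA2 n0 n1 z (Nat.add i0 (P0 n0)) (Nat.add (hL cPl n0 10 0) (md n0 (hD cPl n0 10 0)))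
    (Nat.add (md z (md (md d0 d0) (jlo (md d0 d0) n0))) (md d1 (Nat.sub L2lo (Pup 14 z))))

def tau (i0 p : ℕ) : ℕ :=
  nmax (Nat.add i0 (md i0 (md i0 (Nat.add half (md i0 (cl 1 6))))))
    (Nat.add p (md p (Nat.add p (md p p))))

def chkB2 (d1 z w0 q ot : ℕ) : Bool :=
  Nat.ble (mu (mu z z) (mu (Nat.sub (Nat.add SS (mu w0 w0)) q) (mu ot ot)))
    (md (md d1 d1) (md (Nat.sub SS (mu z z)) (Nat.sub SS (mu z z))))

def chkB (n0 n1 d0 d1 i0 z : ℕ) : Bool :=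
  chkB2 d1 z (mu (mu d0 d0) (Nat.sub SS n0)) (Nat.mul 2 (md (md d0 d0) (Nat.add SS n0)))
    (Nat.sub SS (tau i0 (md (md d0 d0) (Nat.sub SS n1))))

inductive Tr
  | A (z : ℕ) | B (z : ℕ) | E1 | E2 | E3 | E4 | E5 | E6
  | N (l r : Tr) | D (l r : Tr) | I (l r : Tr)

def mid (a b : ℕ) : ℕ := Nat.shiftRight (Nat.add a b) 1

def chk : Tr → ℕ → ℕ → ℕ → ℕ → ℕ → ℕ → Bool
  | .A z, n0, n1, d0, d1, i0, i1 =>
    tgt n0 n1 d1 i1 (Nat.mul z 262144) && chkA n0 n1 d0 d1 i0 (Nat.mul z 262144)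
  | .B z, n0, n1, d0, d1, i0, i1 =>
    tgt n0 n1 d1 i1 (Nat.mul z 262144) && chkB n0 n1 d0 d1 i0 (Nat.mul z 262144)
  | .E1, n0, _, d0, _, _, _ => Nat.ble (mu (Nat.sub SS d0) (Nat.sub SS d0)) (md (md d0 d0) n0)
  | .E2, _, n1, d0, _, _, _ => Nat.blt half (md d0 (Nat.sub SS n1))
  | .E3, n0, n1, d0, _, i0, _ => Nat.blt T0N (Nat.add i0 (Jlo n0 n1 d0))
  | .E4, n0, n1, _, d1, _, i1 => Nat.ble (Nat.add i1 (Jhi n0 n1 d1)) eighth
  | .E5, n0, n1, d0, _, i0, _ => Nat.blt L2up (Nat.add (Nat.add i0 (Jlo n0 n1 d0)) (P0 n0))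
  | .E6, n0, _, _, _, _, _ => Nat.blt L2up (Nat.add eighth (P0 n0))
  | .N l r, n0, n1, d0, d1, i0, i1 =>
    chk l n0 (mid n0 n1) d0 d1 i0 i1 && chk r (mid n0 n1) n1 d0 d1 i0 i1
  | .D l r, n0, n1, d0, d1, i0, i1 =>
    chk l n0 n1 d0 (mid d0 d1) i0 i1 && chk r n0 n1 (mid d0 d1) d1 i0 i1
  | .I l r, n0, n1, d0, d1, i0, i1 =>
    chk l n0 n1 d0 d1 i0 (mid i0 i1) && chk r n0 n1 d0 d1 (mid i0 i1) i1

section sound
variable {n δ I J e K τ : ℝ} {n0 n1 d0 d1 i0 i1 : ℕ}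

lemma jH_nonneg {y ν : ℝ} (hy : 0 ≤ y) (hv : 0 ≤ ν) : 0 ≤ jH y ν := by unfold jH; positivity

lemma jhi_s (h : Hyp n δ I J e K τ) (b : In n0 n1 d0 d1 i0 i1 n δ I) :
    jH (δ * δ) n ≤ R (jhi (mu d1 d1) n1) :=
  le_jhi (mul_self_nonneg _) (le_mu h.d0.le b.b1 b.b1) h.n0 b.a1

lemma Jhi_s (h : Hyp n δ I J e K τ) (b : In n0 n1 d0 d1 i0 i1 n δ I) : J ≤ R (Jhi n0 n1 d1) :=
  h.Jhi.trans (le_mu (jH_nonneg (mul_self_nonneg _) h.n0)
    (le_mu (by linarith [h.n1]) (le_mu h.d0.le b.b1 b.b1) (le_sub R_SS.ge b.a0)) (jhi_s h b))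

lemma Jlo_s (h : Hyp n δ I J e K τ) (b : In n0 n1 d0 d1 i0 i1 n δ I) : R (Jlo n0 n1 d0) ≤ J :=
  le_trans (md_le (md_le (md_le b.b0 b.b0) (sub_le R_SS.le b.a1 h.n1))
    (jlo_le (md_le b.b0 b.b0) b.a0)) h.Jlo

lemma P0_s (b : In n0 n1 d0 d1 i0 i1 n δ I) : R (P0 n0) ≤ n * sP n 10 :=
  md_le b.a0 (hL_sP b.a0 10)

lemma J_nonneg (h : Hyp n δ I J e K τ) : 0 ≤ J := by
  refine le_trans ?_ h.Jlo
  have := h.n0
  have : 0 ≤ 1 - n := by linarith [h.n1]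
  have := h.d0
  unfold jL; positivity

lemma tgt_s (h : Hyp n δ I J e K τ) (b : In n0 n1 d0 d1 i0 i1 n δ I) {z : ℕ}
    (c : tgt n0 n1 d1 i1 z = true) :
    0 < R z ∧ R z < 1 ∧ (δ * δ * (1 - n) * A (R z) ≤ R d1 * K →
      J * (2 + (kq I + kq (I + J)) / 2) ≤ K) := by
  unfold tgt tgt2 at c
  simp only [Bool.and_eq_true] at c
  obtain ⟨⟨⟨⟨c1, c2⟩, c3⟩, c4⟩, c5⟩ := c
  have z0 := R_blt c4
  have z1 := R_blt c5
  rw [R_zero] at z0
  rw [R_SS] at z1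
  refine ⟨z0, z1, fun hK => ?_⟩
  have hJ := J_nonneg h
  have T0 := h.T0
  have I0 := h.I0
  have k1 := le_kqN h.I0 (le_nmin (by linarith [R_T0N]) b.c1) c2
  have k2 := le_kqN (x := I + J) (by linarith)
    (le_nmin (by linarith [R_T0N]) (le_add b.c1 (Jhi_s h b))) c3
  have j0 := jH_nonneg (mul_self_nonneg δ) h.n0
  have s0 : 0 ≤ 2 * 1 + (kq I + kq (I + J)) * (1 / 2) := by
    have := kq_nonneg (t := I) I0 (by linarith)
    have := kq_nonneg (t := I + J) (by linarith) (by linarith)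
    positivity
  have k3 := le_mu (mul_nonneg s0 j0) (le_refl (R d1)) (le_mu j0 (le_add (le_smul 2 (c := 2) (by norm_num) R_SS.ge)
    (le_mu (by norm_num) (le_add k1 k2) R_half.ge)) (jhi_s h b))
  have k4 := (k3.trans (R_ble c1)).trans (Alo_le le_rfl z1 14)
  have p0 : 0 ≤ δ * δ * (1 - n) := mul_nonneg (mul_self_nonneg _) (by linarith [h.n1])
  have k5 := mul_le_mul_of_nonneg_left k4 p0
  have k6 := mul_le_mul_of_nonneg_right h.Jhi s0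
  have d1p : 0 < R d1 := h.d0.trans_le b.b1
  have k7 := mul_le_mul_of_nonneg_left k6 d1p.le
  refine le_of_mul_le_mul_left ?_ d1p
  nlinarith

lemma lin_between {a s c x0 x1 x : ℝ} (h0 : c ≤ a + s * x0) (h1 : c ≤ a + s * x1)
    (l : x0 ≤ x) (r : x ≤ x1) : c ≤ a + s * x := by
  rcases le_total 0 s with h | h <;> nlinarith

lemma chkA_s (h : Hyp n δ I J e K τ) (b : In n0 n1 d0 d1 i0 i1 n δ I) {z : ℕ}
    (z0 : 0 < R z) (z1 : R z < 1) (c : chkA n0 n1 d0 d1 i0 z = true) :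
    δ * δ * (1 - n) * A (R z) ≤ R d1 * K := by
  refine h.hA _ _ z0 z1 b.b1 ?_
  unfold chkA chkA2 at c
  simp only [Bool.and_eq_true] at c
  obtain ⟨⟨c1, c2⟩, c3⟩ := c
  have n1le := R_ble c3
  rw [R_SS] at n1le
  have n01 : R n0 ≤ R n1 := b.a0.trans b.a1
  have l := le_mu (Real.log_nonneg (by norm_num : (1 : ℝ) ≤ 2)) (le_refl (R z)) R_L2up
  have hH : R (Nat.sub L2lo (Pup 14 z)) ≤ H (R z) := by
    have := H_pos (u := R z) (by linarith) z1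
    unfold H at this ⊢
    exact sub_le R_L2lo (le_Pup z0.le le_rfl z1 14) (by linarith)
  have hj := md_le (md_le b.b0 b.b0) (jlo_le (md_le b.b0 b.b0) b.a0)
  have hc := add_le (md_le (le_refl (R z)) hj) (md_le (le_refl (R d1)) hH)
  have hP := hD_sP b.a0 10
  have hP0 : R (P0 n0) ≤ R n0 * R (hL cPl n0 10 0) := R_md _ _
  have hk := add_le (le_refl (R (hL cPl n0 10 0))) (R_md n0 (hD cPl n0 10 0))
  have hb := add_le b.c0 hP0
  have e0 := (l.trans (R_ble c1)).trans (add_le (md_le le_rfl hb)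
    (md_le hc (sub_le R_SS.le le_rfl (by linarith))))
  have e1 := (l.trans (R_ble c2)).trans (add_le (md_le le_rfl (add_le hb
    (md_le hk (sub_le le_rfl le_rfl n01)))) (md_le hc (sub_le R_SS.le le_rfl n1le)))
  set r := R (hL cPl n0 10 0)
  set s := R (hD cPl n0 10 0)
  set C := R z * (δ * δ * jL (δ * δ) n) + R d1 * H (R z) with hC
  have key := lin_between (a := R z * (I + R n0 * r) - R z * (r + R n0 * s) * R n0 + C)
    (s := R z * (r + R n0 * s) - C) (c := R z * Real.log 2) (x0 := R n0) (x1 := R n1)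
    (by linarith) (by linarith) b.a0 b.a1
  have s0 : 0 ≤ s := R_nonneg _
  have m0 : 0 ≤ n - R n0 := by linarith [b.a0]
  have p1 : R n0 * r + (r + R n0 * s) * (n - R n0) ≤ n * sP n 10 := by
    have := mul_le_mul_of_nonneg_left hP h.n0
    have : 0 ≤ s * (n - R n0) * (n - R n0) := by positivity
    nlinarith
  have p2 : e ≤ Real.log 2 - (R n0 * r + (r + R n0 * s) * (n - R n0)) - I -
      δ * δ * (1 - n) * jL (δ * δ) n := by linarith [h.ehi, h.Jlo]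
  have p3 := mul_le_mul_of_nonneg_left p2 z0.le
  rw [hC] at key
  nlinarith

lemma chkB_s (h : Hyp n δ I J e K τ) (b : In n0 n1 d0 d1 i0 i1 n δ I) {z : ℕ}
    (z0 : 0 < R z) (z1 : R z < 1) (c : chkB n0 n1 d0 d1 i0 z = true) :
    δ * δ * (1 - n) * A (R z) ≤ R d1 * K := by
  refine h.hB _ _ z0 z1 b.b1 ?_
  unfold chkB chkB2 at c
  have p := md_le (md_le b.b0 b.b0) (sub_le R_SS.le b.a1 h.n1)
  have ht : R (tau i0 (md (md d0 d0) (Nat.sub SS n1))) ≤ τ :=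
    nmax_le ((add_le b.c0 (md_le b.c0 (md_le b.c0 (add_le R_half.le
      (md_le b.c0 (cl_le' 1 6 (by norm_num))))))).trans h.t1)
      ((add_le p (md_le p (add_le p (md_le p p)))).trans h.t2)
  have ot := le_sub R_SS.ge ht
  have ot0 : 0 ≤ 1 - τ := by linarith [h.t3]
  have r0 : 0 ≤ 1 - R n0 := by linarith [b.a0, h.n1]
  have w0 := le_mu r0 (R_mu d0 d0) (le_sub R_SS.ge (le_refl (R n0)))
  have w00 : 0 ≤ R d0 * R d0 * (1 - R n0) := mul_nonneg (mul_self_nonneg _) r0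
  have q := le_sub (le_add R_SS.ge (le_mu w00 w0 w0))
    (smul_le 2 (c := 2) (by norm_num) (md_le (R_md d0 d0) (add_le R_SS.le (le_refl (R n0)))))
  have qm : 1 + (δ * δ * (1 - n)) * (δ * δ * (1 - n)) - 2 * (δ * δ * (1 + n)) ≤
      1 + R d0 * R d0 * (1 - R n0) * (R d0 * R d0 * (1 - R n0)) - 2 * (R d0 * R d0 * (1 + R n0)) := by
    have y1 : R d0 * R d0 ≤ δ * δ := mul_self_le_mul_self (R_nonneg _) b.b0
    have y2 : δ * δ ≤ 1 := by nlinarith [h.d0, h.d1]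
    have y0 : 0 ≤ R d0 * R d0 := mul_self_nonneg _
    have v0 := R_nonneg n0
    have v1 := b.a0
    have v2 := h.n1
    generalize δ * δ = y at *
    generalize R d0 * R d0 = x at *
    generalize R n0 = v at *
    have s1 : (y * (1 - n)) * (y * (1 - n)) ≤ (y * (1 - v)) * (y * (1 - v)) :=
      mul_self_le_mul_self (mul_nonneg (by linarith) (by linarith)) (by nlinarith)
    have s2 : (1 - v) * (1 - v) ≤ 1 := by nlinarith
    have s3 : (x + y) * ((1 - v) * (1 - v)) ≤ 2 * (1 + v) := by nlinarith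
    have s4 := mul_le_mul_of_nonneg_left s3 (show 0 ≤ y - x by linarith)
    nlinarith
  have zz := R_mu z z
  have w := sub_le R_SS.le zz (by nlinarith)
  exact (le_mu (mul_nonneg h.q0 (mul_self_nonneg _)) zz
    (le_mu (mul_self_nonneg _) (qm.trans q) (le_mu ot0 ot ot))).trans
    ((R_ble c).trans (md_le (R_md d1 d1) (md_le w w)))

theorem chk_sound (h : Hyp n δ I J e K τ) (t : Tr) :
    ∀ n0 n1 d0 d1 i0 i1 : ℕ, In n0 n1 d0 d1 i0 i1 n δ I → chk t n0 n1 d0 d1 i0 i1 = true →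
      J * (2 + (kq I + kq (I + J)) / 2) ≤ K := by
  induction t with
  | A z =>
    intro n0 n1 d0 d1 i0 i1 b c
    unfold chk at c
    rw [Bool.and_eq_true] at c
    obtain ⟨z0, z1, k⟩ := tgt_s h b c.1
    exact k (chkA_s h b z0 z1 c.2)
  | B z =>
    intro n0 n1 d0 d1 i0 i1 b c
    unfold chk at c
    rw [Bool.and_eq_true] at c
    obtain ⟨z0, z1, k⟩ := tgt_s h b c.1
    exact k (chkB_s h b z0 z1 c.2)
  | E1 =>
    intro n0 n1 d0 d1 i0 i1 b c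
    unfold chk at c
    have k := le_sub R_SS.ge b.b0
    have := ((le_mu (by linarith [h.d1]) k k).trans (R_ble c)).trans
      (md_le (md_le b.b0 b.b0) b.a0)
    linarith [h.b1]
  | E2 =>
    intro n0 n1 d0 d1 i0 i1 b c
    unfold chk at c
    have := (R_blt c).trans_le (md_le b.b0 (sub_le R_SS.le b.a1 h.n1))
    rw [R_half] at this
    linarith [h.dh]
  | E3 =>
    intro n0 n1 d0 d1 i0 i1 b c
    unfold chk at c
    have := (R_blt c).trans_le (add_le b.c0 (Jlo_s h b))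
    linarith [h.T0, R_T0N]
  | E4 =>
    intro n0 n1 d0 d1 i0 i1 b c
    unfold chk at c
    have := (le_add b.c1 (Jhi_s h b)).trans (R_ble c)
    rw [R_eighth] at this
    linarith [h.T1]
  | E5 =>
    intro n0 n1 d0 d1 i0 i1 b c
    unfold chk at c
    have := (R_blt c).trans_le (add_le (add_le b.c0 (Jlo_s h b)) (P0_s b))
    linarith [h.e0, h.ehi, R_L2up]
  | E6 =>
    intro n0 n1 d0 d1 i0 i1 b c
    unfold chk at c
    have := (R_blt c).trans_le (add_le R_eighth.le (P0_s b))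
    linarith [h.e0, h.ehi, R_L2up, h.T1]
  | N l r ihl ihr =>
    intro n0 n1 d0 d1 i0 i1 b c
    unfold chk at c
    rw [Bool.and_eq_true] at c
    rcases le_total n (R (mid n0 n1)) with k | k
    · exact ihl _ _ _ _ _ _ ⟨b.a0, k, b.b0, b.b1, b.c0, b.c1⟩ c.1
    · exact ihr _ _ _ _ _ _ ⟨k, b.a1, b.b0, b.b1, b.c0, b.c1⟩ c.2
  | D l r ihl ihr =>
    intro n0 n1 d0 d1 i0 i1 b c
    unfold chk at c
    rw [Bool.and_eq_true] at c
    rcases le_total δ (R (mid d0 d1)) with k | k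
    · exact ihl _ _ _ _ _ _ ⟨b.a0, b.a1, b.b0, k, b.c0, b.c1⟩ c.1
    · exact ihr _ _ _ _ _ _ ⟨b.a0, b.a1, k, b.b1, b.c0, b.c1⟩ c.2
  | I l r ihl ihr =>
    intro n0 n1 d0 d1 i0 i1 b c
    unfold chk at c
    rw [Bool.and_eq_true] at c
    rcases le_total I (R (mid i0 i1)) with k | k
    · exact ihl _ _ _ _ _ _ ⟨b.a0, b.a1, b.b0, b.b1, b.c0, k⟩ c.1
    · exact ihr _ _ _ _ _ _ ⟨b.a0, b.a1, b.b0, b.b1, k, b.c1⟩ c.2

end sound

end Vale.Agent.P322
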