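import Vale.Agent.P322.Box

/-! The subdivision tree (generated) and its kernel check. -/

namespace Vale.Agent.P322

section
open Tr

def t1 : Tr :=
  (D (I E4 (I (I (D (N (Tr.A 4141) E4) (D (Tr.A 4567) (N (Tr.A 4973) (Tr.A 4981)))) (D (Tr.A 4219) (Tr.A 5071))) (D
  (Tr.A 4374) (Tr.A 5257)))) (I (D (D (D E4 (N (B 5306) E4)) (N (B 5718) (B 5732))) (D (B 6160) (B
  6582))) (I (D (I (I (D (Tr.A 5365) (Tr.A 5786)) (N (Tr.A 5810) (Tr.A 5823))) (N (Tr.A 5907) (Tr.A 5920))) (I (D (I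
  (N (B 6180) (B 6197)) (Tr.A 6258)) (N (B 6652) (B 6673))) (D (Tr.A 6363) (Tr.A 6799)))) (D (D (Tr.A 5701) (Tr.A
  6147)) (I (Tr.A 6919) (Tr.A 7046))))))

def t2 : Tr :=
  (D (I E4 (I (I (D E4 (I E4 (D (N (B 4569) (B 4575)) (N (Tr.A 4989) (B 4998))))) (D (I (Tr.A 4192) (Tr.A
  4227)) (I (D (B 4617) (Tr.A 5044)) (Tr.A 5087)))) (I (D (Tr.A 4302) (Tr.A 5176)) (Tr.A 5272)))) (I (D (D E4 (N
  (B 5746) E4)) (D (N (B 6167) (B 6186)) (B 6629))) (I (D (I (D (I (D (N (B 5159) E4) (N (B 5369)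
  (B 5380))) (D (B 5216) (N (B 5412) (B 5423)))) (I (D (N (B 5579) (B 5592)) (N (B 5791) (B
  5805))) (N (N (Tr.A 5825) (Tr.A 5832)) (D (B 5637) (B 5851))))) (I (D (N (Tr.A 5456) (B 5467)) (D (Tr.A
  5691) (N (B 5885) (B 5899)))) (D (Tr.A 5521) (Tr.A 5958)))) (D (I (D (N (B 6050) (B 6067)) (N (B 6265)
  (B 6283))) (I (N (Tr.A 6316) (N (Tr.A 6319) (B 6328))) (N (Tr.A 6368) (Tr.A 6386)))) (D (N (N (B 6570) (B
  6580)) (N (B 6590) (I (B 6494) (B 6601)))) (N (B 6806) (N (B 6810) (B 6822)))))) (I (D (N (Tr.A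
  6038) (Tr.A 6051)) (D (Tr.A 6510) (N (Tr.A 6924) (Tr.A 6947)))) (D (Tr.A 6173) (Tr.A 7089))))))

def t3 : Tr :=
  (I (N (D (I E4 (I E4 (Tr.A 1747))) (I E4 (I (I E4 (I E4 (D E4 (B 3379)))) (I (Tr.A 3439) (Tr.A 3504)))))
  (D (I E4 (I E4 (Tr.A 1747))) (I E4 (I (I E4 (D E4 (D (B 2957) (B 3384)))) (I (N (Tr.A 3440) (Tr.A 3442))
  (Tr.A 3508)))))) (N (D (I (Tr.A 1903) (Tr.A 2121)) (I (N (D (Tr.A 2854) (Tr.A 3809)) (Tr.A 3810)) (Tr.A 4244))) (D (I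
  (Tr.A 1903) (Tr.A 2121)) (I (Tr.A 3816) (Tr.A 4246)))))

def t4 : Tr :=
  (N (D (I E4 (I (D (I E4 (D (B 3807) (N (B 4228) (B 4233)))) (I (D E4 (I E4 (B 5020))) (D (D (B
  4452) (B 4668)) (D (B 4886) (B 5104))))) (I (D (Tr.A 4311) (D (B 4750) (Tr.A 5193))) (Tr.A 5288)))) (I (D
  E4 (D (N (B 6205) E4) (B 6680))) (I (D (D (I (I E4 (N (B 5434) (B 5445))) (D (B 5323) (B 5543)))
  (I (D (N (B 5649) (B 5662)) (N (B 5866) (B 5881))) (D (N (B 5743) (B 5755)) (N (B 5962) (B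
  5977))))) (D (I (D (N (B 6083) (B 6100)) (N (B 6302) (B 6322))) (D (N (B 6183) (B 6200)) (N (B
  6405) (B 6424)))) (I (D (N (B 6522) (B 6544)) (B 6783)) (D (N (B 6628) (B 6650)) (I (B 6837) (B
  6893)))))) (I (D (I (D (B 5590) (Tr.A 6037)) (Tr.A 6090)) (I (D (N (B 6459) (B 6478)) (N (Tr.A 6911) (B
  6935))) (D (Tr.A 6547) (Tr.A 7010)))) (D (Tr.A 6200) (N (Tr.A 7095) (Tr.A 7118))))))) (D (I E4 (I (I E4 (D (D
  (B 3813) (B 4245)) (D (B 4681) (N (B 5106) (B 5115))))) (I (D (N (Tr.A 4312) (Tr.A 4316)) (D (B 4763)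
  (B 5210))) (Tr.A 5304)))) (I (D E4 (D E4 (N (B 6693) E4))) (I (D (D (I (D (B 5256) (B 5476)) (N (B
  5547) (B 5558))) (I (D (B 5698) (B 5921)) (N (B 5992) (B 6008)))) (D (I (D (B 6146) (B 6374)) (N
  (B 6444) (B 6465))) (I (D (B 6604) (B 6836)) (D (B 6710) (B 6946))))) (I (D (D (B 5662) (N (B
  6094) (B 6110))) (D (N (B 6553) (B 6573)) (N (N (B 6999) (B 7012)) (B 7046)))) (D (Tr.A 6230) (D (Tr.A
  6703) (Tr.A 7186))))))))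

def t5 : Tr :=
  (N (D (I (N (D (I (Tr.A 2448) (Tr.A 2993)) (I (Tr.A 4887) (Tr.A 5947))) (D (I (Tr.A 2448) (Tr.A 2993)) (I (Tr.A 4886)
  (Tr.A 5939)))) (N (D (Tr.A 4181) (Tr.A 7892)) (Tr.A 7907))) (I (N (D (I (Tr.A 7312) (D (Tr.A 7400) (Tr.A 8831))) (I
  (I (Tr.A 9057) (Tr.A 9732)) (I (Tr.A 10570) (D (Tr.A 10240) (Tr.A 11623))))) (D (I (Tr.A 7308) (Tr.A 8801)) (I (N (Tr.A
  9673) (Tr.A 9670)) (D (Tr.A 10190) (Tr.A 11545))))) (N (D (I (D (Tr.A 9335) (Tr.A 10707)) E3) (I (I (Tr.A 12309)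
  (Tr.A 12872)) E3)) (D (Tr.A 10889) (Tr.A 13077))))) (D (I (N (D (Tr.A 2992) (I (Tr.A 4885) (Tr.A 5931))) (Tr.A 5924))
  (Tr.A 7938)) (I (N (D (I (Tr.A 7305) (Tr.A 8773)) (I (Tr.A 9719) (Tr.A 11480))) (D (Tr.A 8749) (I (Tr.A 9723) (Tr.A
  11428)))) (Tr.A 13244))))

def t6 : Tr :=
  (N (D (I (D (N (B 7385) (B 7419)) (B 8316)) (I (D (D (N (B 7194) (N (B 7198) (B 7211))) (N (B
  7627) (B 7660))) (D (B 8132) (B 8587))) (D (I (D (Tr.A 7366) (Tr.A 7817)) (Tr.A 7961)) (I (D (N (B 8204)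
  (B 8245)) (N (B 8652) (B 8701))) (D (Tr.A 8425) (Tr.A 8896)))))) (I (D (B 9221) (B 10164)) (D (D (N (B
  9270) (B 9329)) (N (B 9735) (B 9807))) (D (N (B 10206) (B 10293)) (B 10863))))) (D (I (D (N (B
  7456) (B 7494)) (B 8431)) (I (D (D (N (N (B 7225) (B 7239)) (D (B 7053) (B 7278))) (N (B 7695)
  (B 7732))) (D (N (B 8149) (B 8195)) (B 8698))) (D (I (D (I (N (Tr.A 7310) (Tr.A 7339)) (Tr.A 7421)) (I (D
  (Tr.A 7588) (N (B 7760) (B 7797))) (Tr.A 7887))) (D (Tr.A 7555) (Tr.A 8029))) (I (D (N (N (B 8251) (B 8273))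
  (N (B 8295) (B 8318))) (N (B 8754) (B 8810))) (D (N (Tr.A 8435) (Tr.A 8479)) (I (N (Tr.A 8831) (Tr.A 8886))
  (Tr.A 9001))))))) (I (D (B 9395) (B 10417)) (D (D (N (N (B 9338) (B 9370)) (N (B 9404) (B 9438)))
  (N (B 9884) (B 9966))) (D (N (B 10386) (B 10486)) (N (B 10900) (B 11019)))))))

def t7 : Tr :=
  (D (I (I (D (N (Tr.A 8220) (Tr.A 8249)) (I (N (Tr.A 8980) (Tr.A 9026)) (Tr.A 9249))) (D (Tr.A 8649) (N (Tr.A 9568) (Tr.A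
  9607)))) (I (D (Tr.A 9081) (Tr.A 10136)) (D (Tr.A 9592) (Tr.A 10698)))) (I (I (D (I (D (Tr.A 9553) (N (B 9921)
  (Tr.A 9990))) (D (Tr.A 9745) (Tr.A 10249))) (I (D (N (B 10401) (B 10484)) (N E2 (B 10987))) (D (N (Tr.A
  10609) (Tr.A 10689)) (N E2 (N (B 11109) (B 11158)))))) (D (I (N (Tr.A 10335) (Tr.A 10397)) (Tr.A 10697)) (D
  (I (Tr.A 10988) (Tr.A 11230)) (N E2 (I (N (Tr.A 11336) (Tr.A 11382)) (Tr.A 11671)))))) (I (D (I (Tr.A 10948) (Tr.A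
  11219)) (I (D (Tr.A 11492) (N E2 (Tr.A 11933))) (D (Tr.A 11773) (N E2 (Tr.A 12215))))) (D (I (Tr.A 11512) (Tr.A
  11830)) (I (D (Tr.A 12077) (N E2 (Tr.A 12518))) (D (Tr.A 12406) (N E2 (Tr.A 12843))))))))

def t8 : Tr :=
  (D (I (I (D (D (Tr.A 7853) (Tr.A 8342)) (I (D (Tr.A 8669) (Tr.A 9168)) (Tr.A 9347))) (D (Tr.A 8705) (N (Tr.A 9649) (Tr.A
  9695)))) (I (D (Tr.A 9127) (Tr.A 10208)) (N (Tr.A 10648) (Tr.A 10677)))) (I (I (D (I (D (N (Tr.A 9565) (Tr.A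
  9631)) (I (N (Tr.A 9973) (N (B 9986) (B 10027))) (N (Tr.A 10064) (Tr.A 10144)))) (D (Tr.A 9865) (N (Tr.A 10258)
  (Tr.A 10334)))) (D (I (N (N (B 10495) (B 10541)) (N (B 10589) (B 10638))) (N (N (Tr.A 10695) (Tr.A
  10740)) (D (Tr.A 10599) (Tr.A 10867)))) (N (D (B 11037) (B 11302)) (D (N (B 11049) (B 11101)) (B
  11412))))) (D (I (D (Tr.A 10065) (Tr.A 10603)) (N (Tr.A 10687) (Tr.A 10756))) (D (I (N (Tr.A 10989) (Tr.A 11077))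
  (N (Tr.A 11220) (Tr.A 11302))) (I (N (D (Tr.A 11256) (Tr.A 11524)) (I (N (Tr.A 11422) (Tr.A 11477)) (Tr.A 11629))) (N
  (Tr.A 11762) (N (Tr.A 11762) (Tr.A 11812))))))) (I (D (I (Tr.A 11067) (Tr.A 11325)) (D (I (Tr.A 11634) (Tr.A 11900))
  (I (N (Tr.A 12016) (Tr.A 12106)) (N (Tr.A 12289) (Tr.A 12370))))) (D (N (Tr.A 11760) (Tr.A 11804)) (I (D (Tr.A 12186)
  (N (Tr.A 12581) (Tr.A 12652))) (D (Tr.A 12494) (Tr.A 13090)))))))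

def t9 : Tr :=
  (D (I (D (N (N (B 11732) (B 11794)) (N (B 11858) (B 11923))) (N (N (B 12265) (B 12337)) (N (B
  12410) (B 12486)))) (D (I (N (D (N (B 11694) (B 11748)) (N (B 11960) (B 12018))) (D (N (B 11804)
  (B 11862)) (N (B 12079) (B 12141)))) (N (I (N (Tr.A 12080) (Tr.A 12136)) (N (Tr.A 12203) (Tr.A 12258))) (D
  (Tr.A 12142) (N (Tr.A 12314) (Tr.A 12373))))) (I (N (D (N (B 12228) (B 12291)) (N E2 (B 12566))) (D (N (B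
  12356) (B 12423)) (N (B 12636) (B 12707)))) (N (D (I (N (B 12349) (B 12410)) (Tr.A 12594)) (N E2 (N
  (B 12747) (B 12779)))) (D (I (N (B 12473) (B 12538)) (N (Tr.A 12594) (Tr.A 12656))) (N (N (B 12811) (B
  12844)) (N (B 12877) (B 12910)))))))) (I (D (N (N E2 (B 12889)) (N (B 12973) (B 13058))) (N E2
  (B 13708))) (D (N (D (N E2 (N E2 (B 13055))) E2) (I (N (B 13201) (B 13280)) (D (N (N (B 13089)
  (B 13124)) (B 13228)) (N (B 13442) (B 13515))))) (N E2 (N (N E2 (B 13970)) (N (B 14010) (B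
  14049)))))))

def t10 : Tr :=
  (I (D (I (N (N (Tr.A 12464) (Tr.A 12514)) (N (Tr.A 12566) (Tr.A 12619))) (N (N (Tr.A 12742) (Tr.A 12787)) (N (Tr.A
  12833) (Tr.A 12882)))) (I (N (D (N (Tr.A 12738) (Tr.A 12791)) (N E2 (N (Tr.A 13007) (Tr.A 13036)))) (D (N (Tr.A
  12847) (Tr.A 12904)) (I (N (Tr.A 13000) (Tr.A 13064)) (N (Tr.A 13129) (Tr.A 13190))))) (N (D (N (Tr.A 13019) (Tr.A
  13066)) (I (N E2 (Tr.A 13206)) (Tr.A 13423))) (D (N (Tr.A 13116) (Tr.A 13167)) (N (Tr.A 13399) (Tr.A 13453))))))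
  (D (I (N (N (Tr.A 13040) (Tr.A 13078)) (Tr.A 13230)) (N (N (Tr.A 13358) (Tr.A 13389)) (Tr.A 13533))) (I (N (D (N
  (Tr.A 13318) (Tr.A 13359)) (N E2 (Tr.A 13640))) (I (N (Tr.A 13540) (Tr.A 13590)) (Tr.A 13811))) (N (D (N (Tr.A 13638)
  (Tr.A 13671)) (N E2 (Tr.A 13952))) (N (Tr.A 13988) (Tr.A 14027))))))

def t11 : Tr :=
  (I (D (N (D (N E2 (I (I (N E2 (Tr.A 13183)) (Tr.A 13351)) (I (Tr.A 13487) (Tr.A 13628)))) E2) (I (D (I (N (N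
  (Tr.A 13215) (B 13248)) (N (B 13282) (B 13316))) (N (Tr.A 13413) (Tr.A 13476))) (N (I (N (B 13495) (B
  13530)) (I (N (Tr.A 13560) (B 13594)) (N (Tr.A 13625) (Tr.A 13658)))) (D (N (B 13550) (B 13583)) (B
  13763)))) (D (I (N (Tr.A 13546) (Tr.A 13606)) (N (Tr.A 13683) (Tr.A 13739))) (N (I (N (Tr.A 13758) (Tr.A 13789))
  (N (Tr.A 13895) (Tr.A 13924))) (I (N (Tr.A 13821) (Tr.A 13853)) (Tr.A 14025)))))) (N E2 (I (D (N (N E2 (B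
  13939)) (N (B 13974) (B 14009))) (N E2 (B 14335))) (D (N (N E2 (I (D (B 13930) (B 14070)) (D (Tr.A
  14065) (Tr.A 14205)))) (I (D (N (B 13962) (B 13994)) (N (B 14103) (B 14136))) (N (N (Tr.A 14198) (Tr.A
  14213)) (N (Tr.A 14229) (Tr.A 14244))))) (N E2 (D (N (B 14375) (B 14406)) (N (B 14515) (B
  14546)))))))) (N (D (D (N E2 (I (N E2 (Tr.A 13879)) (N E2 (Tr.A 14186)))) E2) E2) (D (I (D (I (N (Tr.A
  13823) (Tr.A 13876)) (Tr.A 14101)) (N (I (Tr.A 14106) (Tr.A 14250)) (I (Tr.A 14160) (Tr.A 14300)))) (D (N (Tr.A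
  14270) (Tr.A 14309)) (N (I (Tr.A 14398) (Tr.A 14549)) (N (Tr.A 14522) (Tr.A 14543))))) (I (D (N (N E2 (I (N (Tr.A
  14306) (Tr.A 14320)) (Tr.A 14484))) (I (N (Tr.A 14371) (Tr.A 14399)) (N (Tr.A 14509) (Tr.A 14535)))) (N E2 (I (D
  (N (Tr.A 14510) (B 14538)) (N (N E2 (B 14625)) (B 14677))) (D (N (Tr.A 14648) (Tr.A 14674)) (N (N E2 (Tr.A
  14762)) (Tr.A 14812)))))) (N (D (I (N E2 (Tr.A 14629)) (N E2 (Tr.A 14777))) E2) (D (I (N (Tr.A 14652) (Tr.A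
  14675)) (Tr.A 14867)) (I (N (N (D (Tr.A 14753) E2) (D (Tr.A 14765) (Tr.A 14901))) (N (Tr.A 14913) (Tr.A 14925)))
  (N (N (D (Tr.A 14898) E2) (Tr.A 15044)) (N (Tr.A 15055) (Tr.A 15065))))))))))

def t12 : Tr :=
  (N (D (I (D (D (B 7132) (B 7595)) (N (B 8466) (B 8532))) (I (D (D (D (N (B 7080) (B 7108)) (N (B
  7308) (B 7340))) (N (N (B 7741) (B 7760)) (N (B 7780) (B 7801)))) (D (N (B 8244) (B 8295)) (N (B
  8727) (B 8791)))) (D (I (D (I (D (B 7184) (N (B 7369) (B 7401))) (N (Tr.A 7432) (B 7463))) (N (D (N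
  (B 7638) (B 7655)) (B 7901)) (D (B 7701) (B 7941)))) (D (Tr.A 7615) (I (Tr.A 8033) (Tr.A 8104)))) (I (D
  (N (N (B 8342) (B 8366)) (D (B 8184) (B 8430))) (N (B 8870) (N (B 8884) (B 8916)))) (D (I (D (Tr.A
  8280) (N (B 8452) (B 8501))) (Tr.A 8605)) (I (D (N (B 8697) (B 8753)) (N (B 8945) (B 9007))) (D (Tr.A
  8861) (Tr.A 9120)))))))) (I (D (N (B 9450) (B 9550)) (B 10699)) (D (D (N (N (B 9473) (B 9510)) (N
  (B 9547) (B 9586))) (N (B 10054) (N (B 10074) (B 10121)))) (D (N (B 10591) (B 10703)) (N (B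
  11145) (B 11277)))))) (D (I (D (D (B 7202) (B 7684)) (N (B 8601) (B 8673))) (I (D (D (I (N (B
  7259) (B 7294)) (D (B 7184) (B 7426))) (D (N (B 7612) (B 7651)) (N (B 7854) (B 7898)))) (D (N (B
  8348) (B 8404)) (N (B 8858) (B 8928)))) (D (I (D (D (B 7304) (B 7549)) (D (B 7797) (B 8050))) (D
  (N (Tr.A 7626) (B 7659)) (D (B 7932) (B 8187)))) (D (I (D (B 8306) (B 8566)) (D (B 8447) (N (B
  8627) (B 8681)))) (D (I (B 8831) (N (B 8885) (B 8946))) (N (B 9148) (B 9216))))))) (I (D (N (B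
  9655) (B 9764)) (N (B 10795) (B 10951))) (D (D (N (N (B 9625) (B 9666)) (N (B 9707) (B 9750)))
  (N (N (B 10170) (B 10219)) (B 10345))) (D (N (B 10820) (B 10942)) (N (B 11415) (B 11558)))))))

def t13 : Tr :=
  (I (I (D (I (D (I (D (Tr.A 9465) (N (B 9614) (B 9689))) (N (Tr.A 9700) (Tr.A 9774))) (I (D (N (B 9875) (B
  9958)) (N (B 10140) (B 10231))) (N (Tr.A 10229) (N (Tr.A 10247) (Tr.A 10293))))) (D (N (Tr.A 9881) (Tr.A 9952))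
  (N (N (Tr.A 10346) (Tr.A 10387)) (N (Tr.A 10430) (Tr.A 10475))))) (D (I (N (N (B 10689) (B 10741)) (N (B
  10795) (B 10849))) (N (I (N (Tr.A 10784) (Tr.A 10835)) (Tr.A 10966)) (I (D (Tr.A 10690) (B 10974)) (Tr.A
  11070)))) (N (D (N (B 11154) (B 11209)) (B 11529)) (D (B 11359) (B 11652))))) (D (I (D (Tr.A 10197)
  (Tr.A 10763)) (N (Tr.A 10830) (Tr.A 10910))) (D (I (N (Tr.A 11171) (Tr.A 11271)) (N (Tr.A 11391) (Tr.A 11486))) (I (N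
  (I (N (Tr.A 11533) (Tr.A 11592)) (Tr.A 11740)) (D (Tr.A 11562) (N (B 11755) (B 11815)))) (N (N (Tr.A 11864) (Tr.A
  11918)) (Tr.A 12075)))))) (I (D (N (Tr.A 11305) (Tr.A 11374)) (I (D (Tr.A 11802) (N (Tr.A 12203) (Tr.A 12306))) (N
  (Tr.A 12458) (Tr.A 12553)))) (D (Tr.A 12003) (I (N (Tr.A 12730) (Tr.A 12815)) (Tr.A 13220)))))

def t14 : Tr :=
  (D (I (I (D (I (N (Tr.A 8266) (Tr.A 8308)) (Tr.A 8492)) (I (D (Tr.A 8864) (N (N (Tr.A 9257) (Tr.A 9289)) (Tr.A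
  9374))) (N (Tr.A 9478) (Tr.A 9542)))) (D (Tr.A 8841) (Tr.A 9961))) (D (Tr.A 9720) (Tr.A 10900))) (I (I (D (I (D (N
  (D (B 9578) (B 9852)) (N (B 9870) (B 9911))) (N (D (B 10131) (B 10414)) (B 10513))) (D (N (Tr.A
  10028) (Tr.A 10107)) (N (N (Tr.A 10520) (Tr.A 10567)) (Tr.A 10691)))) (D (N (D (N (B 10804) (B 10855)) (B
  11180)) (I (B 11113) (B 11294))) (N (N (B 11677) (B 11742)) (B 11914)))) (D (I (N (Tr.A 10788) (Tr.A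
  10881)) (Tr.A 11149)) (I (D (N (Tr.A 11376) (Tr.A 11487)) (N (D (B 11676) (B 11980)) (B 12107))) (D (Tr.A
  11768) (N (Tr.A 12191) (Tr.A 12312)))))) (I (D (Tr.A 11604) (I (N (Tr.A 12415) (Tr.A 12529)) (Tr.A 12860))) (D (Tr.A
  12124) (Tr.A 13374)))))

def t15 : Tr :=
  (D (I (D (N (N (B 11991) (B 12060)) (N (B 12131) (B 12203))) (N (N (B 12563) (B 12642)) (B
  12855))) (D (I (N (D (N (B 11921) (B 11983)) (N (B 12205) (B 12271))) (D (N (B 12045) (B 12110))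
  (B 12455))) (N (D (Tr.A 12255) (N (Tr.A 12433) (Tr.A 12495))) (D (Tr.A 12374) (N (B 12558) (B 12622))))) (I
  (N (D (N (B 12491) (B 12561)) (B 12911)) (N (B 12929) (B 13006))) (N (D (N (N (B 12659) (B
  12692)) (B 12786)) (N (B 13009) (B 13078))) (D (N (B 12853) (B 12921)) (B 13280)))))) (I (D (N
  (B 13293) (B 13467)) (N (B 13892) (B 14076))) (D (N (D (N (B 13299) (B 13372)) (B 13735)) (N (B
  13741) (B 13817))) (N (N (B 14169) (B 14248)) (B 14481)))))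

def t16 : Tr :=
  (D (I (D (I (N (N (Tr.A 12675) (Tr.A 12732)) (N (Tr.A 12791) (Tr.A 12851))) (N (Tr.A 13046) (Tr.A 13152))) (I (N
  (D (N (Tr.A 12963) (Tr.A 13023)) (I (N (Tr.A 13129) (B 13195)) (Tr.A 13381))) (D (Tr.A 13208) (N (B 13380) (B
  13446)))) (N (I (N (Tr.A 13378) (Tr.A 13439)) (Tr.A 13637)) (N (Tr.A 13624) (Tr.A 13683))))) (D (I (N (Tr.A 13318)
  (Tr.A 13412)) (Tr.A 13832)) (N (I (N (Tr.A 13780) (Tr.A 13830)) (Tr.A 14190)) (I (Tr.A 14006) (Tr.A 14273))))) (I (D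
  (N (I (D (N (N (B 13473) (B 13506)) (B 13607)) (N (N (B 13759) (B 13793)) (B 13899))) (D (N (N
  (Tr.A 13730) (Tr.A 13759)) (Tr.A 13856)) (N (I (N (Tr.A 13885) (B 13917)) (Tr.A 14084)) (N (B 14075) (B
  14106))))) (D (N (I (B 13675) (Tr.A 13916)) (B 13977)) (B 14344))) (N (N (D (D (B 14227) (B 14370))
  (B 14653)) (N (B 14640) (B 14671))) (B 14923))) (N (D (I (D (N (Tr.A 14066) (Tr.A 14117)) (N (N (Tr.A
  14282) (Tr.A 14308)) (Tr.A 14403))) (N (N (D (Tr.A 14286) (Tr.A 14564)) (Tr.A 14585)) (Tr.A 14673))) (I (D (N (I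
  (N (Tr.A 14427) (Tr.A 14456)) (Tr.A 14633)) (N (B 14614) (B 14641))) (N (D (N (B 14700) (B 14727)) (B
  14912)) (B 14964))) (N (D (N (I (Tr.A 14699) (Tr.A 14839)) (Tr.A 14860)) (I (N (Tr.A 14974) (Tr.A 14997)) (N (Tr.A
  15112) (Tr.A 15133)))) (D (Tr.A 14950) (B 15225))))) (D (I (N (N (Tr.A 14388) (Tr.A 14415)) (Tr.A 14509)) (N (Tr.A
  14716) (Tr.A 14760))) (D (N (B 14993) E1) E1)))))

def t17 : Tr :=
  (N (D (I (I (D (Tr.A 10205) (Tr.A 11367)) (D (Tr.A 10947) (D (Tr.A 11557) (Tr.A 12169)))) (I (D (Tr.A 11856) (I (Tr.A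
  12628) (N (Tr.A 13031) (Tr.A 12986)))) (D (D (Tr.A 12302) (Tr.A 12791)) (D (Tr.A 13192) (Tr.A 13562))))) (I (I (D
  (I (N (Tr.A 12036) (Tr.A 12057)) (N (Tr.A 12410) (Tr.A 12419))) (I (D (N (Tr.A 12600) (Tr.A 12624)) (N E2 (Tr.A
  13193))) (D (N (Tr.A 12984) (Tr.A 12994)) (N E2 (Tr.A 13569))))) (D (I (D (Tr.A 12351) (Tr.A 12955)) (D (Tr.A
  12782) (N (Tr.A 13257) (Tr.A 13236)))) (I (D (N (N (Tr.A 13322) (Tr.A 13316)) (Tr.A 13392)) (N E2 (N (Tr.A 13881)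
  (Tr.A 13880)))) (D (N (I (Tr.A 13619) (Tr.A 13847)) (Tr.A 13821)) (N E2 (I (Tr.A 14182) (Tr.A 14382))))))) (I (D
  (I (D (Tr.A 13251) (I (Tr.A 13627) (N (Tr.A 13734) (Tr.A 13693)))) (D (Tr.A 13641) (Tr.A 13971))) (I (D (N (D (Tr.A
  13929) (Tr.A 14077)) (Tr.A 14177)) (N E2 (Tr.A 14466))) (D (Tr.A 14276) (Tr.A 14560)))) (D (N (N (Tr.A 14092) (Tr.A
  14133)) (Tr.A 14218)) (N E3 (Tr.A 14777)))))) (D (I (I (N (Tr.A 11286) (Tr.A 11301)) (N (Tr.A 12045) (Tr.A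
  12041))) (I (D (Tr.A 11801) (Tr.A 13052)) (Tr.A 13706))) (I (I (D (N (Tr.A 12435) (Tr.A 12458)) (I (D (Tr.A 12824)
  (Tr.A 13424)) (D (Tr.A 13180) (Tr.A 13781)))) (D (N (Tr.A 13223) (Tr.A 13218)) (I (D (Tr.A 13560) (N (Tr.A 13973) (Tr.A
  13984))) (D (Tr.A 13967) (N (Tr.A 14380) (Tr.A 14371)))))) (I (D (D (Tr.A 13665) (Tr.A 14156)) (D (Tr.A 14479) (Tr.A
  14780))) (N (Tr.A 14880) (Tr.A 14985))))))

def t18 : Tr :=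
  (D (I (D (I (N (N (Tr.A 13697) (Tr.A 13720)) (Tr.A 13854)) (N (N (Tr.A 14058) (Tr.A 14072)) (Tr.A 14195))) (N (I
  (D (N (Tr.A 13977) (Tr.A 14001)) (N E2 (Tr.A 14281))) (D (N (Tr.A 14337) (Tr.A 14352)) (N E2 (Tr.A 14629)))) (I (N
  (Tr.A 14308) (Tr.A 14337)) (N (Tr.A 14645) (Tr.A 14664))))) (D (I (N (N (Tr.A 14441) (Tr.A 14445)) (Tr.A 14554)) (N
  (Tr.A 14780) (Tr.A 14906))) (N (I (D (N (Tr.A 14718) (Tr.A 14721)) (N E2 (Tr.A 14981))) (Tr.A 15046)) (D (N (Tr.A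
  14980) (Tr.A 15045)) (N (Tr.A 15113) (Tr.A 15180)))))) (I (D (I (N (D (N E2 (N E2 (Tr.A 14510))) E2) (D (N
  (Tr.A 14587) (Tr.A 14616)) (I (N (Tr.A 14705) (Tr.A 14739)) (N (Tr.A 14864) (Tr.A 14893))))) (N (D (N E2 (N E2 (Tr.A
  14851))) E2) (N (I (N (Tr.A 14962) (Tr.A 14973)) (N (Tr.A 15130) (Tr.A 15138))) (N (D (Tr.A 14878) (Tr.A 15148))
  (Tr.A 15157))))) (N E2 (I (D (N (I (N E2 (Tr.A 14929)) (N E2 (Tr.A 15084))) (I (Tr.A 15015) (Tr.A 15167))) (N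
  E2 (I (N (N (Tr.A 15182) (Tr.A 15191)) (Tr.A 15235)) (N (N (Tr.A 15333) (Tr.A 15340)) (Tr.A 15383))))) (D (N (I (N
  E2 (Tr.A 15243)) (Tr.A 15379)) (N (I (Tr.A 15255) (Tr.A 15415)) (Tr.A 15424))) (N E2 (N (I (N (Tr.A 15488) (Tr.A
  15493)) (Tr.A 15540)) (I (Tr.A 15534) (Tr.A 15579)))))))) (D (N (N E2 (D (I (Tr.A 15110) (Tr.A 15172)) E2)) (D
  (N (Tr.A 15242) (Tr.A 15311)) (N (Tr.A 15366) (Tr.A 15438)))) (N E2 (N (I (Tr.A 15550) (Tr.A 15604)) (I (Tr.A 15627)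
  (Tr.A 15679)))))))

def t19 : Tr :=
  (D (I (D (I (N (I (N (Tr.A 14368) (Tr.A 14401)) (N (Tr.A 14685) (Tr.A 14707))) (D (Tr.A 14281) (Tr.A 14846))) (D
  (N (Tr.A 14928) (Tr.A 14935)) (N (Tr.A 15315) (Tr.A 15448)))) (I (N (D (I (N (N (Tr.A 14859) (Tr.A 14875)) (Tr.A
  14955)) (N (Tr.A 15230) (Tr.A 15250))) (I (N (D (N (Tr.A 15129) (Tr.A 15145)) (I (N (Tr.A 15253) (Tr.A 15271)) (Tr.A
  15467))) (D (Tr.A 15228) (N (Tr.A 15428) (B 15444)))) (D (N (N (Tr.A 15433) (Tr.A 15443)) (Tr.A 15517)) (N (N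
  (Tr.A 15617) (Tr.A 15656)) (Tr.A 15733))))) (D (I (Tr.A 15115) (Tr.A 15394)) (I (N (N (Tr.A 15460) (B 15475)) E1)
  (N (Tr.A 15800) E1)))) (D (N (N (Tr.A 15509) (Tr.A 15579)) (Tr.A 15719)) (N (N (Tr.A 15754) (Tr.A 15828)) (Tr.A
  15973))))) (D (Tr.A 15738) (N (Tr.A 16081) (I (Tr.A 16081) E3)))) (I (D (D (N (D (I (N (D (I (I (N (Tr.A
  15388) (B 15405)) (N (Tr.A 15531) (B 15546))) (Tr.A 15717)) (I (N (B 15664) E1) (Tr.A 15778))) E1) (Tr.A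
  15947)) E1) E1) E1) E1) (N E3 E1)))

def t20 : Tr :=
  (D (I (N (D (I E4 (I E4 (Tr.A 1748))) (I E4 (I (I E4 (D E4 (D E4 (B 3388)))) (I (Tr.A 3448) (Tr.A
  3512))))) (D (I E4 (I E4 (Tr.A 1748))) (I E4 (I E4 (Tr.A 3516))))) (N (D (I (Tr.A 1903) (Tr.A 2121)) (I (Tr.A
  3820) (Tr.A 4248))) (D (Tr.A 2122) (Tr.A 4251)))) (I (N (D (I E4 (I (I E4 (D (D (B 3820) (B 4255)) (D (B
  4694) (B 5139)))) (I (D (Tr.A 4329) (D (B 4776) (B 5227))) (Tr.A 5322)))) (I E4 (I (D (D (I E4 (B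
  5590)) (I (B 5954) (B 6050))) (D (I (B 6418) (B 6520)) (I (B 6894) (B 7002)))) (I (D (D (B 5686)
  (B 6152)) (D (B 6629) (B 7117))) (D (Tr.A 6261) (N (Tr.A 7196) (Tr.A 7224))))))) (D (I E4 (I (I E4 (I E4
  (D (B 4265) (B 5158)))) (I (N (Tr.A 5230) (Tr.A 5239)) (Tr.A 5340)))) (I E4 (I (D (I E4 (D (B 5616) (B
  6084))) (D (N (B 6531) (B 6554)) (N (B 7017) (B 7048)))) (I (D (N (Tr.A 6159) (Tr.A 6176)) (D (B 6674)
  (B 7177))) (Tr.A 7299)))))) (N (D (I (N (Tr.A 5758) (Tr.A 5765)) (Tr.A 6397)) (I (I (N (Tr.A 7467) (Tr.A 7493)) (Tr.A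
  7826)) (Tr.A 8617))) (D (I (Tr.A 5790) (Tr.A 6408)) (I (Tr.A 7878) (Tr.A 8657))))))

def t21 : Tr :=
  (I (N (D (I (D (D E4 (B 7780)) (D (B 8305) (B 8854))) (I (D (D (I (B 7385) (B 7499)) (I (B 7894)
  (B 8014))) (D (N (B 8463) (B 8524)) (N (B 9002) (B 9078)))) (D (D (I (B 7621) (B 7751)) (I (B
  8142) (B 8278))) (D (D (B 8549) (B 8826)) (D (B 9108) (B 9396)))))) (I (D (N (B 9878) (B 9996))
  (B 11330)) (D (D (I (N (B 9563) (B 9657)) (N (B 9858) (B 9949))) (N (B 10452) (B 10562))) (D (N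
  (B 11068) (B 11199)) (B 11922))))) (D (I (D E4 (D E4 (B 9019))) (I (D (D (N (B 7520) (B 7560))
  (B 8115)) (D (B 8679) (B 9271))) (D (D (N (B 7768) (B 7807)) (N (B 8302) (B 8352))) (D (B 8951)
  (B 9552))))) (I (D (N (B 10118) (B 10243)) (B 11669)) (D (D (N (B 10044) (B 10142)) (B 10842))
  (N (B 12010) (B 12167)))))) (N (D (I (I (D (N (Tr.A 8506) (Tr.A 8550)) (I (D (Tr.A 8977) (N (B 9443) (B
  9515))) (Tr.A 9720))) (Tr.A 10089)) (Tr.A 10997)) (I (I (D (I (D (N (B 10019) (B 10108)) (N (B 10617) (B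
  10724))) (D (Tr.A 10325) (N (B 10792) (B 10897)))) (D (N (B 11413) (B 11536)) (B 12267))) (D (N (Tr.A
  11176) (Tr.A 11273)) (I (D (Tr.A 11789) (B 12454)) (Tr.A 12650)))) (I (D (Tr.A 11771) (Tr.A 13075)) (Tr.A
  13547)))) (D (I (I (D (Tr.A 8673) (Tr.A 9870)) (Tr.A 10229)) (Tr.A 11108)) (I (I (D (D (B 10508) (B 11171))
  (N (B 12336) (B 12483))) (N (Tr.A 12697) (Tr.A 12831))) (Tr.A 13732)))))

def tree : Tr :=
  (N (D (I (N (D (I (N (D (I E4 (I E4 (Tr.A 1746))) (I E4 (I (I E4 (Tr.A 3371)) (Tr.A 3495)))) (D (I E4 (I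
  E4 (Tr.A 1746))) (I E4 (I (I E4 (I E4 (Tr.A 3375))) (D (Tr.A 2621) (Tr.A 3499)))))) (N (D (I (Tr.A 1902) (Tr.A
  2120)) (I (N (Tr.A 3802) (Tr.A 3804)) (Tr.A 4240))) (D (I (Tr.A 1902) (Tr.A 2121)) (I (D (Tr.A 2855) (Tr.A 3810)) (Tr.A
  4242))))) (I (N t1 t2) (N (D (I (I (Tr.A 5471) (Tr.A 5720)) (Tr.A 6364)) (I (I (D (Tr.A 6396) (Tr.A 7330)) (Tr.A
  7660)) (I (Tr.A 8046) (Tr.A 8505)))) (D (I (I (Tr.A 5485) (Tr.A 5733)) (Tr.A 6371)) (I (I (D (Tr.A 6420) (Tr.A 7370))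
  (Tr.A 7695)) (D (Tr.A 7443) (Tr.A 8525))))))) (D t3 (I t4 (N (D (I (I (Tr.A 5500) (Tr.A 5746)) (Tr.A 6378)) (I (I
  (D (Tr.A 6446) (Tr.A 7413)) (Tr.A 7734)) (N (Tr.A 8504) (Tr.A 8518)))) (D (I (I (Tr.A 5515) (Tr.A 5760)) (Tr.A 6387)) (I
  (I (D (Tr.A 6473) (Tr.A 7461)) (Tr.A 7778)) (Tr.A 8581))))))) t5) (I (N (D (I t6 (N t7 t8)) (I (N (D (I (N
  E2 (B 12098)) (D (N E2 (B 11811)) E2)) E2) (D (I (D (B 11509) (B 12673)) (D (D (N (B 11426) (B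
  11567)) (N (B 11966) (B 12129))) (N (N E2 (B 13016)) (N (B 13120) (B 13224))))) (I (D (B 13889)
  E2) (D (N E2 (B 14468)) E2)))) (N (D (I (D (D (D (N E2 (I (B 11459) (I (Tr.A 11691) (Tr.A 11939))))
  E2) E2) E2) (D (D (N E2 (I (I (N E2 (Tr.A 12416)) (N E2 (Tr.A 12700))) (I (N E2 (Tr.A 13004)) (N E2 (Tr.A
  13329))))) E2) E2)) E2) (D (I t9 (D t10 t11)) (I (D (D (N E2 (N E2 (B 14660))) E2) E2) (D (N E2
  (D (D (N E2 (I (N E2 (B 14824)) (N E2 (I (N (B 15048) (B 15061)) (D (I (N (Tr.A 15049) (B 15061))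
  (N (Tr.A 15190) (Tr.A 15200))) (N E2 (B 15334))))))) E2) E2)) E2)))))) (D (I t12 (N (D (I (I (D (I (Tr.A
  8253) (Tr.A 8413)) (I (D (Tr.A 8762) (N (Tr.A 9185) (Tr.A 9245))) (N (Tr.A 9359) (Tr.A 9416)))) (D (Tr.A 8769) (N (Tr.A
  9744) (Tr.A 9797)))) (I (N (Tr.A 10191) (Tr.A 10237)) (Tr.A 10817))) t13) t14)) (I (N (D (I (D (B 11894) (B
  13157)) (D (D (N (B 11714) (B 11868)) (N (B 12298) (B 12473))) (N (B 13496) (B 13704)))) (I (N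
  (B 15215) E1) (D (B 15071) E1))) (D (I (D (B 12298) (B 13633)) (D (D (B 12270) (B 12925)) (B
  14228))) E1)) (N (D (I t15 t16) (I (D (D (N (B 14911) E1) E1) E1) (D (D (N (D (I (B 15091) (N (D
  (I (B 15051) (N (B 15247) (B 15268))) (B 15457)) E1)) E1) E1) E1) E1))) (D (I (D (I (D (N (B
  12395) (B 12546)) (B 13287)) (D (N (D (N (B 12387) (B 12450)) (B 12806)) (B 12941)) (N (B 13423)
  (B 13569)))) (N (B 14632) E1)) (D (I (D (N (I (Tr.A 13028) (Tr.A 13263)) (Tr.A 13378)) (N (D (N (B 13447)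
  (B 13506)) (B 13870)) (B 13991))) (D (Tr.A 13994) (N (Tr.A 14361) (Tr.A 14452)))) (D (I (B 14731) (D (N
  (B 14649) E1) E1)) E1))) E1))))) (N (D (I t17 (N (D (I (I (D (Tr.A 13179) (Tr.A 13913)) E3) E3) E3) (D
  (Tr.A 14590) E3))) (I (N (D (I (D (N E2 (D (N E2 (I (I (Tr.A 13676) (N E2 (Tr.A 14000))) (I (N E2 (Tr.A
  14390)) (Tr.A 14656)))) E2)) E2) (D (N E2 (I (N E2 (D (Tr.A 14823) E2)) E3)) E2)) E2) (D (I t18 (D (I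
  (N (N (Tr.A 15131) (Tr.A 15195)) (Tr.A 15323)) E3) (N E3 (I (Tr.A 15800) E3)))) (I (D (N E2 (D (N E2 (D (I
  (N E2 (I (I (D (Tr.A 15370) (N E2 (I (B 15405) (Tr.A 15476)))) (N (D (Tr.A 15481) E2) (D (Tr.A 15488) (I (Tr.A
  15548) (Tr.A 15621))))) (I (Tr.A 15677) (Tr.A 15698)))) (Tr.A 15795)) E2)) E2)) E2) E3))) E3)) (D (I (N (D
  (I (D (Tr.A 10932) (Tr.A 12151)) (D (Tr.A 12767) (Tr.A 13857))) (I (I (D (Tr.A 12637) (N (Tr.A 13657) (Tr.A 13702)))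
  (D (Tr.A 13367) (N (Tr.A 14372) (Tr.A 14382)))) (D (Tr.A 14577) (Tr.A 15198)))) (D (I (Tr.A 12173) (Tr.A 13898)) (I
  (I (Tr.A 13947) (Tr.A 14580)) (Tr.A 15412)))) (N (D (Tr.A 14716) (Tr.A 15808)) E5)) (I (N t19 (D (I (I (D (N (Tr.A
  14897) (Tr.A 14952)) (D (N (Tr.A 15438) E1) E1)) (N (D (Tr.A 15477) (Tr.A 16114)) (D (Tr.A 15492) E1))) (N (D
  (Tr.A 15857) E5) E5)) E1)) E3))))) (D (I (N t20 (D (I (N (D (I E4 (I E4 (Tr.A 1749))) (I E4 (I E4 (Tr.A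
  3521)))) (D (I E4 (Tr.A 1749)) (I E4 (Tr.A 3525)))) (Tr.A 4263)) (I (N (D (I E4 (I (I E4 (D E4 (Tr.A 5177)))
  (Tr.A 5358))) (I E4 (I (I E4 (D (D (B 5643) (B 6121)) (D (B 6614) (B 7127)))) (Tr.A 7361)))) (D (I E4
  (Tr.A 5378)) (I E4 (D (Tr.A 6366) (Tr.A 7428))))) (Tr.A 8813)))) (N (D (Tr.A 7970) (I (Tr.A 11499) E5)) E5)) (I (N
  (D t21 (I (N (D (I (D (B 12710) E1) (D (B 13286) E1)) E1) E1) (N (D (I (D (D (B 13315) E1) E1)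
  (D (D (I (B 13724) (Tr.A 14172)) E1) E1)) E1) E1))) (D (I (N (D (I E4 (I (D (D (B 7662) (B 8224))
  (D (B 8817) (B 9444))) (D (Tr.A 8482) (D (B 9085) (B 9720))))) (I (D E4 (B 12017)) (D (D (B 10388)
  (B 11086)) (B 12546)))) (D (I E4 (I (I E4 (Tr.A 9627)) (Tr.A 9899))) (I E4 (D (B 11342) (B 12864)))))
  (N (D (Tr.A 11232) (I (N (Tr.A 12966) (Tr.A 13103)) E5)) E5)) E1)) (N (D (I (N (D (Tr.A 13838) (I (Tr.A 14633)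
  E5)) (Tr.A 15830)) E5) (I (N (D (I (N (D (Tr.A 15513) E1) E5) E5) E1) E1) E5)) E5))))

end

theorem tree_ok : chk tree 0 4294967296 0 3221225472 0 2684354560 = true := by decide +kernel

end Vale.Agent.P322
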