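import Vale.Agent.P322.BoxData

/-! The real-variable core of the induction step. -/

namespace Vale.Agent.P322

open Real Set

lemma split_eq {m d : ℝ} (h1 : -1 < m - d) (h2 : m + d < 1) (d0 : 0 < d) :
    (Ph (m + d) + Ph (m - d)) / 2 - Ph m =
      (1 + m) / 2 * Ph (d / (1 + m)) + (1 - m) / 2 * Ph (d / (1 - m)) ∧
    A (m + d) - A (m - d) = A (d / (1 + m)) + A (d / (1 - m)) := by
  have a1 : 0 < 1 + m := by linarith
  have a2 : 0 < 1 - m := by linarith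
  have e1 : 1 + d / (1 + m) = (1 + (m + d)) / (1 + m) := by field_simp; ring
  have e2 : 1 - d / (1 + m) = (1 + (m - d)) / (1 + m) := by field_simp; ring
  have e3 : 1 + d / (1 - m) = (1 - (m - d)) / (1 - m) := by field_simp; ring
  have e4 : 1 - d / (1 - m) = (1 - (m + d)) / (1 - m) := by field_simp; ring
  unfold Ph A
  rw [e1, e2, e3, e4, Real.log_div (by linarith) a1.ne', Real.log_div (by linarith) a1.ne',
    Real.log_div (by linarith) a2.ne', Real.log_div (by linarith) a2.ne']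
  constructor
  · field_simp; ring
  · ring

lemma kq_small {t : ℝ} (h0 : 0 ≤ t) (h1 : t ≤ 1 / 8) : kq t ≤ 1.643 * t := by
  unfold kq
  rw [div_le_iff₀ (by linarith)]
  nlinarith

lemma small_ineq {p w I σ : ℝ} (p0 : 0 ≤ p) (w0 : p / 12 ≤ w)
    (T : I + p * (1 / 2 + w) ≤ 1 / 8) (s1 : I ≤ σ * (1 + p)) (s2 : p ≤ σ) :
    1.643 * (1 / 2 + w) * (I + p * (1 / 2 + w) / 2) ≤ 2 * w + σ := by
  have w0' : 0 ≤ w := by linarith
  have pw : 0 ≤ p * w := by positivity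
  have b1 : I + p * (1 + w) / 2 ≤ 0.15 := by nlinarith
  have b2 := mul_le_mul_of_nonneg_left b1 w0'
  have b3 : 0.8215 * I + 0.0593 * p ≤ σ := by
    rcases le_total p I with c | c
    · have : p ≤ 1 / 12 := by nlinarith
      have : σ * p ≤ σ * (1 / 12) := mul_le_mul_of_nonneg_left this (by linarith)
      nlinarith
    · linarith
  nlinarith

lemma osq {z : ℝ} (h0 : -1 < z) (h1 : z < 1) : 0 < 1 - z ^ 2 := by nlinarith

lemma core_small {p I J K τ θ : ℝ} (p0 : 0 < p) (p1 : p < 1) (I0 : 0 ≤ I) (tI : I ≤ τ)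
    (tp : p ≤ τ * (1 - p)) (K1 : θ + p / (1 + p) * τ ≤ K) (K2 : 4 * J ≤ θ + p)
    (Jlo : p * (1 / 2 + p / 12) ≤ J) (hT : I + J ≤ 1 / 8) :
    J * (2 + (kq I + kq (I + J)) / 2) ≤ K := by
  obtain ⟨w, hw⟩ : ∃ w, J = p * (1 / 2 + w) := ⟨J / p - 1 / 2, by field_simp; ring⟩
  have w0 : p / 12 ≤ w := by
    have := le_of_mul_le_mul_left (hw ▸ Jlo) p0
    linarith
  have J0 : 0 ≤ J := by rw [hw]; exact mul_nonneg p0.le (by linarith)
  have s1 : I ≤ τ / (1 + p) * (1 + p) := by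
    rw [div_mul_cancel₀ _ (by linarith)]; exact tI
  have s2 : p ≤ τ / (1 + p) := by
    rw [le_div_iff₀ (by linarith)]
    refine le_of_mul_le_mul_right ?_ (show 0 < 1 - p by linarith)
    have : 0 ≤ p ^ 3 := by positivity
    nlinarith
  have key := small_ineq p0.le w0 (hw ▸ hT) s1 s2
  have key2 := mul_le_mul_of_nonneg_left key p0.le
  have q1 := kq_small I0 (by linarith)
  have q2 := kq_small (t := I + J) (by linarith) hT
  have q3 := mul_le_mul_of_nonneg_left (add_le_add q1 q2) J0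
  have e : p / (1 + p) * τ = p * (τ / (1 + p)) := by ring
  rw [e] at K1
  have e2 : p * (1.643 * (1 / 2 + w) * (I + p * (1 / 2 + w) / 2)) = 1.643 * J * (I + J / 2) := by
    rw [hw]; ring
  have e3 : p * (2 * w + τ / (1 + p)) = 2 * J - p + p * (τ / (1 + p)) := by rw [hw]; ring
  rw [e2, e3] at key2
  nlinarith

lemma small_K {m d δ K gb τ : ℝ} (h0 : -1 < m - d) (d0 : 0 < d) (h1 : m + d < 1)
    (hd : d = δ * (1 - m ^ 2)) (p0 : 0 < δ * δ * (1 - m ^ 2))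
    (hB : ∀ z, 0 < z → z < 1 → d * (A z + mB z * ((1 - z ^ 2) / z)) ≤ K + mB z * gb)
    (hg : gb ≤ gg (m + d) (m - d) * (1 - τ)) :
    d * ((A (m + d) - A (m - d)) / 2) +
      δ * δ * (1 - m ^ 2) / (1 + δ * δ * (1 - m ^ 2)) * τ ≤ K := by
  obtain ⟨z, z0, z1, hAz, g1, g2, -, -⟩ := exists_zz h0 (show m - d < m + d by linarith) h1
  have n1 : 0 < 1 - m ^ 2 := osq (by linarith) (by linarith)
  have k := hB z z0 z1
  have μ0 := mB_pos z0 z1
  have zq : 0 < 1 - z ^ 2 := osq (by linarith) z1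
  have k2 := mul_le_mul_of_nonneg_left hg μ0.le
  have g1' : gg (m + d) (m - d) = d * ((1 - z ^ 2) / z) := by
    rw [← mul_div_assoc, eq_div_iff z0.ne']; linarith
  set p := δ * δ * (1 - m ^ 2) with hp
  have g3 : mB z * gg (m + d) (m - d) = p / (1 + p) := by
    rw [g1', eq_div_iff (by linarith)]
    have g4 : z * (1 + p) = δ * (1 + z ^ 2) := by
      refine mul_left_cancel₀ n1.ne' ?_
      rw [hp]
      have : (m + d) * (m - d) = m ^ 2 - d ^ 2 := by ring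
      rw [this, hd] at g2
      linarith
    have : mB z * (d * ((1 - z ^ 2) / z)) * (1 + p) = d * (z * (1 + p)) / (1 + z ^ 2) := by
      unfold mB; field_simp
    rw [this, g4, hp, hd]; field_simp
  rw [← g3, ← hAz]; rw [g1'] at k2 ⊢; linarith

lemma big_A {m d δ K e : ℝ} (n1 : 0 < 1 - m ^ 2) (δ0 : 0 < δ) (hd : d = δ * (1 - m ^ 2))
    (hA : ∀ z, 0 < z → z < 1 → d * (A z + mA z * (H z / z)) ≤ K + mA z * e)
    (z c : ℝ) (z0 : 0 < z) (z1 : z < 1) (hc : δ ≤ c) (hz : z * e ≤ c * H z * (1 - m ^ 2)) :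
    δ * δ * (1 - m ^ 2) * A z ≤ c * K := by
  have c0 : 0 < c := by linarith
  obtain ⟨y, y0, y1, hy, k1, -⟩ := exists_scale z0 z1 (div_pos δ0 c0) ((div_le_one c0).2 hc)
  have k := hA y y0 y1
  have μ0 := mA_pos y0 y1
  have k2 : e ≤ d * (H y / y) := by
    have k3 := mul_le_mul_of_nonneg_left k1 (show 0 ≤ c * (1 - m ^ 2) by positivity)
    have e1 : c * (1 - m ^ 2) * (δ / c * (H y / y)) = d * (H y / y) := by
      rw [hd]; field_simp
    have k4 : e ≤ c * (1 - m ^ 2) * (H z / z) := by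
      rw [← mul_div_assoc, le_div_iff₀ z0]; linarith
    linarith
  have k5 := mul_le_mul_of_nonneg_left k2 μ0.le
  have k6 : d * A y ≤ K := by linarith
  have k7 := mul_le_mul_of_nonneg_left k6 c0.le
  refine le_trans (le_of_eq ?_) k7
  rw [hy, hd]; field_simp

lemma big_B {m d δ K gb τ : ℝ} (h0 : -1 < m - d) (d0 : 0 < d) (h1 : m + d < 1) (δ0 : 0 < δ)
    (hd : d = δ * (1 - m ^ 2))
    (hB : ∀ z, 0 < z → z < 1 → d * (A z + mB z * ((1 - z ^ 2) / z)) ≤ K + mB z * gb)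
    (hg : gb ≤ gg (m + d) (m - d) * (1 - τ))
    (z c : ℝ) (z0 : 0 < z) (z1 : z < 1) (hc : δ ≤ c)
    (hz : z * z * ((1 + (δ * δ * (1 - m ^ 2)) * (δ * δ * (1 - m ^ 2)) - 2 * (δ * δ * (1 + m ^ 2))) *
      ((1 - τ) * (1 - τ))) ≤ c * c * ((1 - z * z) * (1 - z * z))) :
    δ * δ * (1 - m ^ 2) * A z ≤ c * K := by
  have n1 : 0 < 1 - m ^ 2 := osq (by linarith) (by linarith)
  have c0 : 0 < c := by linarith
  obtain ⟨y, y0, y1, hy, -, k1⟩ := exists_scale z0 z1 (div_pos δ0 c0) ((div_le_one c0).2 hc)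
  have k := hB y y0 y1
  have μ0 := mB_pos y0 y1
  have zq : 0 < 1 - z ^ 2 := osq (by linarith) z1
  have g2 : gg (m + d) (m - d) ^ 2 = (1 - m ^ 2) ^ 2 *
      (1 + (δ * δ * (1 - m ^ 2)) * (δ * δ * (1 - m ^ 2)) - 2 * (δ * δ * (1 + m ^ 2))) := by
    unfold gg
    rw [Real.sq_sqrt (mul_nonneg (osq (by linarith) h1).le (osq h0 (by linarith)).le), hd]; ring
  have k0 : z * (gg (m + d) (m - d) * (1 - τ)) ≤ c * (1 - m ^ 2) * (1 - z ^ 2) := by
    refine le_of_sq_le_sq' ?_ (by positivity)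
    have := mul_le_mul_of_nonneg_left hz (show 0 ≤ (1 - m ^ 2) ^ 2 by positivity)
    rw [mul_pow, mul_pow, g2]
    refine le_trans (le_of_eq ?_) (this.trans (le_of_eq ?_)) <;> ring
  have k2 : gb ≤ d * ((1 - y ^ 2) / y) := by
    have k3 := mul_le_mul_of_nonneg_left k1 (show 0 ≤ c * (1 - m ^ 2) by positivity)
    have e1 : c * (1 - m ^ 2) * (δ / c * ((1 - y ^ 2) / y)) = d * ((1 - y ^ 2) / y) := by
      rw [hd]; field_simp
    have k4 : gg (m + d) (m - d) * (1 - τ) ≤ c * (1 - m ^ 2) * ((1 - z ^ 2) / z) := by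
      rw [← mul_div_assoc, le_div_iff₀ z0]; linarith
    linarith
  have k5 := mul_le_mul_of_nonneg_left k2 μ0.le
  have k6 : d * A y ≤ K := by linarith
  have k7 := mul_le_mul_of_nonneg_left k6 c0.le
  refine le_trans (le_of_eq ?_) k7
  rw [hy, hd]; field_simp

lemma geom3 {p τ : ℝ} (p1 : p < 1) (h : p ≤ τ * (1 - p)) : p + p * (p + p * p) ≤ τ := by
  refine le_of_mul_le_mul_right ?_ (show 0 < 1 - p by linarith)
  have : 0 ≤ p ^ 4 := by positivity
  nlinarith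

lemma aux_delta {m δ : ℝ} (m0 : 0 ≤ m) (δ0 : 0 < δ) (hb1 : δ * (1 + m) < 1)
    (dh : δ * (1 - m ^ 2) ≤ 1 / 2) :
    δ * (1 - m) < 1 ∧ δ ≤ 3 / 4 ∧ δ * δ * m ^ 2 < (1 - δ) * (1 - δ) := by
  have h2 : 0 ≤ δ * m := by positivity
  refine ⟨by linarith, ?_, ?_⟩
  · rcases le_total m (1 / 3) with c | c
    · have : δ * (8 / 9) ≤ δ * (1 - m ^ 2) := mul_le_mul_of_nonneg_left (by nlinarith) δ0.le
      linarith
    · nlinarith
  · have : δ * m < 1 - δ := by linarith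
    nlinarith

theorem core {m d I K gb τ e : ℝ} (m0 : 0 ≤ m) (d0 : 0 < d) (h1 : m + d < 1) (dh : d ≤ 1 / 2)
    (I0 : 0 ≤ I) (e0 : 0 ≤ e) (he : e = (H (m + d) + H (m - d)) / 2 - I)
    (hA : ∀ z, 0 < z → z < 1 → d * (A z + mA z * (H z / z)) ≤ K + mA z * e)
    (hB : ∀ z, 0 < z → z < 1 → d * (A z + mB z * ((1 - z ^ 2) / z)) ≤ K + mB z * gb)
    (hg : gb ≤ gg (m + d) (m - d) * (1 - τ))
    (t1 : Real.exp I ≤ 1 + τ) (t2 : d ^ 2 / (1 - m ^ 2 - d ^ 2) ≤ τ) (t3 : τ ≤ 1)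
    {J : ℝ} (hJ : J = (Ph (m + d) + Ph (m - d)) / 2 - Ph m) (T0 : I + J ≤ 0.5541) :
    J * (2 + (kq I + kq (I + J)) / 2) ≤ K := by
  have h0 : -1 < m - d := by linarith
  obtain ⟨sJ, sA'⟩ := split_eq h0 h1 d0
  rw [← hJ] at sJ
  have a1 : 0 < 1 + m := by linarith
  have a2 : 0 < 1 - m := by linarith
  have n1 : 0 < 1 - m ^ 2 := osq (by linarith) (by linarith)
  obtain ⟨δ, hδ⟩ : ∃ δ, δ = d / (1 - m ^ 2) := ⟨_, rfl⟩
  have δ0 : 0 < δ := by rw [hδ]; positivity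
  have hd : d = δ * (1 - m ^ 2) := by rw [hδ]; field_simp
  have ea : d / (1 + m) = δ * (1 - m) := by rw [hd]; field_simp; ring
  have eb : d / (1 - m) = δ * (1 + m) := by rw [hd]; field_simp; ring
  have hb1 : δ * (1 + m) < 1 := by rw [← eb, div_lt_one a2]; linarith
  obtain ⟨ha1, δ1, hb2⟩ := aux_delta m0 δ0 hb1 (hd ▸ dh)
  have ha0 : 0 < δ * (1 - m) := by positivity
  have hb0 : 0 < δ * (1 + m) := by positivity
  rw [ea, eb] at sJ sA'
  have Jlo : δ * δ * (1 - m ^ 2) * jL (δ * δ) (m ^ 2) ≤ J := by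
    have k1 := mul_le_mul_of_nonneg_left (Ph_ge2 ha0.le ha1) (show 0 ≤ (1 + m) / 2 by linarith)
    have k2 := mul_le_mul_of_nonneg_left (Ph_ge2 hb0.le hb1) (show 0 ≤ (1 - m) / 2 by linarith)
    refine le_trans (le_of_eq ?_) (sJ ▸ add_le_add k1 k2)
    unfold jL; ring
  have p0 : 0 < δ * δ * (1 - m ^ 2) := by positivity
  have p1 : δ * δ * (1 - m ^ 2) < 1 := by
    have : δ * δ * (1 - m ^ 2) = (δ * (1 - m)) * (δ * (1 + m)) := by ring
    rw [this]; exact mul_lt_one_of_nonneg_of_lt_one_left ha0.le ha1 hb1.le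
  have t2' : δ * δ * (1 - m ^ 2) ≤ τ * (1 - δ * δ * (1 - m ^ 2)) := by
    have e : 1 - m ^ 2 - d ^ 2 = (1 - m ^ 2) * (1 - δ * δ * (1 - m ^ 2)) := by rw [hd]; ring
    rw [e, div_le_iff₀ (mul_pos n1 (by linarith))] at t2
    refine le_of_mul_le_mul_left ?_ n1
    refine le_trans (le_of_eq ?_) (t2.trans (le_of_eq ?_))
    · rw [hd]; ring
    · ring
  have ex := Real.sum_le_exp_of_nonneg I0 4
  simp only [Finset.sum_range_succ, Finset.range_zero, Finset.sum_empty, Nat.factorial] at ex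
  norm_num at ex
  rcases le_or_gt (I + J) (1 / 8) with hT | hT
  · have K1 := small_K h0 d0 h1 hd p0 hB hg
    have f1 := mul_le_mul_of_nonneg_left (four_Ph_le ha0.le ha1) (show 0 ≤ (1 + m) / 2 by linarith)
    have f2 := mul_le_mul_of_nonneg_left (four_Ph_le hb0.le hb1) (show 0 ≤ (1 - m) / 2 by linarith)
    refine core_small p0 p1 I0 ?_ t2' K1 ?_ (le_trans ?_ Jlo) hT
    · have : 0 ≤ I ^ 2 / 2 + I ^ 3 / 6 := by positivity
      linarith
    · rw [sA', sJ, hd]; linarith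
    · refine mul_le_mul_of_nonneg_left ?_ p0.le
      have : 0 ≤ δ * δ * m ^ 2 := by positivity
      unfold jL; linarith
  · have eQ : 1 + (δ * δ * (1 - m ^ 2)) * (δ * δ * (1 - m ^ 2)) - 2 * (δ * δ * (1 + m ^ 2)) =
        (1 - (δ * (1 - m)) ^ 2) * (1 - (δ * (1 + m)) ^ 2) := by ring
    have hyp : Hyp (m ^ 2) δ I J e K τ := by
      refine ⟨by positivity, by linarith, δ0, by linarith, hb2, by linarith, I0, hT, T0, ?_, Jlo, e0,
        ?_, by linarith, geom3 p1 t2', t3, ?_, big_A n1 δ0 hd hA, big_B h0 d0 h1 δ0 hd hB hg⟩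
      · have k1 := mul_le_mul_of_nonneg_left (Ph_le3 ha0.le ha1) (show 0 ≤ (1 + m) / 2 by linarith)
        have k2 := mul_le_mul_of_nonneg_left (Ph_le3 hb0.le hb1) (show 0 ≤ (1 - m) / 2 by linarith)
        refine le_trans (sJ ▸ add_le_add k1 k2) (le_of_eq ?_)
        unfold jH; ring
      · have := sP_le m0 (by linarith) 10
        rw [he, hJ]; unfold H; linarith
      · rw [eQ]; exact mul_nonneg (osq (by linarith) ha1).le (osq (by linarith) hb1).le
    have J0 := J_nonneg hyp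
    have r1 : R 4294967296 = 1 := by norm_num [R]
    have r2 : R 3221225472 = 3 / 4 := by norm_num [R]
    have r3 : R 2684354560 = 5 / 8 := by norm_num [R]
    refine chk_sound hyp tree _ _ _ _ _ _ ⟨?_, ?_, ?_, ?_, ?_, ?_⟩ tree_ok <;>
      linarith [sq_nonneg m, R_zero]

end Vale.Agent.P322
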