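import Vale.Agent.P322.Step

/-! The entropy production inequality on the discrete cube. -/

namespace Vale.Agent.P322

open Real Set

abbrev Cube (n : ℕ) := Fin n → ℤˣ

def flp {n : ℕ} (i : Fin n) (x : Cube n) : Cube n := Function.update x i (-x i)

noncomputable def DD {n : ℕ} (u : Cube n → ℝ) : ℝ :=
  ∑ i, av (fun x => kap (u x) (u (flp i x)))

/-- the sign as a real number -/
def sg (a : ℤˣ) : ℝ := ((a : ℤ) : ℝ)

@[simp] lemma sg_one : sg 1 = 1 := by simp [sg]
@[simp] lemma sg_neg (a : ℤˣ) : sg (-a) = -sg a := by simp [sg]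
lemma sg_mul (a b : ℤˣ) : sg (a * b) = sg a * sg b := by simp [sg]

noncomputable def cf {n : ℕ} (u : Cube n → ℝ) (i : Fin n) : ℝ := av (fun x => sg (x i) * u x)

def ins {n : ℕ} (i : Fin (n + 1)) (b : ℤˣ) (y : Cube n) : Cube (n + 1) :=
  Fin.insertNth (α := fun _ => ℤˣ) i b y

lemma sum_units (f : ℤˣ → ℝ) : ∑ b, f b = f 1 + f (-1) := by
  rw [UnitsInt.univ, Finset.sum_pair (by decide)]

lemma card_cube (n : ℕ) : (Fintype.card (Cube n) : ℝ) = 2 ^ n := by
  simp [Cube, Fintype.card_units_int]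

lemma av_split {n : ℕ} (i : Fin (n + 1)) (f : Cube (n + 1) → ℝ) :
    av f = (av (fun y => f (ins i 1 y)) + av (fun y => f (ins i (-1) y))) / 2 := by
  unfold av
  rw [card_cube, card_cube, ← (Fin.insertNthEquiv (fun _ => ℤˣ) i).sum_comp,
    Fintype.sum_prod_type, sum_units]
  change ((∑ y, f (ins i 1 y)) + ∑ y, f (ins i (-1) y)) / _ = _
  ring

lemma ins_same {n : ℕ} (i : Fin (n + 1)) (b : ℤˣ) (y : Cube n) : ins i b y i = b := by
  simp [ins]

lemma ins_succ {n : ℕ} (i : Fin (n + 1)) (b : ℤˣ) (y : Cube n) (k : Fin n) :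
    ins i b y (i.succAbove k) = y k := by
  simp [ins]

lemma flp_ins_same {n : ℕ} (i : Fin (n + 1)) (b : ℤˣ) (y : Cube n) :
    flp i (ins i b y) = ins i (-b) y := by
  funext j
  refine Fin.succAboveCases i ?_ (fun k => ?_) j
  · simp [flp, ins_same]
  · simp [flp, ins_succ, Fin.succAbove_ne]

lemma flp_ins_succ {n : ℕ} (i : Fin (n + 1)) (b : ℤˣ) (y : Cube n) (k : Fin n) :
    flp (i.succAbove k) (ins i b y) = ins i b (flp k y) := by
  funext j
  refine Fin.succAboveCases i ?_ (fun l => ?_) j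
  · simp [flp, ins_same, Fin.ne_succAbove]
  · by_cases h : l = k
    · subst h; simp [flp, ins_succ]
    · simp [flp, ins_succ, h]

lemma DD_split {n : ℕ} (i : Fin (n + 1)) (u : Cube (n + 1) → ℝ) :
    DD u = (DD (fun y => u (ins i 1 y)) + DD (fun y => u (ins i (-1) y))) / 2 +
      av (fun y => kap (u (ins i 1 y)) (u (ins i (-1) y))) := by
  unfold DD
  rw [Fin.sum_univ_succAbove _ i, ← Finset.sum_add_distrib, Finset.sum_div, add_comm]
  congr 1
  · refine Finset.sum_congr rfl fun k _ => ?_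
    rw [av_split i]
    simp only [flp_ins_succ]
  · rw [av_split i]
    simp only [flp_ins_same, neg_neg, kap_comm (u (ins i (-1) _))]
    ring

lemma cf_same {n : ℕ} (i : Fin (n + 1)) (u : Cube (n + 1) → ℝ) :
    cf u i = (av (fun y => u (ins i 1 y)) - av (fun y => u (ins i (-1) y))) / 2 := by
  unfold cf
  rw [av_split i]
  simp only [ins_same, av_mul, sg_neg, sg_one]
  ring

lemma cf_succ {n : ℕ} (i : Fin (n + 1)) (u : Cube (n + 1) → ℝ) (k : Fin n) :
    cf u (i.succAbove k) =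
      (cf (fun y => u (ins i 1 y)) k + cf (fun y => u (ins i (-1) y)) k) / 2 := by
  unfold cf
  rw [av_split i]
  simp only [ins_succ]

lemma sq_av_le {Ω : Type*} [Fintype Ω] [Nonempty Ω] (f : Ω → ℝ) :
    av f ^ 2 ≤ av (fun x => f x ^ 2) := by
  have := av_mono (f := fun x => 2 * av f * f x - av f ^ 2) (g := fun x => f x ^ 2)
    fun x => by nlinarith [sq_nonneg (f x - av f)]
  rw [av_sub, av_mul, av_const] at this
  linarith

lemma cf_var {n : ℕ} (u : Cube (n + 1) → ℝ) (k : Fin (n + 1)) :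
    av u ^ 2 + cf u k ^ 2 ≤ av (fun x => u x ^ 2) := by
  rw [cf_same, av_split k u, av_split k (fun x => u x ^ 2)]
  have h1 := sq_av_le (fun y => u (ins k 1 y))
  have h2 := sq_av_le (fun y => u (ins k (-1) y))
  nlinarith

lemma cf_abs {n : ℕ} {u : Cube (n + 1) → ℝ} (h0 : ∀ x, -1 < u x) (h1 : ∀ x, u x < 1)
    (k : Fin (n + 1)) : |av u| + |cf u k| ≤ 1 := by
  rw [cf_same, av_split k u]
  obtain ⟨a0, a1⟩ := av_mem (U := fun y => u (ins k 1 y)) (fun _ => h0 _) (fun _ => h1 _)
  obtain ⟨b0, b1⟩ := av_mem (U := fun y => u (ins k (-1) y)) (fun _ => h0 _) (fun _ => h1 _)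
  rcases abs_cases ((av (fun y => u (ins k 1 y)) + av (fun y => u (ins k (-1) y))) / 2) with
    h | h <;>
  rcases abs_cases ((av (fun y => u (ins k 1 y)) - av (fun y => u (ins k (-1) y))) / 2) with
    g | g <;> linarith [h.1, g.1]

lemma av_zero (f : Cube 0 → ℝ) : av f = f default := by
  unfold av; rw [Fintype.sum_unique, card_cube]; simp only [pow_zero, div_one]
  exact congrArg f (Subsingleton.elim _ _)

theorem good_cube : ∀ (n : ℕ) (u : Cube n → ℝ), (∀ x, -1 < u x) → (∀ x, u x < 1) →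
    Good (av u) (av fun x => H (u x)) (DD u)
  | 0, u, h0, h1 => by
    rw [av_zero, av_zero]
    simpa [DD] using good0 (h0 default) (h1 default)
  | 1, u, h0, h1 => by
    rw [av_split 0 u, av_split 0 (fun x => H (u x)), DD_split 0]
    simp only [av_zero]
    simpa [DD] using good1 (h0 _) (h1 _) (h0 _) (h1 _)
  | n + 2, u, h0, h1 => by
    obtain ⟨i, -, hi⟩ := Finset.exists_min_image Finset.univ (fun i => |cf u i|) Finset.univ_nonempty
    have hk := hi (i.succAbove 0) (Finset.mem_univ _)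
    rw [cf_same, cf_succ] at hk
    rw [av_split i u, av_split i (fun x => H (u x)), DD_split i]
    have g1 := good_cube (n + 1) (fun y => u (ins i 1 y)) (fun _ => h0 _) (fun _ => h1 _)
    have g2 := good_cube (n + 1) (fun y => u (ins i (-1) y)) (fun _ => h0 _) (fun _ => h1 _)
    refine step (fun _ => h0 _) (fun _ => h1 _) (fun _ => h0 _) (fun _ => h1 _) g1 g2 ?_
      (cf_var _ 0) (cf_var _ 0) (sq_le_sq.2 hk)
    have k1 := cf_abs (u := fun y => u (ins i 1 y)) (fun _ => h0 _) (fun _ => h1 _) 0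
    have k2 := cf_abs (u := fun y => u (ins i (-1) y)) (fun _ => h0 _) (fun _ => h1 _) 0
    have k3 : ∀ a b : ℝ, |(a - b) / 2| ≤ (|a| + |b|) / 2 := fun a b => by
      rw [abs_div, abs_two]; linarith [abs_sub a b]
    have k4 : ∀ a b : ℝ, |(a + b) / 2| ≤ (|a| + |b|) / 2 := fun a b => by
      rw [abs_div, abs_two]; linarith [abs_add_le a b]
    linarith [k3 (av fun y => u (ins i 1 y)) (av fun y => u (ins i (-1) y)),
      k4 (cf (fun y => u (ins i 1 y)) 0) (cf (fun y => u (ins i (-1) y)) 0)]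

/-- entropy production inequality -/
theorem entropy_production {n : ℕ} {u : Cube n → ℝ} (h0 : ∀ x, -1 < u x) (h1 : ∀ x, u x < 1)
    {r : ℝ} (r0 : 0 < r) (r1 : r < 1) (h : Ph r = av (fun x => Ph (u x)) - Ph (av u)) :
    r * A r ≤ DD u := by
  have := (good_cube n u h0 h1).2.1 r r0 r1
  rw [av_H] at this
  have e : Ph (av u) + (Real.log 2 - av fun x => Ph (u x)) = H r := by unfold H; linarith
  rw [e] at this
  unfold al at this
  linarith

end Vale.Agent.P322
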