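import Mathlib

/-! Definitions used in the statement of the Courtade-Kumar inequality. -/

namespace Vale.Agent.P322

/-- Mutual information, in bits, of a joint probability mass function `p` on a product of two
finite sets (terms with `p a b = 0` vanish). -/
noncomputable def mutualInfo {α β : Type} [Fintype α] [Fintype β] (p : α → β → ℝ) : ℝ :=
  ∑ a, ∑ b, p a b * Real.logb 2 (p a b / ((∑ b', p a b') * (∑ a', p a' b)))

/-- The joint law of `(f X, Y)`: `X` is uniform on `{-1,1}^n`, the signs `Z i` are independent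
with `Pr (Z i = -1) = ε`, and `Y = X * Z` coordinatewise. -/
noncomputable def jointLaw {n : ℕ} (ε : ℝ) (f : (Fin n → ℤˣ) → ℤˣ) (b : ℤˣ) (y : Fin n → ℤˣ) : ℝ :=
  ∑ x : Fin n → ℤˣ, ∑ z : Fin n → ℤˣ,
    if f x = b ∧ (fun i => x i * z i) = y then
      (1 / 2 ^ n) * ∏ i, (if z i = -1 then ε else 1 - ε)
    else 0

/-- Binary entropy in bits. -/
noncomputable def h2 (p : ℝ) : ℝ := -p * Real.logb 2 p - (1 - p) * Real.logb 2 (1 - p)

end Vale.Agent.P322
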