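import Vale.Agent.P322.Basic

/-! Fixed point arithmetic with directed rounding. -/

namespace Vale.Agent.P322

open Real Set

def SS : ℕ := 4294967296
def md (a b : ℕ) : ℕ := Nat.shiftRight (Nat.mul a b) 32
def mu (a b : ℕ) : ℕ := Nat.add (Nat.shiftRight (Nat.mul a b) 32) 1
/-- lower bound of `p / q` -/
def cl (p q : ℕ) : ℕ := Nat.div (Nat.mul p SS) q
/-- upper bound of `p / q` -/
def cu (p q : ℕ) : ℕ := Nat.add (Nat.div (Nat.mul p SS) q) 1

noncomputable def R (a : ℕ) : ℝ := (a : ℝ) / 4294967296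

lemma R_nonneg (a : ℕ) : 0 ≤ R a := by unfold R; positivity
lemma R_add (a b : ℕ) : R (a + b) = R a + R b := by unfold R; push_cast; ring
lemma R_add' (a b : ℕ) : R (Nat.add a b) = R a + R b := R_add a b
lemma R_mul (k a : ℕ) : R (k * a) = k * R a := by unfold R; push_cast; ring
lemma R_mul' (k a : ℕ) : R (Nat.mul k a) = k * R a := R_mul k a
lemma R_SS : R SS = 1 := by unfold R SS; norm_num
lemma R_zero : R 0 = 0 := by unfold R; simp
lemma R_le {a b : ℕ} (h : a ≤ b) : R a ≤ R b := by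
  unfold R; gcongr
lemma R_lt {a b : ℕ} (h : a < b) : R a < R b := by
  unfold R; gcongr
lemma R_ble {a b : ℕ} (h : Nat.ble a b = true) : R a ≤ R b := R_le (Nat.le_of_ble_eq_true h)
lemma R_blt {a b : ℕ} (h : Nat.blt a b = true) : R a < R b := R_lt (by simpa using h)

lemma cast_div_ge (a q : ℕ) (hq : 0 < q) : (a : ℝ) / q ≤ ((a / q : ℕ) : ℝ) + 1 := by
  have h := Nat.lt_div_mul_add (a := a) hq
  have hq' : (0 : ℝ) < q := by exact_mod_cast hq
  rw [div_le_iff₀ hq']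
  have : (a : ℝ) < ((a / q : ℕ) : ℝ) * q + q := by exact_mod_cast h
  linarith

lemma R_md (a b : ℕ) : R (md a b) ≤ R a * R b := by
  have e : md a b = a * b / 4294967296 := by
    unfold md; exact Nat.shiftRight_eq_div_pow _ _
  have h : ((a * b / 4294967296 : ℕ) : ℝ) ≤ ((a * b : ℕ) : ℝ) / ((4294967296 : ℕ) : ℝ) :=
    Nat.cast_div_le
  rw [e]; unfold R
  push_cast at h
  rw [div_le_iff₀ (by norm_num)]
  refine h.trans (le_of_eq ?_)
  ring

lemma R_mu (a b : ℕ) : R a * R b ≤ R (mu a b) := by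
  have e : mu a b = a * b / 4294967296 + 1 := by
    unfold mu; congr 1; exact Nat.shiftRight_eq_div_pow _ _
  have h := cast_div_ge (a * b) 4294967296 (by norm_num)
  rw [e]; unfold R
  push_cast at h ⊢
  rw [le_div_iff₀ (by norm_num)]
  refine le_trans (le_of_eq ?_) h
  ring

lemma le_mu {a b : ℕ} {x y : ℝ} (hy : 0 ≤ y) (ha : x ≤ R a) (hb : y ≤ R b) :
    x * y ≤ R (mu a b) :=
  (mul_le_mul ha hb hy (R_nonneg a)).trans (R_mu a b)

lemma md_le {a b : ℕ} {x y : ℝ} (ha : R a ≤ x) (hb : R b ≤ y) : R (md a b) ≤ x * y :=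
  (R_md a b).trans (mul_le_mul ha hb (R_nonneg b) ((R_nonneg a).trans ha))

lemma le_sub {a b : ℕ} {x y : ℝ} (ha : x ≤ R a) (hb : R b ≤ y) : x - y ≤ R (Nat.sub a b) := by
  change x - y ≤ R (a - b)
  rcases le_total b a with h | h
  · have : R (a - b) = R a - R b := by unfold R; rw [Nat.cast_sub h]; ring
    linarith
  · have := R_le h
    have := R_nonneg (a - b)
    linarith

lemma sub_le {a b : ℕ} {x y : ℝ} (ha : R a ≤ x) (hb : y ≤ R b) (h0 : y ≤ x) :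
    R (Nat.sub a b) ≤ x - y := by
  change R (a - b) ≤ x - y
  rcases le_total b a with h | h
  · have : R (a - b) = R a - R b := by unfold R; rw [Nat.cast_sub h]; ring
    linarith
  · rw [Nat.sub_eq_zero_of_le h, R_zero]; linarith

lemma cl_le (p q : ℕ) : R (cl p q) ≤ (p : ℝ) / q := by
  have h : ((p * SS / q : ℕ) : ℝ) ≤ ((p * SS : ℕ) : ℝ) / (q : ℝ) := Nat.cast_div_le
  change R (p * SS / q) ≤ _
  unfold R
  rw [div_le_iff₀ (by norm_num)]
  refine h.trans (le_of_eq ?_)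
  unfold SS; push_cast; ring

lemma le_cu (p q : ℕ) : (p : ℝ) / q ≤ R (cu p q) := by
  rcases Nat.eq_zero_or_pos q with rfl | hq
  · simp [R_nonneg]
  have h := cast_div_ge (p * SS) q hq
  change _ ≤ R (p * SS / q + 1)
  unfold R
  rw [le_div_iff₀ (by norm_num)]
  push_cast at h ⊢
  refine le_trans (le_of_eq ?_) h
  unfold SS; push_cast; ring

lemma R_div (p q : ℕ) : R p / R q = (p : ℝ) / q := by
  unfold R
  rcases Nat.eq_zero_or_pos q with rfl | hq
  · simp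
  · have : (q : ℝ) ≠ 0 := by positivity
    field_simp

/-- Horner scheme, upper bound -/
def hU (c : ℕ → ℕ) (l : ℕ → ℕ) (y : ℕ) : ℕ → ℕ → ℕ
  | 0, k => l k
  | N + 1, k => Nat.add (c k) (mu y (hU c l y N (Nat.succ k)))

/-- Horner scheme, lower bound -/
def hL (c : ℕ → ℕ) (y : ℕ) : ℕ → ℕ → ℕ
  | 0, _ => 0
  | N + 1, k => Nat.add (c k) (md y (hL c y N (Nat.succ k)))

/-- Horner scheme for the slope, lower bound -/
def hD (c : ℕ → ℕ) (y : ℕ) : ℕ → ℕ → ℕ
  | 0, _ => 0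
  | N + 1, k => Nat.add (hL c y N (Nat.succ k)) (md y (hD c y N (Nat.succ k)))

lemma le_hU {c l : ℕ → ℕ} {cr lr : ℕ → ℝ} {y : ℕ} {x : ℝ} (hx0 : 0 ≤ x) (hx : x ≤ R y)
    (hc : ∀ k, cr k ≤ R (c k)) (hl : ∀ k, lr k ≤ R (l k)) (N k : ℕ) :
    ∑ j ∈ Finset.range N, cr (k + j) * x ^ j + x ^ N * lr (k + N) ≤ R (hU c l y N k) := by
  induction N generalizing k with
  | zero => simpa [hU] using hl k
  | succ N ih =>
    have h := ih (k + 1)
    rw [Finset.sum_range_succ', hU, R_add']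
    have e : ∑ j ∈ Finset.range N, cr (k + (j + 1)) * x ^ (j + 1) + cr (k + 0) * x ^ 0 +
        x ^ (N + 1) * lr (k + (N + 1)) = cr k +
        (∑ j ∈ Finset.range N, cr (k + 1 + j) * x ^ j + x ^ N * lr (k + 1 + N)) * x := by
      rw [add_mul, Finset.sum_mul]
      have : ∀ j, cr (k + (j + 1)) * x ^ (j + 1) = cr (k + 1 + j) * x ^ j * x := by
        intro j; rw [show k + (j + 1) = k + 1 + j by ring]; ring
      simp only [this]
      rw [show k + (N + 1) = k + 1 + N by ring]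
      simp only [add_zero, pow_zero, mul_one]; ring
    rw [e]
    have h2 : (∑ j ∈ Finset.range N, cr (k + 1 + j) * x ^ j + x ^ N * lr (k + 1 + N)) * x
        ≤ R (mu y (hU c l y N (k + 1))) := by
      refine le_trans ?_ (R_mu _ _)
      rw [mul_comm (R y)]
      exact mul_le_mul h hx hx0 (R_nonneg _)
    have := hc k
    exact add_le_add this h2

lemma hD_le {c : ℕ → ℕ} {cr : ℕ → ℝ} {y : ℕ} {x : ℝ} (hx : R y ≤ x)
    (hc : ∀ k, R (c k) ≤ cr k) (N k : ℕ) :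
    R (hL c y N k) + R (hD c y N k) * (x - R y) ≤ ∑ j ∈ Finset.range N, cr (k + j) * x ^ j := by
  induction N generalizing k with
  | zero => simp [hL, hD, R_zero]
  | succ N ih =>
    have h := ih (k + 1)
    rw [Finset.sum_range_succ', hL, hD, R_add', R_add']
    have e : ∑ j ∈ Finset.range N, cr (k + (j + 1)) * x ^ (j + 1) + cr (k + 0) * x ^ 0 = cr k +
        (∑ j ∈ Finset.range N, cr (k + 1 + j) * x ^ j) * x := by
      rw [Finset.sum_mul]
      have : ∀ j, cr (k + (j + 1)) * x ^ (j + 1) = cr (k + 1 + j) * x ^ j * x := by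
        intro j; rw [show k + (j + 1) = k + 1 + j by ring]; ring
      simp only [this]
      simp only [add_zero, pow_zero, mul_one]; ring
    rw [e]
    have h1 := R_md y (hL c y N (k + 1))
    have h2 := R_md y (hD c y N (k + 1))
    have h3 := hc k
    have p1 := R_nonneg (hL c y N (k + 1))
    have p2 := R_nonneg (hD c y N (k + 1))
    have p3 := R_nonneg y
    have p4 : 0 ≤ x - R y := by linarith
    have h4 := mul_le_mul_of_nonneg_right h (show 0 ≤ x by linarith)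
    have h5 := mul_le_mul_of_nonneg_right h2 p4
    have h6 : 0 ≤ R (hD c y N (k + 1)) * (x - R y) * (x - R y) := by positivity
    simp only [Nat.succ_eq_add_one]
    nlinarith

lemma hL_le {c : ℕ → ℕ} {cr : ℕ → ℝ} {y : ℕ} {x : ℝ} (hx : R y ≤ x)
    (hc : ∀ k, R (c k) ≤ cr k) (N k : ℕ) :
    R (hL c y N k) ≤ ∑ j ∈ Finset.range N, cr (k + j) * x ^ j := by
  have := hD_le hx hc N k
  have : 0 ≤ R (hD c y N k) * (x - R y) := mul_nonneg (R_nonneg _) (by linarith)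
  linarith

def cAl (k : ℕ) : ℕ := cl 1 (2 * k + 1)
def cAu (k : ℕ) : ℕ := cu 1 (2 * k + 1)
def cPl (k : ℕ) : ℕ := cl 1 ((2 * k + 1) * (2 * k + 2))
def cPu (k : ℕ) : ℕ := cu 1 ((2 * k + 1) * (2 * k + 2))
def lPu (k : ℕ) : ℕ := cu 1 (4 * k + 1)

lemma sA_eq (y : ℝ) (N : ℕ) :
    sA y N = ∑ j ∈ Finset.range N, (1 / (2 * ((0 + j : ℕ) : ℝ) + 1)) * y ^ j := by
  unfold sA; refine Finset.sum_congr rfl fun j _ => ?_
  rw [zero_add]; ring

lemma sP_eq (y : ℝ) (N : ℕ) :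
    sP y N = ∑ j ∈ Finset.range N,
      (1 / ((2 * ((0 + j : ℕ) : ℝ) + 1) * (2 * ((0 + j : ℕ) : ℝ) + 2))) * y ^ j := by
  unfold sP; refine Finset.sum_congr rfl fun j _ => ?_
  rw [zero_add]; ring

lemma cAl_le (k : ℕ) : R (cAl k) ≤ 1 / (2 * (k : ℝ) + 1) := by
  have := cl_le 1 (2 * k + 1); push_cast at this; exact this
lemma le_cAu (k : ℕ) : 1 / (2 * (k : ℝ) + 1) ≤ R (cAu k) := by
  have := le_cu 1 (2 * k + 1); push_cast at this; exact this
lemma cPl_le (k : ℕ) : R (cPl k) ≤ 1 / ((2 * (k : ℝ) + 1) * (2 * (k : ℝ) + 2)) := by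
  have := cl_le 1 ((2 * k + 1) * (2 * k + 2)); push_cast at this; exact this
lemma le_cPu (k : ℕ) : 1 / ((2 * (k : ℝ) + 1) * (2 * (k : ℝ) + 2)) ≤ R (cPu k) := by
  have := le_cu 1 ((2 * k + 1) * (2 * k + 2)); push_cast at this; exact this
lemma le_lPu (k : ℕ) : 1 / (4 * (k : ℝ) + 1) ≤ R (lPu k) := by
  have := le_cu 1 (4 * k + 1); push_cast at this; exact this

lemma hL_sA {y : ℕ} {x : ℝ} (hx : R y ≤ x) (N : ℕ) : R (hL cAl y N 0) ≤ sA x N := by
  rw [sA_eq]; exact hL_le (cr := fun k => 1 / (2 * (k : ℝ) + 1)) hx cAl_le N 0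

lemma hL_sP {y : ℕ} {x : ℝ} (hx : R y ≤ x) (N : ℕ) : R (hL cPl y N 0) ≤ sP x N := by
  rw [sP_eq]
  exact hL_le (cr := fun k => 1 / ((2 * (k : ℝ) + 1) * (2 * (k : ℝ) + 2))) hx cPl_le N 0

lemma hD_sP {y : ℕ} {x : ℝ} (hx : R y ≤ x) (N : ℕ) :
    R (hL cPl y N 0) + R (hD cPl y N 0) * (x - R y) ≤ sP x N := by
  rw [sP_eq]
  exact hD_le (cr := fun k => 1 / ((2 * (k : ℝ) + 1) * (2 * (k : ℝ) + 2))) hx cPl_le N 0

def Alo (N z : ℕ) : ℕ := md z (hL cAl (md z z) N 0)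
def Plo (N z : ℕ) : ℕ := md (md z z) (hL cPl (md z z) N 0)
def Pup (N z : ℕ) : ℕ := mu (mu z z) (hU cPu lPu (mu z z) N 0)
def Aup (N z : ℕ) : ℕ :=
  mu z (hU cAu (fun k => cu SS ((2 * k + 1) * (Nat.sub SS (mu z z)))) (mu z z) N 0)

lemma Alo_le {z : ℕ} {x : ℝ} (hx : R z ≤ x) (h1 : x < 1) (N : ℕ) : R (Alo N z) ≤ A x := by
  have h0 := (R_nonneg z).trans hx
  refine le_trans (md_le hx (hL_sA (x := x ^ 2) ?_ N)) (sA_le h0 h1 N)
  rw [sq]; exact md_le hx hx

lemma Plo_le {z : ℕ} {x : ℝ} (hx : R z ≤ x) (h1 : x < 1) (N : ℕ) : R (Plo N z) ≤ Ph x := by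
  have h0 := (R_nonneg z).trans hx
  have h2 : R (md z z) ≤ x ^ 2 := by rw [sq]; exact md_le hx hx
  exact le_trans (md_le h2 (hL_sP (x := x ^ 2) h2 N)) (sP_le h0 h1 N)

lemma le_Pup {z : ℕ} {x : ℝ} (h0 : 0 ≤ x) (hx : x ≤ R z) (h1 : x < 1) (N : ℕ) :
    Ph x ≤ R (Pup N z) := by
  have h2 : x ^ 2 ≤ R (mu z z) := by rw [sq]; exact le_mu h0 hx hx
  refine (le_sP h0 h1 N).trans (le_mu ?_ h2 ?_)
  · have : 0 ≤ sP (x ^ 2) N := by unfold sP; positivity
    positivity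
  · have := le_hU (cr := fun k => 1 / ((2 * (k : ℝ) + 1) * (2 * (k : ℝ) + 2)))
      (lr := fun k => 1 / (4 * (k : ℝ) + 1)) (by positivity) h2 le_cPu le_lPu N 0
    rw [sP_eq]
    refine le_trans (le_of_eq ?_) this
    rw [zero_add]; ring

lemma le_Aup {z : ℕ} {x : ℝ} (h0 : 0 ≤ x) (hx : x ≤ R z) (hz : mu z z < SS) (N : ℕ) :
    A x ≤ R (Aup N z) := by
  have h2 : x ^ 2 ≤ R (mu z z) := by rw [sq]; exact le_mu h0 hx hx
  have h3 := R_lt hz
  rw [R_SS] at h3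
  have h4 : 0 < 1 - x ^ 2 := by linarith
  have h1 : x < 1 := by nlinarith
  refine (le_sA h0 h1 N).trans (le_mu ?_ hx ?_)
  · have : 0 ≤ sA (x ^ 2) N := by unfold sA; positivity
    positivity
  · have := le_hU (cr := fun k => 1 / (2 * (k : ℝ) + 1))
      (lr := fun k => 1 / ((2 * (k : ℝ) + 1) * (1 - x ^ 2)))
      (l := fun k => cu SS ((2 * k + 1) * (Nat.sub SS (mu z z)))) (by positivity) h2 le_cAu ?_ N 0
    · rw [sA_eq]
      refine le_trans (le_of_eq ?_) this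
      rw [zero_add]; ring
    · intro k
      refine le_trans ?_ (le_cu _ _)
      rw [← R_div, R_SS, R_mul]
      have h5 : R (Nat.sub SS (mu z z)) ≤ 1 - x ^ 2 := sub_le R_SS.le h2 (by linarith)
      have h6 : 0 < R (Nat.sub SS (mu z z)) := by
        rw [← R_zero]; exact R_lt (Nat.sub_pos_of_lt hz)
      push_cast
      gcongr

end Vale.Agent.P322
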