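import Vale.Agent.P322.Point
import Vale.Agent.P322.Fix

/-! The tangent line families and one-variable estimates. -/

namespace Vale.Agent.P322

open Real Set

noncomputable def be (r : ℝ) : ℝ := 1 + r / ((1 - r ^ 2) * A r)
noncomputable def al (r : ℝ) : ℝ := r * A r + H r * be r
noncomputable def kq (t : ℝ) : ℝ := (27 / 20) * t / (1 - (57 / 40) * t)

lemma be_ge {r : ℝ} (h0 : 0 < r) (h1 : r < 1) : 1 ≤ be r := by
  have := A_pos h0 h1
  have : 0 < 1 - r ^ 2 := by nlinarith
  have : 0 ≤ r / ((1 - r ^ 2) * A r) := by positivity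
  unfold be; linarith

lemma al_pos {r : ℝ} (h0 : 0 < r) (h1 : r < 1) : 0 < al r := by
  have := A_pos h0 h1
  have := H_pos (u := r) (by linarith) h1
  have := be_ge h0 h1
  unfold al; positivity

lemma be_mono {a b : ℝ} (h0 : 0 < a) (h : a ≤ b) (h1 : b < 1) : be a ≤ be b := by
  have k := AV_anti h0 h h1
  have := A_pos h0 (by linarith)
  have := A_pos (z := b) (by linarith) h1
  have : 0 < 1 - a ^ 2 := by nlinarith
  have : 0 < 1 - b ^ 2 := by nlinarith
  have hb : 0 < b := by linarith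
  unfold be
  rw [div_le_div_iff₀ (by positivity) (by positivity)] at k
  rw [add_le_add_iff_left, div_le_div_iff₀ (by positivity) (by positivity)]
  linarith

lemma hasDerivAt_g {x : ℝ} (h0 : -1 < x) (h1 : x < 1) :
    HasDerivAt (fun s => s * A s) (A x + x / (1 - x ^ 2)) x := by
  have := (hasDerivAt_id x).mul (hasDerivAt_A h0 h1)
  refine this.congr_deriv ?_
  simp only [id]; ring

lemma g_deriv_eq {x : ℝ} (h0 : 0 < x) (h1 : x < 1) : A x + x / (1 - x ^ 2) = A x * be x := by
  have := A_pos h0 h1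
  have : 0 < 1 - x ^ 2 := by nlinarith
  unfold be; field_simp

lemma tangent {r s : ℝ} (h0 : 0 < r) (h1 : r < 1) (s0 : 0 ≤ s) (s1 : s < 1) :
    al r - be r * H s ≤ s * A s := by
  have hd : ∀ x, -1 < x → x < 1 → HasDerivAt (fun s => s * A s + be r * H s)
      (A x + x / (1 - x ^ 2) + be r * (-A x)) x := fun x a b =>
    (hasDerivAt_g a b).add ((hasDerivAt_H a b).const_mul _)
  have key : r * A r + be r * H r ≤ s * A s + be r * H s := by
    rcases le_total r s with h | h
    · refine le_of_deriv_nonneg (f := fun s => s * A s + be r * H s) h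
        (fun x a b => hd x (by linarith) (by linarith)) ?_
      intro x a b
      rw [g_deriv_eq (by linarith) (by linarith)]
      have := be_mono h0 a.le (by linarith)
      have := A_pos (z := x) (by linarith) (by linarith)
      nlinarith
    · refine le_of_deriv_nonpos (f := fun s => s * A s + be r * H s) h
        (fun x a b => hd x (by linarith) (by linarith)) ?_
      intro x a b
      rw [g_deriv_eq (by linarith) (by linarith)]
      have := be_mono (a := x) (by linarith) b.le h1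
      have := A_pos (z := x) (by linarith) (by linarith)
      nlinarith
  unfold al; linarith

lemma tangent_down {r q s : ℝ} (h0 : 0 < q) (h : q ≤ r) (h1 : r < 1) (hs : H q ≤ s) :
    al r - be r * s ≤ al q - be q * s := by
  have t := tangent (r := r) (s := q) (by linarith) h1 h0.le (by linarith)
  have m := be_mono h0 h h1
  have : al q = q * A q + H q * be q := rfl
  nlinarith

lemma tangent_up {r q s : ℝ} (h0 : 0 < r) (h : r ≤ q) (h1 : q < 1) (hs : s ≤ H q) :
    al r - be r * s ≤ al q - be q * s := by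
  have t := tangent (r := r) (s := q) h0 (by linarith) (by linarith) h1
  have m := be_mono h0 h h1
  have : al q = q * A q + H q * be q := rfl
  nlinarith

/-! ### numerical values -/

lemma A_lo (N z k : ℕ) {x c : ℝ} (hx : R z = x) (h1 : x < 1) (hc : c ≤ R k)
    (h : Nat.ble k (Alo N z) = true) : c ≤ A x :=
  hc.trans ((R_ble h).trans (Alo_le hx.le h1 N))

lemma A_hi (N z k : ℕ) {x c : ℝ} (hx : R z = x) (hc : R k ≤ c)
    (h : (Nat.ble (Aup N z) k && Nat.blt (mu z z) SS) = true) : A x ≤ c := by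
  rw [Bool.and_eq_true] at h
  exact ((le_Aup (hx ▸ R_nonneg z) hx.ge (by simpa using h.2) N).trans (R_ble h.1)).trans hc

lemma Ph_lo (N z k : ℕ) {x c : ℝ} (hx : R z = x) (h1 : x < 1) (hc : c ≤ R k)
    (h : Nat.ble k (Plo N z) = true) : c ≤ Ph x :=
  hc.trans ((R_ble h).trans (Plo_le hx.le h1 N))

lemma Ph_hi (N z k : ℕ) {x c : ℝ} (hx : R z = x) (h1 : x < 1) (hc : R k ≤ c)
    (h : Nat.ble (Pup N z) k = true) : Ph x ≤ c :=
  ((le_Pup (hx ▸ R_nonneg z) hx.ge h1 N).trans (R_ble h)).trans hc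

lemma be_lo {r a : ℝ} (h0 : 0 < r) (h1 : r < 1) (h : A r ≤ a) :
    1 + r / ((1 - r ^ 2) * a) ≤ be r := by
  have := A_pos h0 h1
  have : 0 < 1 - r ^ 2 := by nlinarith
  unfold be; gcongr

lemma be_hi {r a : ℝ} (h0 : 0 < r) (h1 : r < 1) (ha : 0 < a) (h : a ≤ A r) :
    be r ≤ 1 + r / ((1 - r ^ 2) * a) := by
  have : 0 < 1 - r ^ 2 := by nlinarith
  unfold be; gcongr

lemma l2lo : (0.693147 : ℝ) ≤ Real.log 2 := by have := Real.log_two_gt_d9; linarith
lemma l2hi : Real.log 2 ≤ (0.693148 : ℝ) := by have := Real.log_two_lt_d9; linarith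

lemma A0_lo : (1.71698 : ℝ) ≤ A (15 / 16) :=
  A_lo 120 4026531840 7374400000 (by norm_num [R]) (by norm_num) (by norm_num [R]) (by decide +kernel)
lemma A0_hi : A (15 / 16) ≤ (1.71701 : ℝ) :=
  A_hi 120 4026531840 7374480000 (by norm_num [R]) (by norm_num [R]) (by decide +kernel)
lemma P0_lo : (0.55408 : ℝ) ≤ Ph (15 / 16) :=
  Ph_lo 120 4026531840 2379760000 (by norm_num [R]) (by norm_num) (by norm_num [R]) (by decide +kernel)
lemma P0_hi : Ph (15 / 16) ≤ (0.5541 : ℝ) :=
  Ph_hi 120 4026531840 2379800000 (by norm_num [R]) (by norm_num) (by norm_num [R]) (by decide +kernel)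
lemma A1_lo : (1.60136 : ℝ) ≤ A (59 / 64) :=
  A_lo 100 3959422976 6877800000 (by norm_num [R]) (by norm_num) (by norm_num [R]) (by decide +kernel)
lemma A1_hi : A (59 / 64) ≤ (1.60139 : ℝ) :=
  A_hi 100 3959422976 6877900000 (by norm_num [R]) (by norm_num [R]) (by decide +kernel)
lemma P1_hi : Ph (59 / 64) ≤ (0.5282 : ℝ) :=
  Ph_hi 100 3959422976 2268590000 (by norm_num [R]) (by norm_num) (by norm_num [R]) (by decide +kernel)
lemma A2_lo : (1.35401 : ℝ) ≤ A (7 / 8) :=
  A_lo 100 3758096384 5815450000 (by norm_num [R]) (by norm_num) (by norm_num [R]) (by decide +kernel)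
lemma A2_hi : A (7 / 8) ≤ (1.35404 : ℝ) :=
  A_hi 100 3758096384 5815520000 (by norm_num [R]) (by norm_num [R]) (by decide +kernel)
lemma P2_hi : Ph (7 / 8) ≤ (0.45937 : ℝ) :=
  Ph_hi 100 3758096384 1972950000 (by norm_num [R]) (by norm_num) (by norm_num [R]) (by decide +kernel)
lemma A3_lo : (1.1946 : ℝ) ≤ A (213 / 256) :=
  A_lo 100 3573547008 5131000000 (by norm_num [R]) (by norm_num) (by norm_num [R]) (by decide +kernel)
lemma P3_hi : Ph (213 / 256) ≤ (0.4048 : ℝ) :=
  Ph_hi 100 3573547008 1738500000 (by norm_num [R]) (by norm_num) (by norm_num [R]) (by decide +kernel)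

lemma be0_lo : (5.5088 : ℝ) ≤ be (15 / 16) :=
  le_trans (by norm_num) (be_lo (by norm_num) (by norm_num) A0_hi)
lemma be0_hi : be (15 / 16) ≤ (5.5092 : ℝ) :=
  le_trans (be_hi (by norm_num) (by norm_num) (by norm_num) A0_lo) (by norm_num)
lemma al0_hi : al (15 / 16) ≤ (2.376 : ℝ) := by
  have h1 : H (15 / 16) ≤ 0.13907 := by unfold H; linarith [l2hi, P0_lo]
  have h2 := mul_le_mul h1 be0_hi (by linarith [be0_lo]) (by norm_num)
  unfold al; linarith [A0_hi]
lemma be1_hi : be (59 / 64) ≤ (4.8343 : ℝ) :=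
  le_trans (be_hi (by norm_num) (by norm_num) (by norm_num) A1_lo) (by norm_num)
lemma al1_lo : (2.2735 : ℝ) ≤ al (59 / 64) := by
  have h0 : (4.8340 : ℝ) ≤ be (59 / 64) :=
    le_trans (by norm_num) (be_lo (by norm_num) (by norm_num) A1_hi)
  have h1 : 0.16494 ≤ H (59 / 64) := by unfold H; linarith [l2lo, P1_hi]
  have h2 := mul_le_mul h1 h0 (by norm_num) (by linarith)
  unfold al; linarith [A1_lo]
lemma be2_hi : be (7 / 8) ≤ (3.7574 : ℝ) :=
  le_trans (be_hi (by norm_num) (by norm_num) (by norm_num) A2_lo) (by norm_num)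
lemma al2_lo : (2.063 : ℝ) ≤ al (7 / 8) := by
  have h0 : (3.7571 : ℝ) ≤ be (7 / 8) :=
    le_trans (by norm_num) (be_lo (by norm_num) (by norm_num) A2_hi)
  have h1 : 0.23377 ≤ H (7 / 8) := by unfold H; linarith [l2lo, P2_hi]
  have h2 := mul_le_mul h1 h0 (by norm_num) (by linarith)
  unfold al; linarith [A2_lo]

lemma star0 : ∃ z, 0 < z ∧ z < 1 ∧ al (15 / 16) ≤ 2 * A z ∧ 2 * z * 0.17 ≤ H z := by
  refine ⟨213 / 256, by norm_num, by norm_num, by linarith [al0_hi, A3_lo], ?_⟩
  unfold H; linarith [l2lo, P3_hi]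

lemma diamond {m e D : ℝ} (h0 : 0 ≤ m) (h1 : m < 1) (he : 0.17 ≤ e) (hD : 0 ≤ D)
    (h : ∀ r, 0 < r → r < 1 → al r - be r * (Ph m + e) ≤ D) :
    al (15 / 16) * (1 - m ^ 2) - be (15 / 16) * e ≤ D := by
  have hP := Ph_le3 h0 h1
  have hP0 := Ph_nonneg (u := m) (by linarith) h1
  have hn0 : 0 ≤ m ^ 2 := by positivity
  have hn1 : 0 ≤ 1 - m ^ 2 := by nlinarith
  have e4 : m ^ 4 = (m ^ 2) ^ 2 := by ring
  have e6 : m ^ 6 = (m ^ 2) ^ 3 := by ring
  have e8 : m ^ 8 = (m ^ 2) ^ 4 := by ring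
  rw [e4, e6, e8] at hP
  have a0 := mul_le_mul_of_nonneg_right al0_hi hn1
  have b0 := mul_le_mul_of_nonneg_right be0_lo (show 0 ≤ e by linarith)
  generalize m ^ 2 = n at *
  have pw : ∀ c : ℝ, n ≤ c → Ph m ≤ n * (1 / 2 + c / 12 + c ^ 2 / 30 + c ^ 3 / 13) := by
    intro c hc
    have p1 : n ^ 2 ≤ c ^ 2 := by gcongr
    have p2 : n ^ 3 ≤ c ^ 3 := by gcongr
    have q0 := mul_le_mul_of_nonneg_left hc hn0
    have q1 := mul_le_mul_of_nonneg_left p1 hn0
    have q2 := mul_le_mul_of_nonneg_left p2 hn0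
    nlinarith
  rcases le_total n 0.1 with c1 | c1
  · have t := h (59 / 64) (by norm_num) (by norm_num)
    have b1 := mul_le_mul_of_nonneg_right be1_hi (show 0 ≤ Ph m + e by linarith)
    have := pw _ c1
    have := al1_lo
    nlinarith
  rcases le_total n 0.61 with c2 | c2
  · have t := h (7 / 8) (by norm_num) (by norm_num)
    have b1 := mul_le_mul_of_nonneg_right be2_hi (show 0 ≤ Ph m + e by linarith)
    have := pw _ c2
    have := al2_lo
    nlinarith
  · nlinarith

/-! ### the range `r ≥ 15/16` -/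

lemma high {r : ℝ} (h0 : 15 / 16 ≤ r) (h1 : r < 1) :
    ∃ τ, 0 < τ ∧ τ ≤ 0.18 ∧ A r = -Real.log τ ∧ 1 - r ^ 2 ≤ 4 * τ ^ 2 ∧
      H r ≤ τ ^ 2 * (1 + 2 * A r) ∧ al r ≤ A r + 0.68 := by
  have a1 : 0 < 1 + r := by linarith
  have a2 : 0 < 1 - r := by linarith
  set t := (1 - r) / (1 + r) with ht
  have t0 : 0 < t := by positivity
  have t1 : t ≤ 1 / 31 := by rw [ht, div_le_iff₀ a1]; linarith
  have s2 : Real.sqrt t ^ 2 = t := Real.sq_sqrt t0.le
  have hA : A r = -Real.log (Real.sqrt t) := by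
    rw [Real.log_sqrt t0.le, ht, Real.log_div a2.ne' a1.ne']; unfold A; ring
  have hA0 : 1.7 ≤ A r := by
    have := A_le_A (u := 15 / 16) (by norm_num) h1 h0
    linarith [A0_lo]
  have hl : Real.log (2 / (1 + r)) ≤ t := by
    have := Real.log_le_sub_one_of_pos (show 0 < 2 / (1 + r) by positivity)
    have e : 2 / (1 + r) - 1 = t := by rw [ht]; field_simp; ring
    linarith
  have hrt : 1 - r ≤ 2 * t := by
    rw [ht, ← mul_div_assoc, le_div_iff₀ a1]; nlinarith
  have hH : H r ≤ t * (1 + 2 * A r) := by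
    rw [H_eq (by linarith)]; nlinarith
  refine ⟨Real.sqrt t, Real.sqrt_pos.2 t0, ?_, hA, ?_, ?_, ?_⟩
  · exact le_of_sq_le_sq' (by rw [s2]; linarith) (by norm_num)
  · rw [s2, ht, ← mul_div_assoc, le_div_iff₀ a1]
    nlinarith [mul_nonneg a2.le (mul_nonneg a2.le (show 0 ≤ 3 + r by linarith))]
  · rw [s2]; exact hH
  · have hq : 0 < 1 - r ^ 2 := by nlinarith
    have k1 : H r * (r / ((1 - r ^ 2) * A r)) ≤ 1 / 2 + 0.1471 := by
      rw [← mul_div_assoc, div_le_iff₀ (by positivity)]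
      have k2 : t * r ≤ (1 - r ^ 2) / 4 := by
        rw [ht, div_mul_eq_mul_div, div_le_iff₀ a1]
        nlinarith [mul_nonneg a2.le (sq_nonneg (1 - r))]
      have k3 := mul_le_mul_of_nonneg_right hH (show 0 ≤ r by linarith)
      have k4 := mul_le_mul_of_nonneg_right k2 (show 0 ≤ 1 + 2 * A r by linarith)
      have k5 := mul_le_mul_of_nonneg_left hA0 hq.le
      nlinarith
    have e : al r = r * A r + H r + H r * (r / ((1 - r ^ 2) * A r)) := by unfold al be; ring
    have e2 := H_eq (r := r) (by linarith)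
    linarith

lemma tau_log {τ : ℝ} (h0 : 0 < τ) (h1 : τ ≤ 0.18) : τ * (-Real.log τ) ≤ 0.3194 := by
  have := Real.log_le_sub_one_of_pos (show 0 < 1 / (8 * τ) by positivity)
  rw [Real.log_div (by norm_num) (by positivity), Real.log_one, Real.log_mul (by norm_num) h0.ne',
    show (8 : ℝ) = 2 ^ 3 by norm_num, Real.log_pow] at this
  have h2 := mul_le_mul_of_nonneg_left this h0.le
  have e : τ * (1 / (2 ^ 3 * τ) - 1) = 1 / 8 - τ := by field_simp; ring
  rw [e] at h2
  have h3 := mul_le_mul_of_nonneg_left log_two_le h0.le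
  push_cast at h2
  nlinarith

lemma al_le_be {r : ℝ} (h0 : 15 / 16 ≤ r) (h1 : r < 1) : 2 * al r ≤ be r := by
  obtain ⟨τ, t0, t1, hA, h2, -, h3⟩ := high h0 h1
  have hl := tau_log t0 t1
  rw [← hA] at hl
  have a0 := A_pos (z := r) (by linarith) h1
  have hq : 0 < 1 - r ^ 2 := by nlinarith
  have k : 2 * A r + 0.36 ≤ r / ((1 - r ^ 2) * A r) := by
    rw [le_div_iff₀ (by positivity)]
    have k1 : (2 * A r + 0.36) * ((1 - r ^ 2) * A r) ≤ (2 * A r + 0.36) * (4 * τ ^ 2 * A r) := by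
      gcongr
    have k2 : (τ * A r) ^ 2 ≤ 0.3194 ^ 2 := by gcongr
    have k3 : τ * (τ * A r) ≤ 0.18 * 0.3194 := by gcongr
    nlinarith
  unfold be; linarith

lemma star {r : ℝ} (h0 : 15 / 16 ≤ r) (h1 : r < 1) :
    ∃ z, 0 < z ∧ z < 1 ∧ al r ≤ 2 * A z ∧ 2 * z * H r ≤ H z := by
  obtain ⟨τ, t0, t1, hA, -, h2, h3⟩ := high h0 h1
  set x := τ / 2 with hx
  have x0 : 0 < x := by positivity
  have x1 : x ≤ 0.09 := by linarith
  have a1 : 0 < 1 + x := by linarith
  have z0 : 0 < (1 - x) / (1 + x) := div_pos (by linarith) a1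
  have z1 : (1 - x) / (1 + x) < 1 := by rw [div_lt_one a1]; linarith
  have e1 : 1 + (1 - x) / (1 + x) = 2 / (1 + x) := by field_simp; ring
  have e2 : 1 - (1 - x) / (1 + x) = 2 * x / (1 + x) := by field_simp; ring
  have hAz : 2 * A ((1 - x) / (1 + x)) = Real.log 2 + A r := by
    unfold A at *
    rw [e1, e2, Real.log_div (by norm_num) a1.ne', Real.log_div (by positivity) a1.ne',
      show 2 * x = τ by rw [hx]; ring]
    linarith
  refine ⟨(1 - x) / (1 + x), z0, z1, by linarith [log_two_ge], ?_⟩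
  have hl : x ≤ (1 + x) * Real.log (1 + x) := by
    have := Real.one_sub_inv_le_log_of_pos a1
    have h := mul_le_mul_of_nonneg_left this a1.le
    have e : (1 + x) * (1 - (1 + x)⁻¹) = x := by field_simp; ring
    linarith
  have hHz : H ((1 - x) / (1 + x)) * (1 + x) =
      (1 + x) * Real.log (1 + x) + x * (Real.log 2 + A r) := by
    rw [H_eq (by linarith), e1, e2, ← hAz, show 2 / (2 / (1 + x)) = 1 + x by field_simp]
    field_simp
  have a0 := A_pos (z := r) (by linarith) h1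
  have hH := H_pos (u := r) (by linarith) h1
  have key : 4 * τ * (1 + 2 * A r) ≤ 1 + Real.log 2 + A r := by
    rcases le_total τ (1 / 8) with c | c
    · nlinarith [log_two_ge]
    · have : A r ≤ 3 * Real.log 2 := by
        have := Real.log_le_log (by norm_num) c
        rw [one_div, Real.log_inv, show (8 : ℝ) = 2 ^ 3 by norm_num, Real.log_pow] at this
        push_cast at this
        linarith
      nlinarith [log_two_ge, log_two_le]
  refine le_of_mul_le_mul_right ?_ a1
  rw [hHz]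
  have e3 : 2 * ((1 - x) / (1 + x)) * H r * (1 + x) = 2 * (1 - x) * H r := by field_simp
  rw [e3]
  have k := mul_le_mul_of_nonneg_left key x0.le
  have e4 : x * (4 * τ * (1 + 2 * A r)) = 2 * (τ ^ 2 * (1 + 2 * A r)) := by rw [hx]; ring
  nlinarith

end Vale.Agent.P322
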