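import Vale.Agent.P322.Flow
import Vale.Agent.P322.Defs

/-! Translation to mutual information in bits. -/

namespace Vale.Agent.P322

open Real Set

lemma jointLaw_eq {n : ℕ} (ε : ℝ) (f : Cube n → ℤˣ) (b : ℤˣ) (y : Cube n) :
    jointLaw ε f b y = (1 / 2 ^ n) * ((1 + sg b * TT (1 - 2 * ε) (fun x => sg (f x)) y) / 2) := by
  have e1 : ∀ x : Cube n, (∑ z : Cube n, if f x = b ∧ (fun i => x i * z i) = y then
      (1 / 2 ^ n : ℝ) * ∏ i, (if z i = -1 then ε else 1 - ε) else 0) =
      (1 / 2 ^ n) * (((1 + sg b * sg (f x)) / 2) * ker (1 - 2 * ε) x y) := by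
    intro x
    rw [Finset.sum_eq_single (fun i => x i * y i)]
    · have h1 : (fun i => x i * (x i * y i)) = y := by
        funext i; rw [← mul_assoc, Int.units_mul_self, one_mul]
      have h2 : ∏ i, (if x i * y i = -1 then ε else 1 - ε) = ker (1 - 2 * ε) x y := by
        unfold ker
        refine Finset.prod_congr rfl fun i _ => ?_
        rw [← sg_mul]
        rcases Int.units_eq_one_or (x i * y i) with h | h <;> rw [h]
        · rw [if_neg (by decide), sg_one]; ring
        · rw [if_pos rfl, sg_neg, sg_one]; ring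
      simp only [h1, h2, and_true]
      rcases Int.units_eq_one_or b with hb | hb <;>
        rcases Int.units_eq_one_or (f x) with hf | hf <;> rw [hb, hf] <;> simp
    · intro z _ hz
      rw [if_neg]
      rintro ⟨-, h⟩
      apply hz
      funext i
      rw [← h]
      simp only
      rw [← mul_assoc, Int.units_mul_self, one_mul]
    · simp
  unfold jointLaw
  simp only [e1]
  rw [← Finset.mul_sum]
  congr 1
  have e2 : ∀ x : Cube n, (1 + sg b * sg (f x)) / 2 * ker (1 - 2 * ε) x y =
      (ker (1 - 2 * ε) x y + sg b * (sg (f x) * ker (1 - 2 * ε) x y)) / 2 := fun x => by ring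
  simp only [e2]
  rw [← Finset.sum_div, Finset.sum_add_distrib, sum_ker, ← Finset.mul_sum]
  rfl

lemma av_cube {n : ℕ} (F : Cube n → ℝ) : ∑ y, (1 / 2 ^ n) * F y = av F := by
  unfold av; rw [card_cube, ← Finset.mul_sum]; ring

lemma mutualInfo_eq {n : ℕ} (ε : ℝ) (f : Cube n → ℤˣ) :
    mutualInfo (jointLaw ε f) = av (fun y =>
      (1 + TT (1 - 2 * ε) (fun x => sg (f x)) y) / 2 *
        Real.log ((1 + TT (1 - 2 * ε) (fun x => sg (f x)) y) / (1 + av (fun x => sg (f x)))) +
      (1 - TT (1 - 2 * ε) (fun x => sg (f x)) y) / 2 *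
        Real.log ((1 - TT (1 - 2 * ε) (fun x => sg (f x)) y) / (1 - av (fun x => sg (f x))))) /
      Real.log 2 := by
  have m1 : ∀ b, ∑ y, jointLaw ε f b y = (1 + sg b * av (fun x => sg (f x))) / 2 := by
    intro b
    simp only [jointLaw_eq]
    rw [av_cube, av_div, av_add, av_const, av_mul, av_TT]
  have m2 : ∀ y, ∑ b, jointLaw ε f b y = 1 / 2 ^ n := by
    intro y
    simp only [jointLaw_eq]
    rw [sum_units, sg_neg, sg_one]; ring
  unfold mutualInfo
  simp only [m1, m2]
  generalize av (fun x => sg (f x)) = m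
  rw [← av_div, ← av_cube, Finset.sum_comm]
  refine Finset.sum_congr rfl fun y _ => ?_
  have e : ∀ s t : ℝ, (1 / 2 ^ n : ℝ) * (s / 2) / (t / 2 * (1 / 2 ^ n)) = s / t := by
    intro s t
    rcases eq_or_ne t 0 with h | h
    · simp [h]
    · field_simp
  simp only [jointLaw_eq, e, Real.logb]
  rw [sum_units, sg_neg, sg_one]
  simp only [one_mul, neg_mul, ← sub_eq_add_neg]
  ring

lemma mul_log_div {x y : ℝ} (hy : y ≠ 0) :
    x * Real.log (x / y) = x * Real.log x - x * Real.log y := by
  rcases eq_or_ne x 0 with h | h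
  · simp [h]
  · rw [Real.log_div h hy]; ring

lemma h2_eq (ε : ℝ) : 1 - h2 ε = Ph (1 - 2 * ε) / Real.log 2 := by
  have l : Real.log 2 ≠ 0 := by linarith [log_two_ge]
  have k : ∀ x : ℝ, x * Real.log (2 * x) = x * Real.log 2 + x * Real.log x := by
    intro x
    rcases eq_or_ne x 0 with h | h
    · simp [h]
    · rw [Real.log_mul (by norm_num) h]; ring
  have e1 : 1 + (1 - 2 * ε) = 2 * (1 - ε) := by ring
  have e2 : 1 - (1 - 2 * ε) = 2 * ε := by ring
  unfold h2 Ph Real.logb
  rw [e1, e2, mul_assoc, mul_assoc, k, k]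
  field_simp
  ring

theorem courtade_kumar {n : ℕ} (f : Cube n → ℤˣ) {ε : ℝ} (h0 : 0 ≤ ε) (h1 : ε ≤ 1 / 2) :
    mutualInfo (jointLaw ε f) ≤ 1 - h2 ε := by
  rw [mutualInfo_eq, h2_eq]
  refine div_le_div_of_nonneg_right ?_ (by linarith [log_two_ge])
  have hP : 0 ≤ Ph (1 - 2 * ε) := by
    rcases h0.eq_or_lt with h | h
    · rw [← h, mul_zero, sub_zero, Ph_one]; linarith [log_two_ge]
    · exact Ph_nonneg (by linarith) (by linarith)
  have cst : ∀ c : ℝ, (fun x => sg (f x)) = (fun _ => c) → av (fun y =>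
      (1 + TT (1 - 2 * ε) (fun x => sg (f x)) y) / 2 *
        Real.log ((1 + TT (1 - 2 * ε) (fun x => sg (f x)) y) / (1 + av (fun x => sg (f x)))) +
      (1 - TT (1 - 2 * ε) (fun x => sg (f x)) y) / 2 *
        Real.log ((1 - TT (1 - 2 * ε) (fun x => sg (f x)) y) / (1 - av (fun x => sg (f x)))))
      ≤ Ph (1 - 2 * ε) := by
    intro c hc
    rw [hc]
    simp only [TT_const, av_const, Real.log_div_self, mul_zero, add_zero]
    exact hP
  by_cases x0 : ∃ x, -1 < sg (f x)
  swap
  · refine cst (-1) (funext fun x => ?_)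
    rcases sg_cases (f x) with h | h
    · exact absurd ⟨x, by rw [h]; norm_num⟩ x0
    · exact h
  by_cases x1 : ∃ x, sg (f x) < 1
  swap
  · refine cst 1 (funext fun x => ?_)
    rcases sg_cases (f x) with h | h
    · exact h
    · exact absurd ⟨x, by rw [h]; norm_num⟩ x1
  have g0 : ∀ x, -1 ≤ sg (f x) := fun x => by
    rcases sg_cases (f x) with h | h <;> linarith
  have g1 : ∀ x, sg (f x) ≤ 1 := fun x => by
    rcases sg_cases (f x) with h | h <;> linarith
  have key := main_nats g0 g1 x0 x1 (ρ := 1 - 2 * ε) (by linarith) (by linarith)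
  have hi : av (fun x => sg (f x)) < 1 := by
    have := (av_lt (g := fun _ => 1) fun y =>
      TT_lt (ρ := 0) (by norm_num) (by norm_num) g1 x1 y)
    rwa [av_const, av_TT] at this
  have lo : -1 < av (fun x => sg (f x)) := by
    have := (av_lt (g := fun _ => 1) fun y =>
      TT_lt (ρ := 0) (g := fun x => (-1) * sg (f x)) (by norm_num) (by norm_num)
        (fun x => by linarith [g0 x]) (by obtain ⟨x, hx⟩ := x0; exact ⟨x, by linarith⟩) y)
    rw [av_const, av_TT, av_mul] at this
    linarith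
  refine le_trans (le_of_eq ?_) key
  set m := av (fun x => sg (f x)) with hm
  have e : ∀ u : ℝ, (1 + u) / 2 * Real.log ((1 + u) / (1 + m)) +
      (1 - u) / 2 * Real.log ((1 - u) / (1 - m)) =
      Ph u - ((Real.log (1 + m) + Real.log (1 - m)) / 2 +
        (Real.log (1 + m) - Real.log (1 - m)) / 2 * u) := by
    intro u
    have a := mul_log_div (x := 1 + u) (y := 1 + m) (by linarith)
    have b := mul_log_div (x := 1 - u) (y := 1 - m) (by linarith)
    unfold Ph
    linarith
  simp only [e]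
  rw [av_sub, av_add, av_const, av_mul, av_TT, ← hm]
  unfold Ph
  ring

end Vale.Agent.P322
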