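import Vale.Agent.P322.Cube

/-! The noise semigroup and the comparison argument. -/

namespace Vale.Agent.P322

open Real Set

noncomputable def ker {n : ℕ} (ρ : ℝ) (x y : Cube n) : ℝ :=
  ∏ i, (1 + ρ * (sg (x i) * sg (y i))) / 2

noncomputable def TT {n : ℕ} (ρ : ℝ) (g : Cube n → ℝ) (y : Cube n) : ℝ := ∑ x, g x * ker ρ x y

lemma sg_cases (a : ℤˣ) : sg a = 1 ∨ sg a = -1 := by
  rcases Int.units_eq_one_or a with h | h <;> simp [h]

lemma sg_mul_cases (a b : ℤˣ) : sg a * sg b = 1 ∨ sg a * sg b = -1 := by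
  rw [← sg_mul]; exact sg_cases _

lemma ker_comm {n : ℕ} (ρ : ℝ) (x y : Cube n) : ker ρ x y = ker ρ y x := by
  unfold ker; simp only [mul_comm]

lemma ker_nonneg {n : ℕ} {ρ : ℝ} (h0 : 0 ≤ ρ) (h1 : ρ ≤ 1) (x y : Cube n) : 0 ≤ ker ρ x y := by
  refine Finset.prod_nonneg fun i _ => ?_
  rcases sg_mul_cases (x i) (y i) with h | h <;> rw [h] <;> linarith

lemma ker_pos {n : ℕ} {ρ : ℝ} (h0 : -1 < ρ) (h1 : ρ < 1) (x y : Cube n) : 0 < ker ρ x y := by
  refine Finset.prod_pos fun i _ => ?_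
  rcases sg_mul_cases (x i) (y i) with h | h <;> rw [h] <;> linarith

lemma sum_ker {n : ℕ} (ρ : ℝ) (y : Cube n) : ∑ x, ker ρ x y = 1 := by
  have := Finset.prod_univ_sum (fun _ : Fin n => (Finset.univ : Finset ℤˣ))
    (fun i b => (1 + ρ * (sg b * sg (y i))) / 2)
  rw [Fintype.piFinset_univ] at this
  unfold ker
  rw [← this]
  refine Finset.prod_eq_one fun i _ => ?_
  rw [sum_units]; simp; ring

lemma av_TT {n : ℕ} (ρ : ℝ) (g : Cube n → ℝ) : av (TT ρ g) = av g := by
  unfold av TT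
  rw [Finset.sum_comm]
  congr 1
  refine Finset.sum_congr rfl fun x _ => ?_
  rw [← Finset.mul_sum]
  simp only [ker_comm ρ x, sum_ker, mul_one]

lemma TT_const {n : ℕ} (ρ c : ℝ) (y : Cube n) : TT ρ (fun _ => c) y = c := by
  unfold TT; rw [← Finset.mul_sum, sum_ker, mul_one]

lemma TT_neg {n : ℕ} (ρ : ℝ) (g : Cube n → ℝ) (y : Cube n) :
    TT ρ (fun x => -g x) y = -TT ρ g y := by
  unfold TT; simp

lemma TT_le {n : ℕ} {ρ : ℝ} (h0 : 0 ≤ ρ) (h1 : ρ ≤ 1) {g : Cube n → ℝ} (hg : ∀ x, g x ≤ 1)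
    (y : Cube n) : TT ρ g y ≤ 1 := by
  rw [← sum_ker ρ y]
  exact Finset.sum_le_sum fun x _ => mul_le_of_le_one_left (ker_nonneg h0 h1 x y) (hg x)

lemma TT_lt {n : ℕ} {ρ : ℝ} (h0 : -1 < ρ) (h1 : ρ < 1) {g : Cube n → ℝ} (hg : ∀ x, g x ≤ 1)
    (hx : ∃ x, g x < 1) (y : Cube n) : TT ρ g y < 1 := by
  rw [← sum_ker ρ y]
  obtain ⟨x, hx⟩ := hx
  exact Finset.sum_lt_sum (fun x _ => mul_le_of_le_one_left (ker_pos h0 h1 x y).le (hg x))
    ⟨x, Finset.mem_univ _, mul_lt_of_lt_one_left (ker_pos h0 h1 x y) hx⟩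

noncomputable def ker' {n : ℕ} (ρ : ℝ) (x y : Cube n) : ℝ :=
  ∑ i, (∏ j ∈ Finset.univ.erase i, (1 + ρ * (sg (x j) * sg (y j))) / 2) * (sg (x i) * sg (y i) / 2)

lemma hasDerivAt_ker {n : ℕ} (ρ : ℝ) (x y : Cube n) :
    HasDerivAt (fun r => ker r x y) (ker' ρ x y) ρ := by
  have := HasDerivAt.fun_finsetProd (u := Finset.univ)
    (f := fun (i : Fin n) (r : ℝ) => (1 + r * (sg (x i) * sg (y i))) / 2)
    (f' := fun i => sg (x i) * sg (y i) / 2) (x := ρ) (fun i _ => by
      have := (((hasDerivAt_id ρ).mul_const (sg (x i) * sg (y i))).const_add 1).div_const 2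
      rw [one_mul] at this
      exact this)
  exact this

lemma ker'_eq {n : ℕ} (ρ : ℝ) (x y : Cube n) :
    ρ * ker' ρ x y = ∑ i, (ker ρ x y - ker ρ x (flp i y)) / 2 := by
  unfold ker'
  rw [Finset.mul_sum]
  refine Finset.sum_congr rfl fun i _ => ?_
  unfold ker
  rw [← Finset.mul_prod_erase _ _ (Finset.mem_univ i), ← Finset.mul_prod_erase _ _ (Finset.mem_univ i)]
  have e : ∏ j ∈ Finset.univ.erase i, (1 + ρ * (sg (x j) * sg (flp i y j))) / 2 =
      ∏ j ∈ Finset.univ.erase i, (1 + ρ * (sg (x j) * sg (y j))) / 2 := by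
    refine Finset.prod_congr rfl fun j hj => ?_
    rw [flp, Function.update_of_ne (Finset.ne_of_mem_erase hj)]
  rw [e, flp, Function.update_self, sg_neg]
  ring

noncomputable def TT' {n : ℕ} (ρ : ℝ) (g : Cube n → ℝ) (y : Cube n) : ℝ := ∑ x, g x * ker' ρ x y

lemma hasDerivAt_TT {n : ℕ} (ρ : ℝ) (g : Cube n → ℝ) (y : Cube n) :
    HasDerivAt (fun r => TT r g y) (TT' ρ g y) ρ :=
  HasDerivAt.fun_sum fun x _ => (hasDerivAt_ker ρ x y).const_mul (g x)

lemma TT'_eq {n : ℕ} (ρ : ℝ) (g : Cube n → ℝ) (y : Cube n) :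
    ρ * TT' ρ g y = ∑ i, (TT ρ g y - TT ρ g (flp i y)) / 2 := by
  unfold TT' TT
  rw [Finset.mul_sum]
  have : ∀ x, ρ * (g x * ker' ρ x y) =
      ∑ i, (g x * ker ρ x y - g x * ker ρ x (flp i y)) / 2 := by
    intro x
    rw [mul_left_comm, ker'_eq, Finset.mul_sum]
    exact Finset.sum_congr rfl fun i _ => by ring
  simp only [this]
  rw [Finset.sum_comm]
  refine Finset.sum_congr rfl fun i _ => ?_
  rw [← Finset.sum_div, Finset.sum_sub_distrib]

lemma flp_flp {n : ℕ} (i : Fin n) (x : Cube n) : flp i (flp i x) = x := by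
  unfold flp; simp

lemma av_flp {n : ℕ} (i : Fin n) (f : Cube n → ℝ) : av (fun x => f (flp i x)) = av f := by
  unfold av
  congr 1
  exact Equiv.sum_comp (Function.Involutive.toPerm (flp i) (flp_flp i)) f

lemma av_sum {Ω ι : Type*} [Fintype Ω] [Fintype ι] (f : ι → Ω → ℝ) :
    av (fun x => ∑ i, f i x) = ∑ i, av (f i) := by
  unfold av; rw [Finset.sum_comm, Finset.sum_div]

lemma DD_eq {n : ℕ} (u : Cube n → ℝ) :
    DD u = av (fun y => A (u y) * ∑ i, (u y - u (flp i y)) / 2) := by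
  simp only [Finset.mul_sum]
  rw [av_sum]
  refine Finset.sum_congr rfl fun i _ => ?_
  have h := av_flp i (fun y => A (u y) * ((u y - u (flp i y)) / 2))
  simp only [flp_flp] at h
  have e : (fun x => kap (u x) (u (flp i x))) = fun x => (A (u x) * ((u x - u (flp i x)) / 2) +
      A (u (flp i x)) * ((u (flp i x) - u x) / 2)) / 2 := by
    funext x; unfold kap; ring
  rw [e, av_div, av_add, h]
  ring

lemma Ph_le_log {u : ℝ} (h0 : -1 ≤ u) (h1 : u ≤ 1) : Ph u ≤ Real.log 2 := by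
  rcases h0.eq_or_lt with h | h
  · rw [← h, Ph_neg, Ph_one]
  rcases h1.eq_or_lt with k | k
  · rw [k, Ph_one]
  · have := H_pos h k; unfold H at this; linarith

lemma hasDerivAt_av {Ω : Type*} [Fintype Ω] {F : ℝ → Ω → ℝ} {F' : Ω → ℝ} {r : ℝ}
    (h : ∀ y, HasDerivAt (fun r => F r y) (F' y) r) : HasDerivAt (fun r => av (F r)) (av F') r :=
  (HasDerivAt.fun_sum fun y _ => h y).div_const _

theorem main_nats {n : ℕ} {g : Cube n → ℝ} (g0 : ∀ x, -1 ≤ g x) (g1 : ∀ x, g x ≤ 1)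
    (x0 : ∃ x, -1 < g x) (x1 : ∃ x, g x < 1) {ρ : ℝ} (h0 : 0 ≤ ρ) (h1 : ρ ≤ 1) :
    av (fun y => Ph (TT ρ g y)) - Ph (av g) ≤ Ph ρ := by
  have lo : ∀ r, -1 < r → r < 1 → ∀ y, -1 < TT r g y := by
    intro r a b y
    have := TT_lt a b (g := fun x => -g x) (fun x => by linarith [g0 x])
      (by obtain ⟨x, hx⟩ := x0; exact ⟨x, by linarith⟩) y
    rw [TT_neg] at this; linarith
  have hi : ∀ r, -1 < r → r < 1 → ∀ y, TT r g y < 1 := fun r a b y => TT_lt a b g1 x1 y
  have hm := av_mem (lo 0 (by norm_num) (by norm_num)) (hi 0 (by norm_num) (by norm_num))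
  rw [av_TT] at hm
  have hm0 := Ph_nonneg hm.1 hm.2
  rcases h1.eq_or_lt with h | h1
  · have := av_mono (g := fun _ => Real.log 2) (f := fun y => Ph (TT ρ g y)) fun y => by
      refine Ph_le_log ?_ (TT_le h0 h1 g1 y)
      have := TT_le h0 h1 (g := fun x => -g x) (fun x => by linarith [g0 x]) y
      rw [TT_neg] at this; linarith
    rw [av_const] at this
    rw [h] at this ⊢
    rw [Ph_one]; linarith
  have top : ∀ r, -1 < r → r < 1 → av (fun y => Ph (TT r g y)) - Ph (av g) < Real.log 2 := by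
    intro r a b
    have := av_lt (g := fun _ => Real.log 2) (f := fun y => Ph (TT r g y)) fun y => by
      have := H_pos (lo r a b y) (hi r a b y); unfold H at this; linarith
    rw [av_const] at this; linarith
  by_contra hc
  push Not at hc
  obtain ⟨s, hs, es⟩ := intermediate_value_Icc h1.le continuous_Ph.continuousOn
    (show av (fun y => Ph (TT ρ g y)) - Ph (av g) ∈ Icc (Ph ρ) (Ph 1) from
      ⟨hc.le, by rw [Ph_one]; exact (top ρ (by linarith) h1).le⟩)
  have s0 : ρ < s := lt_of_le_of_ne hs.1 (by rintro rfl; linarith)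
  have s1 : s < 1 := lt_of_le_of_ne hs.2 (by
    rintro rfl; rw [Ph_one] at es; linarith [top ρ (by linarith) h1])
  have dI : ∀ r, -1 < r → r < 1 → HasDerivAt (fun r => av (fun y => Ph (TT r g y)) - Ph (av g))
      (av fun y => A (TT r g y) * TT' r g y) r := by
    intro r a b
    refine HasDerivAt.sub_const _ (hasDerivAt_av fun y => ?_)
    exact HasDerivAt.comp (h₂ := Ph) (h := fun r => TT r g y) r
      (hasDerivAt_Ph (lo r a b y) (hi r a b y)) (hasDerivAt_TT r g y)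
  have key := image_le_of_deriv_right_lt_deriv_boundary' (a := ρ) (b := 1 - (s - ρ))
    (f := fun r => Ph (r + (s - ρ))) (f' := fun r => A (r + (s - ρ)))
    (B := fun r => av (fun y => Ph (TT r g y)) - Ph (av g))
    (B' := fun r => av fun y => A (TT r g y) * TT' r g y)
    (continuous_Ph.comp (continuous_id.add continuous_const)).continuousOn
    (fun x hx => (HasDerivAt.comp_add_const x (s - ρ)
      (hasDerivAt_Ph (by linarith [hx.1]) (by linarith [hx.2]))).hasDerivWithinAt)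
    (by simp only [add_sub_cancel]; exact es.le)
    (fun x hx => (dI x (by linarith [hx.1]) (by linarith [hx.2])).continuousAt.continuousWithinAt)
    (fun x hx => (dI x (by linarith [hx.1]) (by linarith [hx.2])).hasDerivWithinAt)
    (fun x hx e => by
      have a : -1 < x := by linarith [hx.1]
      have b : x < 1 := by linarith [hx.2]
      have r0 : 0 < x + (s - ρ) := by linarith [hx.1]
      have r1 : x + (s - ρ) < 1 := by linarith [hx.2]
      have ep := entropy_production (lo x a b) (hi x a b) r0 r1 (by rw [av_TT]; exact e)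
      rw [DD_eq] at ep
      simp only [← TT'_eq, mul_left_comm (A _) x, av_mul] at ep
      have hA := A_pos r0 r1
      refine lt_of_mul_lt_mul_left (a := x) ?_ (by linarith [hx.1])
      refine lt_of_lt_of_le ?_ ep
      exact mul_lt_mul_of_pos_right (by linarith) hA)
    (x := 1 - (s - ρ)) ⟨by linarith, le_rfl⟩
  simp only [sub_add_cancel, Ph_one] at key
  linarith [top (1 - (s - ρ)) (by linarith) (by linarith)]

end Vale.Agent.P322
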