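import Vale.Agent.P322.Fam

/-! An explicit bound for the slope `be` and for increments of `r * A r`. -/

namespace Vale.Agent.P322

open Real Set

noncomputable def sN (y : ℝ) (N : ℕ) : ℝ :=
  ∑ j ∈ Finset.range N, 2 / ((2 * (j : ℝ) + 1) * (2 * (j : ℝ) + 3)) * y ^ j +
    y ^ N * (1 / (2 * (N : ℝ) + 1))

lemma sN_eq (y : ℝ) (N : ℕ) : (1 - y) * sA y (N + 1) = 1 - y * sN y N := by
  induction N with
  | zero => simp [sA, sN]
  | succ N ih =>
    have e1 : sA y (N + 1 + 1) = sA y (N + 1) + y ^ (N + 1) / (2 * ((N : ℝ) + 1) + 1) := by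
      unfold sA; rw [Finset.sum_range_succ]; push_cast; ring
    have e2 : sN y (N + 1) = sN y N + 2 / ((2 * (N : ℝ) + 1) * (2 * (N : ℝ) + 3)) * y ^ N +
        y ^ (N + 1) * (1 / (2 * ((N : ℝ) + 1) + 1)) - y ^ N * (1 / (2 * (N : ℝ) + 1)) := by
      unfold sN; rw [Finset.sum_range_succ]; push_cast; ring
    rw [e1, e2, mul_add, ih]
    field_simp
    ring

def cN (k : ℕ) : ℕ := cu 2 ((2 * k + 1) * (2 * k + 3))

lemma le_cN (k : ℕ) : 2 / ((2 * (k : ℝ) + 1) * (2 * (k : ℝ) + 3)) ≤ R (cN k) := by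
  have := le_cu 2 ((2 * k + 1) * (2 * k + 3)); push_cast at this; exact this

lemma sN_le {y : ℕ} {x : ℝ} (h0 : 0 ≤ x) (hx : x ≤ R y) (N : ℕ) :
    sN x N ≤ R (hU cN cAu y N 0) := by
  have := le_hU (cr := fun k => 2 / ((2 * (k : ℝ) + 1) * (2 * (k : ℝ) + 3)))
    (lr := fun k => 1 / (2 * (k : ℝ) + 1)) h0 hx le_cN le_cAu N 0
  simp only [zero_add] at this
  exact this

def kChk (y0 y1 Nn ph : ℕ) : Bool :=
  Nat.ble (mu Nn (Nat.sub SS (md (cl 57 40) (md y0 ph))))
    (md (md (cl 27 20) ph) (Nat.sub SS (mu y1 Nn))) && Nat.blt (mu y1 Nn) SS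

def kOK (i : ℕ) : Bool :=
  kChk (Nat.mul i 4194304) (Nat.mul (Nat.succ i) 4194304)
    (hU cN cAu (Nat.mul (Nat.succ i) 4194304) 32 0) (hL cPl (Nat.mul i 4194304) 32 0)

def kAll : ℕ → Bool
  | 0 => true
  | n + 1 => kOK n && kAll n

theorem kAll_900 : kAll 900 = true := by decide +kernel

lemma kOK_sound {i : ℕ} (h : kOK i = true) {y : ℝ} (h0 : (i : ℝ) / 1024 ≤ y)
    (h1 : y ≤ ((i : ℝ) + 1) / 1024) (hb : 57 / 40 * (y * sP y 32) ≤ 1) :
    sN y 32 * (1 - 57 / 40 * (y * sP y 32)) ≤ 27 / 20 * sP y 32 * (1 - y * sN y 32) ∧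
      y * sN y 32 < 1 := by
  unfold kOK kChk at h
  rw [Bool.and_eq_true] at h
  obtain ⟨c1, c2⟩ := h
  have y0 : 0 ≤ y := le_trans (by positivity) h0
  have a0 : R (Nat.mul i 4194304) ≤ y := by
    refine le_trans (le_of_eq ?_) h0
    change R (i * 4194304) = _
    unfold R; push_cast; ring
  have a1 : y ≤ R (Nat.mul (Nat.succ i) 4194304) := by
    refine h1.trans (le_of_eq ?_)
    change _ = R ((i + 1) * 4194304)
    unfold R; push_cast; ring
  have n1 := sN_le y0 a1 32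
  have n0 : 0 ≤ sN y 32 := by unfold sN; positivity
  have p1 := hL_sP a0 32
  have q := le_mu n0 a1 n1
  have q2 := R_blt c2
  rw [R_SS] at q2
  refine ⟨?_, by linarith⟩
  have ka : R (cl 27 20) ≤ 27 / 20 := by have := cl_le 27 20; push_cast at this; exact this
  have kb : R (cl 57 40) ≤ 57 / 40 := by have := cl_le 57 40; push_cast at this; exact this
  exact (le_mu (by linarith) n1 (le_sub R_SS.ge (md_le kb (md_le a0 p1)))).trans
    ((R_ble c1).trans (md_le (md_le ka p1) (sub_le R_SS.le q (by linarith))))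

lemma kAll_sound {n : ℕ} (h : kAll n = true) {y : ℝ} (h0 : 0 < y) (h1 : y ≤ (n : ℝ) / 1024)
    (hb : 57 / 40 * (y * sP y 32) ≤ 1) :
    sN y 32 * (1 - 57 / 40 * (y * sP y 32)) ≤ 27 / 20 * sP y 32 * (1 - y * sN y 32) ∧
      y * sN y 32 < 1 := by
  induction n with
  | zero => simp at h1; linarith
  | succ n ih =>
    unfold kAll at h
    rw [Bool.and_eq_true] at h
    rcases le_total y ((n : ℝ) / 1024) with c | c
    · exact ih h.2 c
    · exact kOK_sound h.1 c (by push_cast at h1; exact h1) hb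

lemma kq_mono {s t : ℝ} (h0 : 0 ≤ s) (h : s ≤ t) (h1 : t ≤ 0.7) : kq s ≤ kq t := by
  unfold kq
  have : 0 < 1 - 57 / 40 * t := by linarith
  have : 0 ≤ t := by linarith
  gcongr

lemma kq_nonneg {t : ℝ} (h0 : 0 ≤ t) (h1 : t ≤ 0.7) : 0 ≤ kq t := by
  unfold kq
  have : 0 < 1 - 57 / 40 * t := by linarith
  positivity

lemma Ph_le_P0 {r : ℝ} (h0 : 0 ≤ r) (h1 : r ≤ 15 / 16) : Ph r ≤ 0.5541 :=
  (Ph_mono h0 h1 (by norm_num)).trans P0_hi

lemma be_le_kq {r : ℝ} (h0 : 0 < r) (h1 : r ≤ 15 / 16) : be r ≤ 2 + kq (Ph r) := by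
  have r1 : r < 1 := by linarith
  have hP := Ph_le_P0 h0.le h1
  have p1 := sP_le h0.le r1 32
  have a1 := sA_le h0.le r1 33
  have y0 : 0 < r ^ 2 := by positivity
  have y1 : r ^ 2 ≤ ((900 : ℕ) : ℝ) / 1024 := by push_cast; nlinarith
  have f0 : 0 ≤ sP (r ^ 2) 32 := by unfold sP; positivity
  obtain ⟨k1, k2⟩ := kAll_sound kAll_900 y0 y1 (by linarith)
  have m := kq_mono (by positivity) p1 (by linarith)
  have e := sN_eq (r ^ 2) 32
  have hq : 0 < 1 - r ^ 2 := by nlinarith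
  have hA := A_pos h0 r1
  set y := r ^ 2
  set f := sP y 32
  set n := sN y 32
  have d0 : 0 < 1 - 57 / 40 * (y * f) := by linarith
  have d1 : 0 < 1 - y * n := by linarith
  have k3 : r / ((1 - y) * A r) ≤ 1 / (1 - y * n) := by
    rw [div_le_div_iff₀ (by positivity) d1, ← e]
    have := mul_le_mul_of_nonneg_left a1 hq.le
    nlinarith
  have k4 : 1 / (1 - y * n) ≤ 1 + kq (y * f) := by
    unfold kq
    rw [div_le_iff₀ d1, one_add_div d0.ne', div_mul_eq_mul_div, le_div_iff₀ d0]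
    have := mul_le_mul_of_nonneg_left k1 y0.le
    nlinarith
  unfold be; linarith

lemma Gamma {p q : ℝ} (h0 : 0 ≤ p) (h : p ≤ q) (h1 : q ≤ 15 / 16) :
    q * A q - p * A p ≤ (Ph q - Ph p) * (2 + (kq (Ph p) + kq (Ph q)) / 2) := by
  have key := le_of_deriv_nonneg
    (f := fun s => (Ph s - Ph p) * (2 + (kq (Ph p) + kq (Ph s)) / 2) - s * A s)
    (f' := fun s => A s * (2 + (kq (Ph p) + kq (Ph s)) / 2) +
      (Ph s - Ph p) * ((27 / 20) / (1 - 57 / 40 * Ph s) ^ 2 * A s / 2) - (A s + s / (1 - s ^ 2)))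
    h ?_ ?_
  · simp only [sub_self, zero_mul] at key
    linarith
  · intro x a b
    have hP := Ph_le_P0 (r := x) (by linarith) (by linarith)
    have dP := hasDerivAt_Ph (u := x) (by linarith) (by linarith)
    have d0 : 1 - 57 / 40 * Ph x ≠ 0 := by linarith
    have dk : HasDerivAt (fun s => kq (Ph s)) ((27 / 20) / (1 - 57 / 40 * Ph x) ^ 2 * A x) x := by
      have := (dP.const_mul (27 / 20)).div ((dP.const_mul (57 / 40)).const_sub 1) d0
      refine this.congr_deriv ?_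
      field_simp
      ring
    exact ((dP.sub_const _).mul (((dk.const_add _).div_const 2).const_add 2)).sub
      (hasDerivAt_g (by linarith) (by linarith))
  · intro x a b
    have x0 : 0 < x := by linarith
    have x1 : x < 1 := by linarith
    have hP := Ph_le_P0 (r := x) (by linarith) (by linarith)
    have hI := Ph_mono h0 a.le x1
    have hI0 := Ph_nonneg (u := p) (by linarith) (by linarith)
    rw [g_deriv_eq x0 x1]
    have hb := be_le_kq x0 (by linarith)
    have hA := A_pos x0 x1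
    have d0 : 0 < 1 - 57 / 40 * Ph x := by linarith
    have d1 : 0 < 1 - 57 / 40 * Ph p := by linarith
    have k : kq (Ph x) - kq (Ph p) ≤ (Ph x - Ph p) * ((27 / 20) / (1 - 57 / 40 * Ph x) ^ 2) := by
      have e : kq (Ph x) - kq (Ph p) =
        (Ph x - Ph p) * ((27 / 20) / ((1 - 57 / 40 * Ph x) * (1 - 57 / 40 * Ph p))) := by
        unfold kq
        rw [div_sub_div _ _ d0.ne' d1.ne', ← mul_div_assoc]
        congr 1; ring
      rw [e, sq]
      gcongr
    have := mul_le_mul_of_nonneg_left k hA.le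
    have := mul_le_mul_of_nonneg_left hb hA.le
    nlinarith

end Vale.Agent.P322
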