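import Vale.Agent.P322.Basic

/-! Pointwise two-variable inequalities. -/

namespace Vale.Agent.P322

open Real Set

/-- entropy production along one edge -/
noncomputable def kap (a b : ℝ) : ℝ := (a - b) * (A a - A b) / 4
noncomputable def gg (a b : ℝ) : ℝ := Real.sqrt ((1 - a ^ 2) * (1 - b ^ 2))

lemma kap_comm (a b : ℝ) : kap a b = kap b a := by unfold kap; ring
lemma gg_comm (a b : ℝ) : gg a b = gg b a := by unfold gg; rw [mul_comm]
lemma gg_nonneg (a b : ℝ) : 0 ≤ gg a b := Real.sqrt_nonneg _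

lemma kap_nonneg {a b : ℝ} (ha0 : -1 < a) (ha1 : a < 1) (hb0 : -1 < b) (hb1 : b < 1) :
    0 ≤ kap a b := by
  unfold kap
  rcases le_total a b with h | h
  · have := A_le_A ha0 hb1 h
    nlinarith
  · have := A_le_A hb0 ha1 h
    nlinarith

lemma le_of_sq_le_sq' {a b : ℝ} (h : a ^ 2 ≤ b ^ 2) (hb : 0 ≤ b) : a ≤ b :=
  (abs_le_of_sq_le_sq' h hb).2

lemma gg_le {u w : ℝ} (hu0 : -1 < u) (hu1 : u < 1) (hw0 : -1 < w) (hw1 : w < 1) {l : ℝ}
    (hl : 0 < l) : gg u w ≤ (l * (1 - u ^ 2) + (1 - w ^ 2) / l) / 2 := by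
  have b1 : 0 ≤ 1 - u ^ 2 := by nlinarith
  have b2 : 0 ≤ 1 - w ^ 2 := by nlinarith
  unfold gg
  apply Real.sqrt_le_iff.2
  refine ⟨by positivity, ?_⟩
  have e : (1 - u ^ 2) * (1 - w ^ 2) = (l * (1 - u ^ 2)) * ((1 - w ^ 2) / l) := by field_simp
  rw [e]
  nlinarith [sq_nonneg (l * (1 - u ^ 2) - (1 - w ^ 2) / l)]

lemma K0 {s t : ℝ} (hs : 0 < s) (hst : s ≤ t) (h1 : s + t ≤ 1) :
    t ^ 2 * Real.log t ≤ s ^ 2 * Real.log s := by
  have ht : 0 < t := by linarith
  rcases le_total (Real.log t) (-1 / 2) with h | h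
  · have a := Real.log_le_sub_one_of_pos (show 0 < t ^ 2 / s ^ 2 by positivity)
    rw [Real.log_div (by positivity) (by positivity), Real.log_pow, Real.log_pow] at a
    have b := mul_le_mul_of_nonneg_left a (show 0 ≤ s ^ 2 by positivity)
    have e : s ^ 2 * (t ^ 2 / s ^ 2 - 1) = t ^ 2 - s ^ 2 := by field_simp
    rw [e] at b
    push_cast at b
    have c : 0 ≤ t ^ 2 - s ^ 2 := by nlinarith
    nlinarith
  · have e1 : Real.exp (-1) ≤ t ^ 2 := by
      rw [← Real.exp_log (show 0 < t ^ 2 by positivity), Real.log_pow]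
      apply Real.exp_le_exp.2
      push_cast; linarith
    have a := Real.log_le_sub_one_of_pos (show 0 < Real.exp (-1) / s by positivity)
    rw [Real.log_div (by positivity) (by positivity), Real.log_exp] at a
    have b := mul_le_mul_of_nonneg_left a (show 0 ≤ s ^ 2 by positivity)
    have e : s ^ 2 * (Real.exp (-1) / s - 1) = s * Real.exp (-1) - s ^ 2 := by field_simp
    rw [e] at b
    have c := Real.log_le_sub_one_of_pos ht
    have c2 := mul_le_mul_of_nonneg_left c (show 0 ≤ t ^ 2 by positivity)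
    have c3 : s * Real.exp (-1) ≤ (1 - t) * t ^ 2 :=
      mul_le_mul (by linarith) e1 (by positivity) (by linarith)
    nlinarith

lemma K1 {u w : ℝ} (hw : -1 < w) (hwu : w < u) (hu : u < 1) (hm : 0 ≤ u + w) :
    (1 + u) * (1 + w) / 4 * Real.log ((1 + u) * (1 + w) / 4) + (u + w) / 2 * ((u - w) / 2) ^ 2 ≤
      (1 - u) * (1 - w) / 4 * Real.log ((1 - u) * (1 - w) / 4) := by
  set P := (1 + u) * (1 + w) / 4 with hP
  set Q := (1 - u) * (1 - w) / 4 with hQ
  set D := (u - w) / 2 with hD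
  have hP0 : 0 < P := by rw [hP]; have : 0 < 1 + u := by linarith
                         have : 0 < 1 + w := by linarith
                         positivity
  have hQ0 : 0 < Q := by rw [hQ]; have : 0 < 1 - u := by linarith
                         have : 0 < 1 - w := by linarith
                         positivity
  have hD0 : 0 < D := by rw [hD]; linarith
  have hD1 : D < 1 := by rw [hD]; linarith
  have hk2 : 0 < 1 - D ^ 2 := by nlinarith
  have hPQ : P - Q = (u + w) / 2 := by rw [hP, hQ]; ring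
  set t := Real.sqrt P with ht
  set s := Real.sqrt Q with hs
  set k := Real.sqrt (1 - D ^ 2) with hk
  have t2 : t ^ 2 = P := Real.sq_sqrt hP0.le
  have s2 : s ^ 2 = Q := Real.sq_sqrt hQ0.le
  have k2 : k ^ 2 = 1 - D ^ 2 := Real.sq_sqrt hk2.le
  have t0 : 0 < t := Real.sqrt_pos.2 hP0
  have s0 : 0 < s := Real.sqrt_pos.2 hQ0
  have k0 : 0 < k := Real.sqrt_pos.2 hk2
  have hst : s ≤ t := Real.sqrt_le_sqrt (by linarith)
  have hsum : s + t ≤ k := by
    have hprod : 2 * (s * t) ≤ (1 - u ^ 2) / 4 + (1 - w ^ 2) / 4 := by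
      have e : (s * t) ^ 2 = ((1 - u ^ 2) / 4) * ((1 - w ^ 2) / 4) := by
        rw [mul_pow, s2, t2, hP, hQ]; ring
      have a1 : 0 ≤ (1 - u ^ 2) / 4 := by nlinarith
      have a2 : 0 ≤ (1 - w ^ 2) / 4 := by nlinarith
      by_contra hc
      push Not at hc
      nlinarith [sq_nonneg ((1 - u ^ 2) / 4 - (1 - w ^ 2) / 4)]
    have : (s + t) ^ 2 ≤ k ^ 2 := by
      have e : (s + t) ^ 2 = s ^ 2 + t ^ 2 + 2 * (s * t) := by ring
      rw [e, s2, t2, k2, hP, hQ, hD]; nlinarith
    exact le_of_sq_le_sq' this k0.le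
  have h := K0 (s := s / k) (t := t / k) (by positivity) (by gcongr)
    (by rw [← add_div, div_le_one k0]; exact hsum)
  rw [Real.log_div t0.ne' k0.ne', Real.log_div s0.ne' k0.ne', div_pow, div_pow,
    div_mul_eq_mul_div, div_mul_eq_mul_div, div_le_div_iff_of_pos_right (by positivity), t2, s2] at h
  have lP : Real.log P = 2 * Real.log t := by rw [← t2, Real.log_pow]; norm_num
  have lQ : Real.log Q = 2 * Real.log s := by rw [← s2, Real.log_pow]; norm_num
  have lk : 2 * Real.log k ≤ -D ^ 2 := by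
    have := Real.log_le_sub_one_of_pos hk2
    rw [← k2, Real.log_pow] at this
    push_cast at this
    linarith
  rw [lP, lQ, ← hPQ]
  have : 0 ≤ P - Q := by linarith
  nlinarith

lemma flow {θ c : ℝ} (hθ : 0 < θ) (hc : 0 ≤ c) :
    (H (Real.tanh θ) - 1 / 2) / Real.tanh θ ≤
      ((H (Real.tanh (c + θ)) + H (Real.tanh (c - θ))) / 2 -
        (1 - ((Real.tanh (c + θ) + Real.tanh (c - θ)) / 2) ^ 2) / 2) /
        ((Real.tanh (c + θ) - Real.tanh (c - θ)) / 2) := by
  have key := le_of_deriv_nonneg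
    (f := fun c => ((H (Real.tanh (c + θ)) + H (Real.tanh (c - θ))) / 2 -
        (1 - ((Real.tanh (c + θ) + Real.tanh (c - θ)) / 2) ^ 2) / 2) /
        ((Real.tanh (c + θ) - Real.tanh (c - θ)) / 2))
    (f' := fun c =>
      (let u := Real.tanh (c + θ); let w := Real.tanh (c - θ);
      ((1 - u) * (1 - w) / 4 * Real.log ((1 - u) * (1 - w) / 4) -
       ((1 + u) * (1 + w) / 4 * Real.log ((1 + u) * (1 + w) / 4) +
          (u + w) / 2 * ((u - w) / 2) ^ 2)) / ((u - w) / 2))) hc ?_ ?_
  · simp only [zero_add, zero_sub, Real.tanh_neg, H_neg] at key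
    have e : ((H (Real.tanh θ) + H (Real.tanh θ)) / 2 -
        (1 - ((Real.tanh θ + -Real.tanh θ) / 2) ^ 2) / 2) / ((Real.tanh θ - -Real.tanh θ) / 2)
        = (H (Real.tanh θ) - 1 / 2) / Real.tanh θ := by
      congr 1 <;> ring
    rw [e] at key
    exact key
  · intro x _ _
    have du : HasDerivAt (fun c => Real.tanh (c + θ)) (1 - Real.tanh (x + θ) ^ 2) x :=
      HasDerivAt.comp_add_const x θ (hasDerivAt_tanh (x + θ))
    have dw : HasDerivAt (fun c => Real.tanh (c - θ)) (1 - Real.tanh (x - θ) ^ 2) x :=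
      HasDerivAt.comp_sub_const x θ (hasDerivAt_tanh (x - θ))
    have hu0 := Real.neg_one_lt_tanh (x + θ)
    have hu1 := Real.tanh_lt_one (x + θ)
    have hw0 := Real.neg_one_lt_tanh (x - θ)
    have hw1 := Real.tanh_lt_one (x - θ)
    have hwu : Real.tanh (x - θ) < Real.tanh (x + θ) := tanh_lt_tanh (by linarith)
    have dHu := (hasDerivAt_H hu0 hu1).comp x du
    have dHw := (hasDerivAt_H hw0 hw1).comp x dw
    have dN := ((dHu.add dHw).div_const 2).sub
      (((((du.add dw).div_const 2).pow 2).const_sub 1).div_const 2)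
    have dD := (du.sub dw).div_const 2
    have hne : (Real.tanh (x + θ) - Real.tanh (x - θ)) / 2 ≠ 0 := by linarith
    have d := dN.div dD hne
    refine d.congr_deriv ?_
    simp only [Function.comp, Pi.add_apply, Pi.sub_apply, Pi.pow_apply]
    generalize Real.tanh (x + θ) = u at *
    generalize Real.tanh (x - θ) = w at *
    have a1 : (1 + u) ≠ 0 := by linarith
    have a2 : (1 - u) ≠ 0 := by linarith
    have a3 : (1 + w) ≠ 0 := by linarith
    have a4 : (1 - w) ≠ 0 := by linarith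
    have l4 : Real.log 4 = 2 * Real.log 2 := by
      rw [show (4 : ℝ) = 2 ^ 2 by norm_num, Real.log_pow]; norm_num
    rw [Real.log_div (mul_ne_zero a2 a4) (by norm_num), Real.log_div (mul_ne_zero a1 a3) (by norm_num),
      Real.log_mul a2 a4, Real.log_mul a1 a3, l4]
    have hne' : u - w ≠ 0 := by linarith
    unfold H Ph A
    field_simp
    ring
  · intro x hx _
    have hu1 := Real.tanh_lt_one (x + θ)
    have hw0 := Real.neg_one_lt_tanh (x - θ)
    have hwu : Real.tanh (x - θ) < Real.tanh (x + θ) := tanh_lt_tanh (by linarith)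
    have hm : 0 ≤ Real.tanh (x + θ) + Real.tanh (x - θ) := by
      have : Real.tanh (-(x - θ)) ≤ Real.tanh (x + θ) := tanh_le_tanh (by linarith)
      rw [Real.tanh_neg] at this
      linarith
    have := K1 hw0 hwu hu1 hm
    exact div_nonneg (by linarith) (by linarith)

lemma flow' {u w : ℝ} (hw : -1 < w) (hwu : w < u) (hu : u < 1) :
    (H (Real.tanh ((A u - A w) / 2)) - 1 / 2) / Real.tanh ((A u - A w) / 2) ≤
      ((H u + H w) / 2 - (1 - ((u + w) / 2) ^ 2) / 2) / ((u - w) / 2) := by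
  have hθ : 0 < (A u - A w) / 2 := by have := A_lt_A hw hu hwu; linarith
  rcases le_total 0 (A u + A w) with h | h
  · have := flow (θ := (A u - A w) / 2) (c := (A u + A w) / 2) hθ (by linarith)
    rw [show (A u + A w) / 2 + (A u - A w) / 2 = A u by ring,
      show (A u + A w) / 2 - (A u - A w) / 2 = A w by ring,
      tanh_A (by linarith) hu, tanh_A hw (by linarith)] at this
    exact this
  · have := flow (θ := (A u - A w) / 2) (c := -(A u + A w) / 2) hθ (by linarith)
    rw [show -(A u + A w) / 2 + (A u - A w) / 2 = -A w by ring,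
      show -(A u + A w) / 2 - (A u - A w) / 2 = -A u by ring, Real.tanh_neg, Real.tanh_neg,
      tanh_A (by linarith) hu, tanh_A hw (by linarith), H_neg, H_neg] at this
    refine this.trans (le_of_eq ?_)
    congr 1 <;> ring

/-- the symmetric point with the same log-odds ratio -/
lemma exists_zz {u w : ℝ} (hw : -1 < w) (hwu : w < u) (hu : u < 1) :
    ∃ z, 0 < z ∧ z < 1 ∧ A z = (A u - A w) / 2 ∧ z * gg u w = (u - w) / 2 * (1 - z ^ 2) ∧
      z * (1 - u * w) = (u - w) / 2 * (1 + z ^ 2) ∧ (u - w) / 2 ≤ z * (1 - ((u + w) / 2) ^ 2) ∧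
      (u - w) / 2 * (H z - 1 / 2) ≤ z * ((H u + H w) / 2 - (1 - ((u + w) / 2) ^ 2) / 2) := by
  have a1 : 0 < 1 + u := by linarith
  have a2 : 0 < 1 - u := by linarith
  have a3 : 0 < 1 + w := by linarith
  have a4 : 0 < 1 - w := by linarith
  set x := Real.sqrt ((1 + u) * (1 - w)) with hx
  set y := Real.sqrt ((1 - u) * (1 + w)) with hy
  have x2 : x ^ 2 = (1 + u) * (1 - w) := Real.sq_sqrt (by positivity)
  have y2 : y ^ 2 = (1 - u) * (1 + w) := Real.sq_sqrt (by positivity)
  have x0 : 0 < x := Real.sqrt_pos.2 (by positivity)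
  have y0 : 0 < y := Real.sqrt_pos.2 (by positivity)
  have hyx : y < x := Real.sqrt_lt_sqrt (by positivity) (by nlinarith)
  have hg : gg u w = x * y := by
    rw [hx, hy, ← Real.sqrt_mul (by positivity)]
    unfold gg; congr 1; ring
  have hxy : 0 < x + y := by linarith
  have hz0 : 0 < (x - y) / (x + y) := div_pos (by linarith) hxy
  have hz1 : (x - y) / (x + y) < 1 := by rw [div_lt_one hxy]; linarith
  have hA : A ((x - y) / (x + y)) = (A u - A w) / 2 := by
    have e1 : 1 + (x - y) / (x + y) = 2 * x / (x + y) := by field_simp; ring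
    have e2 : 1 - (x - y) / (x + y) = 2 * y / (x + y) := by field_simp; ring
    have lx : 2 * Real.log x = Real.log (1 + u) + Real.log (1 - w) := by
      rw [← Real.log_mul a1.ne' a4.ne', ← x2, Real.log_pow]; norm_num
    have ly : 2 * Real.log y = Real.log (1 - u) + Real.log (1 + w) := by
      rw [← Real.log_mul a2.ne' a3.ne', ← y2, Real.log_pow]; norm_num
    unfold A
    rw [e1, e2, Real.log_div (by positivity) hxy.ne', Real.log_div (by positivity) hxy.ne',
      Real.log_mul (by norm_num) x0.ne', Real.log_mul (by norm_num) y0.ne']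
    linarith
  have hD : (u - w) / 2 = (x ^ 2 - y ^ 2) / 4 := by rw [x2, y2]; ring
  have hS : 1 - u * w = (x ^ 2 + y ^ 2) / 2 := by rw [x2, y2]; ring
  refine ⟨(x - y) / (x + y), hz0, hz1, hA, ?_, ?_, ?_, ?_⟩
  · rw [hg, hD]; field_simp; ring
  · rw [hS, hD]; field_simp; ring
  · have h1 := gg_le (by linarith) hu hw (by linarith) one_pos
    rw [hg] at h1
    have h2 : (x + y) ^ 2 ≤ 4 * (1 - ((u + w) / 2) ^ 2) := by
      have e : (x + y) ^ 2 = x ^ 2 + y ^ 2 + 2 * (x * y) := by ring
      have e2 : 4 * (1 - ((u + w) / 2) ^ 2) = (1 + u) * (1 - w) + (1 - u) * (1 + w) +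
        2 * ((1 * (1 - u ^ 2) + (1 - w ^ 2) / 1) / 2) := by ring
      rw [e, x2, y2, e2]; linarith
    rw [hD, div_mul_eq_mul_div, le_div_iff₀ hxy]
    have h3 := mul_le_mul_of_nonneg_left h2 (show 0 ≤ (x - y) / 4 by linarith)
    calc (x ^ 2 - y ^ 2) / 4 * (x + y) = (x - y) / 4 * (x + y) ^ 2 := by ring
      _ ≤ _ := h3
      _ = _ := by ring
  · have := flow' hw hwu hu
    rw [← hA, tanh_A (by linarith) hz1, div_le_div_iff₀ hz0 (by linarith)] at this
    linarith

/-! ### dual (tangent line) inequalities -/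

lemma min_of_deriv {f c M : ℝ → ℝ} {y z : ℝ} (hy0 : 0 < y) (hy1 : y < 1) (hz0 : 0 < z) (hz1 : z < 1)
    (hd : ∀ x, 0 < x → x < 1 → HasDerivAt f (c x * (M x - M z)) x)
    (hc : ∀ x, 0 < x → x < 1 → 0 ≤ c x)
    (hM : ∀ a b, 0 < a → a ≤ b → b < 1 → M a ≤ M b) : f z ≤ f y := by
  rcases le_total z y with h | h
  · refine le_of_deriv_nonneg h (fun x h1 h2 => hd x (by linarith) (by linarith)) ?_
    intro x h1 h2
    exact mul_nonneg (hc x (by linarith) (by linarith))
      (by linarith [hM z x hz0 h1.le (by linarith)])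
  · refine le_of_deriv_nonpos h (fun x h1 h2 => hd x (by linarith) (by linarith)) ?_
    intro x h1 h2
    exact mul_nonpos_of_nonneg_of_nonpos (hc x (by linarith) (by linarith))
      (by linarith [hM x z (by linarith) h2.le hz1])

noncomputable def LL (z : ℝ) : ℝ := z * A z + H z
noncomputable def mA (z : ℝ) : ℝ := z ^ 2 / ((1 - z ^ 2) * LL z)
noncomputable def mB (z : ℝ) : ℝ := z ^ 2 / ((1 - z ^ 2) * (1 + z ^ 2))

lemma log_two_ge : (0.6931 : ℝ) ≤ Real.log 2 := by
  have := Real.log_two_gt_d9; linarith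
lemma log_two_le : Real.log 2 ≤ (0.6932 : ℝ) := by
  have := Real.log_two_lt_d9; linarith

lemma LL_ge {z : ℝ} (h0 : -1 < z) (h1 : z < 1) : Real.log 2 ≤ LL z := by
  unfold LL H
  rw [Ph_eq h0 h1]
  have : Real.log (1 - z ^ 2) ≤ 0 := Real.log_nonpos (by nlinarith) (by nlinarith)
  linarith

lemma LL_pos {z : ℝ} (h0 : -1 < z) (h1 : z < 1) : 0 < LL z :=
  lt_of_lt_of_le (by linarith [log_two_ge]) (LL_ge h0 h1)

lemma hasDerivAt_LL {z : ℝ} (h0 : -1 < z) (h1 : z < 1) : HasDerivAt LL (z / (1 - z ^ 2)) z := by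
  have := ((hasDerivAt_id z).mul (hasDerivAt_A h0 h1)).add (hasDerivAt_H h0 h1)
  refine this.congr_deriv ?_
  simp only [id]; ring

lemma mA_pos {z : ℝ} (h0 : 0 < z) (h1 : z < 1) : 0 < mA z := by
  have := LL_pos (by linarith) h1
  have : 0 < 1 - z ^ 2 := by nlinarith
  unfold mA; positivity

lemma mB_pos {z : ℝ} (h0 : 0 < z) (h1 : z < 1) : 0 < mB z := by
  have : 0 < 1 - z ^ 2 := by nlinarith
  unfold mB; positivity

lemma mA_mono {a b : ℝ} (h0 : 0 < a) (h : a ≤ b) (h1 : b < 1) : mA a ≤ mA b := by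
  have key := le_of_deriv_nonpos (f := fun z => (1 - z ^ 2) * LL z / z ^ 2)
    (f' := fun z => (z ^ 2 - 2 * LL z) / z ^ 3) h ?_ ?_
  · have la := LL_pos (z := a) (by linarith) (by linarith)
    have lb := LL_pos (z := b) (by linarith) h1
    have : 0 < 1 - a ^ 2 := by nlinarith
    have : 0 < 1 - b ^ 2 := by nlinarith
    have hb : 0 < b := by linarith
    unfold mA
    rw [div_le_div_iff₀ (by positivity) (by positivity)] at key ⊢
    linarith
  · intro x h2 h3
    have x0 : 0 < x := by linarith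
    have x1 : 0 < 1 - x ^ 2 := by nlinarith
    have := ((((hasDerivAt_id x).pow 2).const_sub 1).mul
      (hasDerivAt_LL (z := x) (by linarith) (by linarith))).div ((hasDerivAt_id x).pow 2)
      (by simp only [id, Pi.pow_apply]; positivity)
    refine this.congr_deriv ?_
    simp only [id, Pi.pow_apply, Pi.mul_apply]
    field_simp
    ring
  · intro x h2 h3
    have x0 : 0 < x := by linarith
    have := LL_ge (z := x) (by linarith) (by linarith)
    have := log_two_ge
    exact div_nonpos_of_nonpos_of_nonneg (by nlinarith) (by positivity)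

lemma mB_mono {a b : ℝ} (h0 : 0 < a) (h : a ≤ b) (h1 : b < 1) : mB a ≤ mB b := by
  have : 0 < 1 - a ^ 2 := by nlinarith
  have : 0 < 1 - b ^ 2 := by nlinarith
  have hab : a ^ 2 ≤ b ^ 2 := by nlinarith
  unfold mB
  rw [div_le_div_iff₀ (by positivity) (by positivity)]
  have : 0 ≤ (b ^ 2 - a ^ 2) * (1 + a ^ 2 * b ^ 2) := mul_nonneg (by linarith) (by positivity)
  nlinarith

lemma dualA {y z : ℝ} (hy0 : 0 < y) (hy1 : y < 1) (hz0 : 0 < z) (hz1 : z < 1) :
    A z + mA z * (H z / z) ≤ A y + mA z * (H y / y) := by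
  refine min_of_deriv (f := fun y => A y + mA z * (H y / y)) (c := fun y => LL y / y ^ 2)
    (M := mA) hy0 hy1 hz0 hz1 ?_ ?_ (fun a b h1 h2 h3 => mA_mono h1 h2 h3)
  · intro x x0 x1
    have x2 : 0 < 1 - x ^ 2 := by nlinarith
    have l := LL_pos (z := x) (by linarith) x1
    have := (hasDerivAt_A (by linarith) x1).add
      (((hasDerivAt_H (by linarith) x1).div (hasDerivAt_id x) x0.ne').const_mul (mA z))
    refine this.congr_deriv ?_
    have e : H x = LL x - x * A x := by unfold LL; ring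
    simp only [id]
    rw [e]
    generalize mA z = μ
    unfold mA
    field_simp
    ring
  · intro x x0 x1
    have l := LL_pos (z := x) (by linarith) x1
    positivity

lemma dualB {y z : ℝ} (hy0 : 0 < y) (hy1 : y < 1) (hz0 : 0 < z) (hz1 : z < 1) :
    A z + mB z * ((1 - z ^ 2) / z) ≤ A y + mB z * ((1 - y ^ 2) / y) := by
  refine min_of_deriv (f := fun y => A y + mB z * ((1 - y ^ 2) / y))
    (c := fun y => (1 + y ^ 2) / y ^ 2)
    (M := mB) hy0 hy1 hz0 hz1 ?_ ?_ (fun a b h1 h2 h3 => mB_mono h1 h2 h3)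
  · intro x x0 x1
    have x2 : 0 < 1 - x ^ 2 := by nlinarith
    have := (hasDerivAt_A (by linarith) x1).add
      (((((hasDerivAt_id x).pow 2).const_sub 1).div (hasDerivAt_id x) x0.ne').const_mul (mB z))
    refine this.congr_deriv ?_
    simp only [id, Pi.pow_apply]
    generalize mB z = μ
    unfold mB
    field_simp
    ring
  · intro x x0 x1
    positivity

lemma ptA {u w z : ℝ} (hu0 : -1 < u) (hu1 : u < 1) (hw0 : -1 < w) (hw1 : w < 1)
    (hz0 : 0 < z) (hz1 : z < 1) :
    (u - w) / 2 * (A z + mA z * (H z / z)) ≤ kap u w + mA z * ((H u + H w) / 2) := by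
  have hμ := mA_pos hz0 hz1
  have hH := H_pos (u := z) (by linarith) hz1
  have hA := A_pos hz0 hz1
  rcases le_or_gt u w with h | h
  · have k := kap_nonneg hu0 hu1 hw0 hw1
    have h1 := H_pos hu0 hu1
    have h2 := H_pos hw0 hw1
    have : (u - w) / 2 * (A z + mA z * (H z / z)) ≤ 0 :=
      mul_nonpos_of_nonpos_of_nonneg (by linarith) (by positivity)
    have : 0 ≤ mA z * ((H u + H w) / 2) := by positivity
    linarith
  · obtain ⟨y, y0, y1, hAy, -, -, h3, h4⟩ := exists_zz hw0 h hu1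
    have d := dualA y0 y1 hz0 hz1
    have k : kap u w = (u - w) / 2 * A y := by unfold kap; rw [hAy]; ring
    have h5 : (u - w) / 2 * (H y / y) ≤ (H u + H w) / 2 := by
      rw [← mul_div_assoc, div_le_iff₀ y0]; nlinarith
    have h6 := mul_le_mul_of_nonneg_left d (show 0 ≤ (u - w) / 2 by linarith)
    have h7 := mul_le_mul_of_nonneg_left h5 hμ.le
    rw [k]; nlinarith

lemma ptB {u w z : ℝ} (hu0 : -1 < u) (hu1 : u < 1) (hw0 : -1 < w) (hw1 : w < 1)
    (hz0 : 0 < z) (hz1 : z < 1) :
    (u - w) / 2 * (A z + mB z * ((1 - z ^ 2) / z)) ≤ kap u w + mB z * gg u w := by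
  have hμ := mB_pos hz0 hz1
  have hH : 0 < 1 - z ^ 2 := by nlinarith
  have hA := A_pos hz0 hz1
  rcases le_or_gt u w with h | h
  · have k := kap_nonneg hu0 hu1 hw0 hw1
    have h1 := gg_nonneg u w
    have : (u - w) / 2 * (A z + mB z * ((1 - z ^ 2) / z)) ≤ 0 :=
      mul_nonpos_of_nonpos_of_nonneg (by linarith) (by positivity)
    have : 0 ≤ mB z * gg u w := by positivity
    linarith
  · obtain ⟨y, y0, y1, hAy, h3, -, -, -⟩ := exists_zz hw0 h hu1
    have d := dualB y0 y1 hz0 hz1
    have k : kap u w = (u - w) / 2 * A y := by unfold kap; rw [hAy]; ring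
    have h5 : (u - w) / 2 * ((1 - y ^ 2) / y) = gg u w := by
      rw [← mul_div_assoc, div_eq_iff y0.ne']; linarith
    have h6 := mul_le_mul_of_nonneg_left d (show 0 ≤ (u - w) / 2 by linarith)
    rw [k, ← h5]; nlinarith

/-! ### scaling -/

lemma AH_anti {a b : ℝ} (h0 : 0 < a) (h : a ≤ b) (h1 : b < 1) :
    A b * H b / b ≤ A a * H a / a := by
  refine le_of_deriv_nonpos (f := fun z => A z * H z / z)
    (f' := fun z => (z * H z - (1 - z ^ 2) * A z * LL z) / ((1 - z ^ 2) * z ^ 2)) h ?_ ?_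
  · intro x h2 h3
    have x0 : 0 < x := by linarith
    have x1 : 0 < 1 - x ^ 2 := by nlinarith
    have := ((hasDerivAt_A (u := x) (by linarith) (by linarith)).mul
      (hasDerivAt_H (u := x) (by linarith) (by linarith))).div (hasDerivAt_id x) x0.ne'
    refine this.congr_deriv ?_
    simp only [id, Pi.mul_apply]
    unfold LL
    field_simp
    ring
  · intro x h2 h3
    have x0 : 0 < x := by linarith
    have x1 : x < 1 := by linarith
    have x2 : 0 < 1 - x ^ 2 := by nlinarith
    refine div_nonpos_of_nonpos_of_nonneg ?_ (by positivity)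
    have hA := le_A x0.le x1
    have hl := Real.log_le_sub_one_of_pos (show 0 < 2 / (1 + x) by positivity)
    have hl0 : 0 ≤ Real.log (2 / (1 + x)) :=
      Real.log_nonneg (by rw [le_div_iff₀ (by linarith)]; linarith)
    unfold LL
    rw [H_eq (by linarith)]
    set l := Real.log (2 / (1 + x))
    set a := A x
    have hl' : (1 + x) * l ≤ 1 - x := by
      have := mul_le_mul_of_nonneg_left hl (show 0 ≤ 1 + x by linarith)
      have e : (1 + x) * (2 / (1 + x) - 1) = 1 - x := by field_simp; ring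
      linarith
    -- goal: l * (x - (1-x^2) a) ≤ a (1-x) ((1+x) a - x)
    have F : x - (1 - x ^ 2) * a ≤ (1 + x) * a * ((1 + x) * a - x) := by
      have t : 0 ≤ a - x := by linarith
      have : (1 + x) * a * ((1 + x) * a - x) - (x - (1 - x ^ 2) * a) =
        x ^ 4 + (1 + x) * (1 + 2 * x ^ 2) * (a - x) + (1 + x) ^ 2 * (a - x) ^ 2 := by ring
      have : 0 ≤ x ^ 4 + (1 + x) * (1 + 2 * x ^ 2) * (a - x) + (1 + x) ^ 2 * (a - x) ^ 2 := by
        positivity
      linarith
    have G0 : 0 ≤ a * ((1 + x) * a - x) := mul_nonneg (by linarith) (by nlinarith)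
    have G1 := mul_le_mul_of_nonneg_left F hl0
    have G2 := mul_le_mul_of_nonneg_right hl' G0
    nlinarith

lemma AV_anti {a b : ℝ} (h0 : 0 < a) (h : a ≤ b) (h1 : b < 1) :
    A b * (1 - b ^ 2) / b ≤ A a * (1 - a ^ 2) / a := by
  refine le_of_deriv_nonpos (f := fun z => A z * (1 - z ^ 2) / z)
    (f' := fun z => (z - (1 + z ^ 2) * A z) / z ^ 2) h ?_ ?_
  · intro x h2 h3
    have x0 : 0 < x := by linarith
    have x1 : 0 < 1 - x ^ 2 := by nlinarith
    have := ((hasDerivAt_A (u := x) (by linarith) (by linarith)).mul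
      (((hasDerivAt_id x).pow 2).const_sub 1)).div (hasDerivAt_id x) x0.ne'
    refine this.congr_deriv ?_
    simp only [id, Pi.mul_apply, Pi.pow_apply]
    field_simp
    ring
  · intro x h2 h3
    have x0 : 0 < x := by linarith
    have hA := le_A x0.le (by linarith)
    exact div_nonpos_of_nonpos_of_nonneg (by nlinarith) (by positivity)

lemma exists_scale {z t : ℝ} (hz0 : 0 < z) (hz1 : z < 1) (ht0 : 0 < t) (ht1 : t ≤ 1) :
    ∃ y, 0 < y ∧ y < 1 ∧ A y = t * A z ∧ H z / z ≤ t * (H y / y) ∧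
      (1 - z ^ 2) / z ≤ t * ((1 - y ^ 2) / y) := by
  have hA := A_pos hz0 hz1
  have y0 : 0 < Real.tanh (t * A z) := by
    have := tanh_lt_tanh (show 0 < t * A z by positivity)
    simpa using this
  have yz : Real.tanh (t * A z) ≤ z := by
    have := tanh_le_tanh (show t * A z ≤ A z by nlinarith)
    rwa [tanh_A (by linarith) hz1] at this
  refine ⟨Real.tanh (t * A z), y0, Real.tanh_lt_one _, A_tanh _, ?_, ?_⟩
  · have := AH_anti y0 yz hz1
    rw [A_tanh] at this
    refine le_of_mul_le_mul_left ?_ hA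
    calc A z * (H z / z) = A z * H z / z := by ring
      _ ≤ _ := this
      _ = _ := by ring
  · have := AV_anti y0 yz hz1
    rw [A_tanh] at this
    refine le_of_mul_le_mul_left ?_ hA
    calc A z * ((1 - z ^ 2) / z) = A z * (1 - z ^ 2) / z := by ring
      _ ≤ _ := this
      _ = _ := by ring

/-- relative entropy is at most `log (1 + chi^2)`, in tangent line form -/
lemma kl_le {u m c : ℝ} (hu0 : -1 < u) (hu1 : u < 1) (hm0 : -1 < m) (hm1 : m < 1) (hc : 0 < c) :
    Ph u - Ph m - A m * (u - m) ≤ Real.log c + (1 + (u - m) ^ 2 / (1 - m ^ 2)) / c - 1 := by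
  have a1 : 0 < 1 + u := by linarith
  have a2 : 0 < 1 - u := by linarith
  have a3 : 0 < 1 + m := by linarith
  have a4 : 0 < 1 - m := by linarith
  have l1 := Real.log_le_sub_one_of_pos (show 0 < (1 + u) / ((1 + m) * c) by positivity)
  have l2 := Real.log_le_sub_one_of_pos (show 0 < (1 - u) / ((1 - m) * c) by positivity)
  rw [Real.log_div a1.ne' (by positivity), Real.log_mul a3.ne' hc.ne'] at l1
  rw [Real.log_div a2.ne' (by positivity), Real.log_mul a4.ne' hc.ne'] at l2
  have b1 := mul_le_mul_of_nonneg_left l1 a1.le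
  have b2 := mul_le_mul_of_nonneg_left l2 a2.le
  have e : (1 + (u - m) ^ 2 / (1 - m ^ 2)) / c - 1 =
      ((1 + u) * ((1 + u) / ((1 + m) * c) - 1) + (1 - u) * ((1 - u) / ((1 - m) * c) - 1)) / 2 := by
    have : 1 - m ^ 2 = (1 + m) * (1 - m) := by ring
    rw [this]; field_simp; ring
  rw [add_sub_assoc, e]
  unfold Ph A
  linarith

end Vale.Agent.P322
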