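import Vale.Agent.P322.Core

/-! The induction step for two random variables. -/

namespace Vale.Agent.P322

open Real Set

/-- the two families of lower bounds for the entropy production `D` of a function with mean `m`
and mean entropy `e` -/
def Good (m e D : ℝ) : Prop :=
  0 ≤ D ∧ (∀ r, 0 < r → r < 1 → al r - be r * (Ph m + e) ≤ D) ∧
    (∀ r, 15 / 16 ≤ r → r < 1 → al r * (1 - m ^ 2) - be r * e ≤ D)

lemma good0 {m : ℝ} (h0 : -1 < m) (h1 : m < 1) : Good m (H m) 0 := by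
  refine ⟨le_rfl, fun r r0 r1 => ?_, fun r r0 r1 => ?_⟩
  · have := tangent r0 r1 le_rfl one_pos
    unfold H at this ⊢
    simpa using this
  · have k1 := al_le_be r0 r1
    have k2 := H_ge h0 h1
    have k3 := al_pos (r := r) (by linarith) r1
    have k4 := osq h0 h1
    nlinarith

lemma good1' {a b : ℝ} (b0 : -1 < b) (h : b < a) (a1 : a < 1) :
    Good ((a + b) / 2) ((H a + H b) / 2) (kap a b) := by
  refine ⟨kap_nonneg (by linarith) a1 b0 (by linarith), fun r r0 r1 => ?_, fun r r0 r1 => ?_⟩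
  · obtain ⟨m, hm⟩ : ∃ m, m = (a + b) / 2 := ⟨_, rfl⟩
    obtain ⟨d, hd⟩ : ∃ d, d = (a - b) / 2 := ⟨_, rfl⟩
    have ea : a = m + d := by linarith
    have eb : b = m - d := by linarith
    rw [← hm]
    subst ea eb
    have d0 : 0 < d := by linarith
    obtain ⟨s1, s2⟩ := split_eq b0 a1 d0
    have p1 : 0 < 1 + m := by linarith
    have p2 : 0 < 1 - m := by linarith
    have t1 := tangent (s := d / (1 + m)) r0 r1 (by positivity) (by rw [div_lt_one p1]; linarith)
    have t2 := tangent (s := d / (1 - m)) r0 r1 (by positivity) (by rw [div_lt_one p2]; linarith)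
    have u1 := mul_le_mul_of_nonneg_left t1 (show 0 ≤ (1 + m) / 2 by linarith)
    have u2 := mul_le_mul_of_nonneg_left t2 (show 0 ≤ (1 - m) / 2 by linarith)
    have e1 : (1 + m) / 2 * (d / (1 + m) * A (d / (1 + m))) = d / 2 * A (d / (1 + m)) := by
      field_simp
    have e2 : (1 - m) / 2 * (d / (1 - m) * A (d / (1 - m))) = d / 2 * A (d / (1 - m)) := by
      field_simp
    have e3 : Ph m + (H (m + d) + H (m - d)) / 2 =
        (1 + m) / 2 * H (d / (1 + m)) + (1 - m) / 2 * H (d / (1 - m)) := by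
      unfold H; linarith
    unfold kap
    rw [s2, e3]
    linarith
  · obtain ⟨y, y0, y1, hAy, -, -, h3, h4⟩ := exists_zz b0 h a1
    have k : kap a b = (a - b) / 2 * A y := by unfold kap; rw [hAy]; ring
    have t := tangent (r := r) (by linarith) r1 y0.le y1
    have k1 := al_le_be r0 r1
    have k3 := al_pos (r := r) (by linarith) r1
    rw [k]
    refine le_of_mul_le_mul_left ?_ y0
    have u1 := mul_le_mul_of_nonneg_left t (show 0 ≤ (a - b) / 2 by linarith)
    have u2 := mul_le_mul_of_nonneg_left h4 (show 0 ≤ be r by linarith)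
    have u3 := mul_le_mul_of_nonneg_right k1 (sub_nonneg.2 h3)
    linarith

lemma good1 {a b : ℝ} (a0 : -1 < a) (a1 : a < 1) (b0 : -1 < b) (b1 : b < 1) :
    Good ((a + b) / 2) ((H a + H b) / 2) (kap a b) := by
  rcases lt_trichotomy a b with h | h | h
  · have := good1' a0 h b1
    rwa [add_comm b a, add_comm (H b), kap_comm] at this
  · subst h
    have := good0 a0 a1
    have e : kap a a = 0 := by unfold kap; ring
    rwa [e, add_self_div_two, add_self_div_two]
  · exact good1' b0 h a1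

lemma direct {d e K r : ℝ} (d0 : 0 < d) (dh : d ≤ 1 / 2)
    (hA : ∀ z, 0 < z → z < 1 → d * (A z + mA z * (H z / z)) ≤ K + mA z * e)
    (h : ∃ z, 0 < z ∧ z < 1 ∧ al r ≤ 2 * A z ∧ 2 * z * e ≤ H z) : al r * d ^ 2 ≤ K := by
  obtain ⟨z, z0, z1, h1, h2⟩ := h
  have := big_A (m := 0) (δ := d) (by norm_num) d0 (by ring) hA z (1 / 2) z0 z1 dh (by linarith)
  have := mul_le_mul_of_nonneg_right h1 (sq_nonneg d)
  linarith

theorem step_real {m d D K gb τ e : ℝ} (m0 : 0 ≤ m) (d0 : 0 < d) (h1 : m + d < 1) (dh : d ≤ 1 / 2)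
    (e0 : 0 ≤ e) (I0 : e ≤ (H (m + d) + H (m - d)) / 2) (K0 : 0 ≤ K)
    (hA : ∀ z, 0 < z → z < 1 → d * (A z + mA z * (H z / z)) ≤ K + mA z * e)
    (hB : ∀ z, 0 < z → z < 1 → d * (A z + mB z * ((1 - z ^ 2) / z)) ≤ K + mB z * gb)
    (hg : gb ≤ gg (m + d) (m - d) * (1 - τ))
    (t1 : Real.exp ((H (m + d) + H (m - d)) / 2 - e) ≤ 1 + τ)
    (t2 : d ^ 2 / (1 - m ^ 2 - d ^ 2) ≤ τ) (t3 : τ ≤ 1)
    (c0 : 0 ≤ D)
    (c1 : ∀ r, 0 < r → r < 1 → al r - be r * ((Ph (m + d) + Ph (m - d)) / 2 + e) ≤ D)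
    (c2 : ∀ r, 15 / 16 ≤ r → r < 1 → al r * (1 - m ^ 2 - d ^ 2) - be r * e ≤ D) :
    Good m e (D + K) := by
  obtain ⟨I, hI⟩ : ∃ I, I = (H (m + d) + H (m - d)) / 2 - e := ⟨_, rfl⟩
  obtain ⟨J, hJ⟩ : ∃ J, J = (Ph (m + d) + Ph (m - d)) / 2 - Ph m := ⟨_, rfl⟩
  have hT : I + J = Real.log 2 - (Ph m + e) := by rw [hI, hJ]; unfold H; ring
  have I0' : 0 ≤ I := by linarith
  have m1 : m < 1 := by linarith
  have n1 : 0 < 1 - m ^ 2 := osq (by linarith) m1
  have J0 : 0 ≤ J := by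
    rw [hJ, (split_eq (by linarith) h1 d0).1]
    have p1 : 0 < 1 + m := by linarith
    have p2 : 0 < 1 - m := by linarith
    have := Ph_nonneg (u := d / (1 + m)) (lt_of_lt_of_le (by norm_num) (div_pos d0 p1).le)
      (by rw [div_lt_one p1]; linarith)
    have := Ph_nonneg (u := d / (1 - m)) (lt_of_lt_of_le (by norm_num) (div_pos d0 p2).le)
      (by rw [div_lt_one p2]; linarith)
    positivity
  have C1 : I + J ≤ Ph (15 / 16) →
      ∀ r, 0 < r → r < 1 → al r - be r * (Ph m + e) ≤ D + K := by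
    intro hT0 r r0 r1
    obtain ⟨q, q0, q1, hq⟩ := exists_Ph_eq (by norm_num) (by linarith) hT0
    obtain ⟨p, p0, p1, hp⟩ := exists_Ph_eq (T := I) q0 I0' (by linarith)
    have g := Gamma p0 p1 q1
    rw [hq, hp, add_sub_cancel_left] at g
    have k := core m0 d0 h1 dh I0' e0 (by linarith) hA hB hg (hI ▸ t1) t2 t3 hJ
      (by linarith [P0_hi])
    have t := tangent r0 r1 q0 (by linarith)
    have e1 : H q = Ph m + e := by unfold H; linarith
    rw [e1] at t
    have c : p * A p ≤ D := by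
      rcases p0.eq_or_lt with h | h
      · rw [← h]; simpa using c0
      · have := c1 p h (by linarith)
        have e2 : (Ph (m + d) + Ph (m - d)) / 2 + e = H p := by unfold H at *; linarith
        rw [e2] at this
        unfold al at this
        linarith
    linarith
  have C2 : ∀ r, 15 / 16 ≤ r → r < 1 → al r * (1 - m ^ 2) - be r * e ≤ D + K := by
    intro r r0 r1
    have dir : ∀ q, 15 / 16 ≤ q → q < 1 →
        (∃ z, 0 < z ∧ z < 1 ∧ al q ≤ 2 * A z ∧ 2 * z * e ≤ H z) →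
        al q * (1 - m ^ 2) - be q * e ≤ D + K := by
      intro q q0 q1 hz
      have := direct d0 dh hA hz
      have := c2 q q0 q1
      linarith
    have st : ∀ q, 15 / 16 ≤ q → q < 1 → e ≤ H q → al q * (1 - m ^ 2) - be q * e ≤ D + K := by
      intro q q0 q1 he
      obtain ⟨z, z0, z1, k1, k2⟩ := star q0 q1
      refine dir q q0 q1 ⟨z, z0, z1, k1, le_trans ?_ k2⟩
      gcongr
    have down : ∀ q, 15 / 16 ≤ q → q ≤ r → H q ≤ e →
        al r * (1 - m ^ 2) - be r * e ≤ al q * (1 - m ^ 2) - be q * e := by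
      intro q q0 q1 he
      have hs : H q ≤ e / (1 - m ^ 2) := by
        rw [le_div_iff₀ n1]
        have := H_pos (u := q) (by linarith) (by linarith)
        nlinarith [sq_nonneg m]
      have := mul_le_mul_of_nonneg_right (tangent_down (by linarith) q1 r1 hs) n1.le
      rw [sub_mul, sub_mul, mul_assoc, mul_assoc, div_mul_cancel₀ _ n1.ne'] at this
      exact this
    rcases le_total e (H r) with k | k
    · exact st r r0 r1 k
    rcases le_total e (H (15 / 16)) with k2 | k2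
    · obtain ⟨q, hq, hq2⟩ := intermediate_value_Icc r0 continuous_Ph.continuousOn
        (show Real.log 2 - e ∈ Icc (Ph (15 / 16)) (Ph r) by
          unfold H at k k2; constructor <;> linarith)
      have e1 : H q = e := by unfold H; linarith
      exact (down q hq.1 hq.2 e1.le).trans (st q hq.1 (by linarith [hq.2]) e1.ge)
    refine (down _ le_rfl r0 k2).trans ?_
    rcases le_total e 0.17 with k3 | k3
    · obtain ⟨z, z0, z1, k4, k5⟩ := star0
      refine dir _ le_rfl (by norm_num) ⟨z, z0, z1, k4, le_trans ?_ k5⟩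
      gcongr
    · have := Ph_nonneg (u := m) (by linarith) m1
      exact diamond m0 m1 k3 (by linarith) (C1 (by linarith [P0_lo, log_two_le]))
  refine ⟨by linarith, ?_, C2⟩
  rcases le_total (I + J) (Ph (15 / 16)) with k | k
  · exact C1 k
  have hi : ∀ r, 15 / 16 ≤ r → r < 1 → al r - be r * (Ph m + e) ≤ D + K := by
    intro r r0 r1
    have k1 := C2 r r0 r1
    have k2 := al_le_be r0 r1
    have k3 := Ph_ge1 (u := m) (by linarith) m1
    have k4 := al_pos (r := r) (by linarith) r1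
    have k5 := mul_le_mul k2 k3 (by positivity) (by linarith)
    linarith
  intro r r0 r1
  rcases le_total (15 / 16) r with k2 | k2
  · exact hi r k2 r1
  · exact (tangent_up r0 k2 (by norm_num) (by unfold H; linarith)).trans
      (hi _ le_rfl (by norm_num))

lemma gg_neg (a b : ℝ) : gg (-a) (-b) = gg a b := by unfold gg; congr 1; ring

theorem step_real2 {a b D1 D2 e1 e2 K gb τ : ℝ} (b0 : -1 < b) (hba : b < a) (a1 : a < 1)
    (dh : (a - b) / 2 ≤ 1 / 2)
    (e0 : 0 ≤ (e1 + e2) / 2) (I0 : (e1 + e2) / 2 ≤ (H a + H b) / 2) (K0 : 0 ≤ K)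
    (hA : ∀ z, 0 < z → z < 1 →
      (a - b) / 2 * (A z + mA z * (H z / z)) ≤ K + mA z * ((e1 + e2) / 2))
    (hB : ∀ z, 0 < z → z < 1 → (a - b) / 2 * (A z + mB z * ((1 - z ^ 2) / z)) ≤ K + mB z * gb)
    (hg : gb ≤ gg a b * (1 - τ))
    (t1 : Real.exp ((H a + H b) / 2 - (e1 + e2) / 2) ≤ 1 + τ)
    (t2 : ((a - b) / 2) ^ 2 / (1 - (a ^ 2 + b ^ 2) / 2) ≤ τ) (t3 : τ ≤ 1)
    (g1 : Good a e1 D1) (g2 : Good b e2 D2) :
    Good ((a + b) / 2) ((e1 + e2) / 2) ((D1 + D2) / 2 + K) := by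
  have c0 : 0 ≤ (D1 + D2) / 2 := by linarith [g1.1, g2.1]
  have c1 : ∀ r, 0 < r → r < 1 →
      al r - be r * ((Ph a + Ph b) / 2 + (e1 + e2) / 2) ≤ (D1 + D2) / 2 := by
    intro r r0 r1; linarith [g1.2.1 r r0 r1, g2.2.1 r r0 r1]
  have c2 : ∀ r, 15 / 16 ≤ r → r < 1 →
      al r * (1 - (a ^ 2 + b ^ 2) / 2) - be r * ((e1 + e2) / 2) ≤ (D1 + D2) / 2 := by
    intro r r0 r1; linarith [g1.2.2 r r0 r1, g2.2.2 r r0 r1]
  rcases le_total 0 ((a + b) / 2) with h | h
  · have ea : (a + b) / 2 + (a - b) / 2 = a := by ring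
    have eb : (a + b) / 2 - (a - b) / 2 = b := by ring
    have ec : 1 - ((a + b) / 2) ^ 2 - ((a - b) / 2) ^ 2 = 1 - (a ^ 2 + b ^ 2) / 2 := by ring
    refine step_real (gb := gb) (τ := τ) h (by linarith) (by linarith) dh e0 ?_ K0 hA hB ?_ ?_ ?_ t3
      c0 ?_ ?_ <;> simp only [ea, eb, ec] <;> assumption
  · have ea : -((a + b) / 2) + (a - b) / 2 = -b := by ring
    have eb : -((a + b) / 2) - (a - b) / 2 = -a := by ring
    have ec : 1 - (-((a + b) / 2)) ^ 2 - ((a - b) / 2) ^ 2 = 1 - (a ^ 2 + b ^ 2) / 2 := by ring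
    have := step_real (m := -((a + b) / 2)) (gb := gb) (τ := τ) (by linarith) (by linarith)
      (by linarith) dh e0 (by rw [ea, eb, H_neg, H_neg]; linarith) K0 hA hB
      (by rw [ea, eb, gg_neg, gg_comm]; exact hg)
      (by rw [ea, eb, H_neg, H_neg, add_comm (H b)]; exact t1) (by rw [ec]; exact t2) t3 c0
      (by rw [ea, eb, Ph_neg, Ph_neg, add_comm (Ph b)]; exact c1) (by rw [ec]; exact c2)
    unfold Good at this ⊢
    rwa [Ph_neg, neg_sq] at this

/-! ### averages -/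

section av
variable {Ω : Type*} [Fintype Ω]

noncomputable def av (f : Ω → ℝ) : ℝ := (∑ x, f x) / Fintype.card Ω

lemma av_mono {f g : Ω → ℝ} (h : ∀ x, f x ≤ g x) : av f ≤ av g := by
  unfold av; gcongr with x; exact h x

lemma av_add (f g : Ω → ℝ) : av (fun x => f x + g x) = av f + av g := by
  unfold av; rw [Finset.sum_add_distrib, add_div]

lemma av_sub (f g : Ω → ℝ) : av (fun x => f x - g x) = av f - av g := by
  unfold av; rw [Finset.sum_sub_distrib, sub_div]

lemma av_mul (c : ℝ) (f : Ω → ℝ) : av (fun x => c * f x) = c * av f := by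
  unfold av; rw [← Finset.mul_sum, mul_div_assoc]

lemma av_mul' (c : ℝ) (f : Ω → ℝ) : av (fun x => f x * c) = av f * c := by
  unfold av; rw [← Finset.sum_mul]; ring

lemma av_div (c : ℝ) (f : Ω → ℝ) : av (fun x => f x / c) = av f / c := by
  unfold av; rw [← Finset.sum_div]; ring

variable [Nonempty Ω]

lemma av_const (c : ℝ) : av (fun _ : Ω => c) = c := by
  have : (Fintype.card Ω : ℝ) ≠ 0 := by exact_mod_cast Fintype.card_ne_zero
  unfold av; simp only [Finset.sum_const, Finset.card_univ, nsmul_eq_mul]; field_simp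

lemma av_lt {f g : Ω → ℝ} (h : ∀ x, f x < g x) : av f < av g := by
  have : (0 : ℝ) < Fintype.card Ω := by exact_mod_cast Fintype.card_pos
  unfold av
  exact div_lt_div_of_pos_right
    (Finset.sum_lt_sum_of_nonempty Finset.univ_nonempty fun x _ => h x) this

lemma av_mem {U : Ω → ℝ} (h0 : ∀ x, -1 < U x) (h1 : ∀ x, U x < 1) : -1 < av U ∧ av U < 1 := by
  have k0 := av_lt (f := fun _ => -1) h0
  have k1 := av_lt (g := fun _ => 1) h1
  rw [av_const] at k0 k1
  exact ⟨k0, k1⟩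

lemma kl_nonneg {u m : ℝ} (hu0 : -1 < u) (hu1 : u < 1) (hm0 : -1 < m) (hm1 : m < 1) :
    Ph m + A m * (u - m) ≤ Ph u := by
  have a1 : 0 < 1 + u := by linarith
  have a2 : 0 < 1 - u := by linarith
  have a3 : 0 < 1 + m := by linarith
  have a4 : 0 < 1 - m := by linarith
  have l1 := Real.log_le_sub_one_of_pos (show 0 < (1 + m) / (1 + u) by positivity)
  have l2 := Real.log_le_sub_one_of_pos (show 0 < (1 - m) / (1 - u) by positivity)
  rw [Real.log_div a3.ne' a1.ne'] at l1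
  rw [Real.log_div a4.ne' a2.ne'] at l2
  have b1 := mul_le_mul_of_nonneg_left l1 a1.le
  have b2 := mul_le_mul_of_nonneg_left l2 a2.le
  have e1 : (1 + u) * ((1 + m) / (1 + u) - 1) = m - u := by field_simp; ring
  have e2 : (1 - u) * ((1 - m) / (1 - u) - 1) = u - m := by field_simp; ring
  unfold Ph A
  linarith

lemma av_H (U : Ω → ℝ) : av (fun x => H (U x)) = Real.log 2 - av (fun x => Ph (U x)) := by
  unfold H; rw [av_sub, av_const]

lemma av_H_le {U : Ω → ℝ} (h0 : ∀ x, -1 < U x) (h1 : ∀ x, U x < 1) :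
    av (fun x => H (U x)) ≤ H (av U) := by
  obtain ⟨k0, k1⟩ := av_mem h0 h1
  have := av_mono fun x => kl_nonneg (h0 x) (h1 x) k0 k1
  rw [av_add, av_mul, av_sub, av_const, av_const] at this
  rw [av_H]; unfold H; linarith

lemma av_kl {U : Ω → ℝ} (h0 : ∀ x, -1 < U x) (h1 : ∀ x, U x < 1) {c : ℝ} (hc : 0 < c) :
    H (av U) - av (fun x => H (U x)) ≤
      Real.log c + (1 + (av (fun x => U x ^ 2) - av U ^ 2) / (1 - av U ^ 2)) / c - 1 := by
  obtain ⟨k0, k1⟩ := av_mem h0 h1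
  have := av_mono fun x => kl_le (h0 x) (h1 x) k0 k1 hc
  have e : av (fun x => (U x - av U) ^ 2) = av (fun x => U x ^ 2) - av U ^ 2 := by
    have : (fun x => (U x - av U) ^ 2) = fun x => U x ^ 2 - 2 * av U * U x + av U ^ 2 := by
      funext x; ring
    rw [this, av_add, av_sub, av_mul, av_const]; ring
  simp only [av_add, av_mul, av_sub, av_const, av_div, e] at this
  rw [av_H]; unfold H; linarith

theorem step' {U W : Ω → ℝ} (hU0 : ∀ x, -1 < U x) (hU1 : ∀ x, U x < 1)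
    (hW0 : ∀ x, -1 < W x) (hW1 : ∀ x, W x < 1) {D1 D2 c1 c2 : ℝ} (hlt : av W < av U)
    (g1 : Good (av U) (av fun x => H (U x)) D1) (g2 : Good (av W) (av fun x => H (W x)) D2)
    (dh : (av U - av W) / 2 ≤ 1 / 2)
    (v1 : av U ^ 2 + c1 ^ 2 ≤ av fun x => U x ^ 2) (v2 : av W ^ 2 + c2 ^ 2 ≤ av fun x => W x ^ 2)
    (hc : ((av U - av W) / 2) ^ 2 ≤ ((c1 + c2) / 2) ^ 2) :
    Good ((av U + av W) / 2) (((av fun x => H (U x)) + av fun x => H (W x)) / 2)
      ((D1 + D2) / 2 + av fun x => kap (U x) (W x)) := by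
  obtain ⟨a0, a1⟩ := av_mem hU0 hU1
  obtain ⟨b0, b1⟩ := av_mem hW0 hW1
  have na := osq a0 a1
  have nb := osq b0 b1
  have s1 : (av fun x => U x ^ 2) ≤ 1 := by
    have := av_mono (g := fun _ => 1) fun x => (show U x ^ 2 ≤ 1 by linarith [osq (hU0 x) (hU1 x)])
    rwa [av_const] at this
  have s2 : (av fun x => W x ^ 2) ≤ 1 := by
    have := av_mono (g := fun _ => 1) fun x => (show W x ^ 2 ≤ 1 by linarith [osq (hW0 x) (hW1 x)])
    rwa [av_const] at this
  obtain ⟨τ1, h1⟩ : ∃ τ, τ = (av (fun x => U x ^ 2) - av U ^ 2) / (1 - av U ^ 2) := ⟨_, rfl⟩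
  obtain ⟨τ2, h2⟩ : ∃ τ, τ = (av (fun x => W x ^ 2) - av W ^ 2) / (1 - av W ^ 2) := ⟨_, rfl⟩
  have l1 : c1 ^ 2 / (1 - av U ^ 2) ≤ τ1 := by rw [h1]; gcongr; linarith
  have l2 : c2 ^ 2 / (1 - av W ^ 2) ≤ τ2 := by rw [h2]; gcongr; linarith
  have p1 : 0 ≤ c1 ^ 2 / (1 - av U ^ 2) := by positivity
  have p2 : 0 ≤ c2 ^ 2 / (1 - av W ^ 2) := by positivity
  refine step_real2 (gb := av fun x => gg (U x) (W x)) (τ := (τ1 + τ2) / 2) b0 hlt a1 dh ?_ ?_ ?_
    ?_ ?_ ?_ ?_ ?_ ?_ g1 g2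
  · have k1 := av_mono (f := fun _ => 0) fun x => (H_pos (hU0 x) (hU1 x)).le
    have k2 := av_mono (f := fun _ => 0) fun x => (H_pos (hW0 x) (hW1 x)).le
    rw [av_const] at k1 k2
    linarith
  · linarith [av_H_le hU0 hU1, av_H_le hW0 hW1]
  · have k1 := av_mono (f := fun _ => 0) fun x => kap_nonneg (hU0 x) (hU1 x) (hW0 x) (hW1 x)
    rwa [av_const] at k1
  · intro z z0 z1
    have := av_mono fun x => ptA (hU0 x) (hU1 x) (hW0 x) (hW1 x) z0 z1
    rwa [av_mul', av_div, av_sub, av_add, av_mul, av_div, av_add] at this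
  · intro z z0 z1
    have := av_mono fun x => ptB (hU0 x) (hU1 x) (hW0 x) (hW1 x) z0 z1
    rwa [av_mul', av_div, av_sub, av_add, av_mul] at this
  · have g0 : 0 < gg (av U) (av W) := Real.sqrt_pos.2 (mul_pos na nb)
    have g2 : gg (av U) (av W) ^ 2 = (1 - av U ^ 2) * (1 - av W ^ 2) :=
      Real.sq_sqrt (mul_pos na nb).le
    have := av_mono fun x => gg_le (hU0 x) (hU1 x) (hW0 x) (hW1 x) (div_pos g0 na)
    rw [av_div, av_add, av_mul, av_div, av_sub, av_sub, av_const] at this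
    refine this.trans (le_of_eq ?_)
    have e1 : 1 - (av fun x => U x ^ 2) = (1 - av U ^ 2) * (1 - τ1) := by
      rw [h1]; field_simp; ring
    have e2 : 1 - (av fun x => W x ^ 2) = (1 - av W ^ 2) * (1 - τ2) := by
      rw [h2]; field_simp; ring
    have e3 : 1 - av W ^ 2 = gg (av U) (av W) ^ 2 / (1 - av U ^ 2) := by
      rw [g2]; field_simp
    rw [e1, e2, e3]
    field_simp
    ring
  · have hc : 0 < 1 + (τ1 + τ2) / 2 := by linarith
    have k1 := av_kl hU0 hU1 hc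
    have k2 := av_kl hW0 hW1 hc
    rw [← h1] at k1
    rw [← h2] at k2
    have e : (1 + τ1) / (1 + (τ1 + τ2) / 2) + (1 + τ2) / (1 + (τ1 + τ2) / 2) = 2 := by
      rw [← add_div, div_eq_iff hc.ne']; ring
    rw [← Real.le_log_iff_exp_le hc]
    linarith
  · have k2 : (c1 + c2) ^ 2 / ((1 - av U ^ 2) + (1 - av W ^ 2)) ≤
        c1 ^ 2 / (1 - av U ^ 2) + c2 ^ 2 / (1 - av W ^ 2) := by
      rw [div_add_div _ _ na.ne' nb.ne', div_le_div_iff₀ (by positivity) (by positivity)]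
      nlinarith [sq_nonneg (c1 * (1 - av W ^ 2) - c2 * (1 - av U ^ 2))]
    have k3 : ((av U - av W) / 2) ^ 2 / (1 - (av U ^ 2 + av W ^ 2) / 2) ≤
        ((c1 + c2) / 2) ^ 2 / (1 - (av U ^ 2 + av W ^ 2) / 2) :=
      div_le_div_of_nonneg_right hc (by linarith)
    have e : ((c1 + c2) / 2) ^ 2 / (1 - (av U ^ 2 + av W ^ 2) / 2) =
        (c1 + c2) ^ 2 / ((1 - av U ^ 2) + (1 - av W ^ 2)) / 2 := by
      have : (1 - (av U ^ 2 + av W ^ 2) / 2) = ((1 - av U ^ 2) + (1 - av W ^ 2)) / 2 := by ring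
      rw [this]; field_simp
    linarith
  · have k1 : τ1 ≤ 1 := by rw [h1, div_le_one na]; linarith
    have k2 : τ2 ≤ 1 := by rw [h2, div_le_one nb]; linarith
    linarith

theorem step {U W : Ω → ℝ} (hU0 : ∀ x, -1 < U x) (hU1 : ∀ x, U x < 1)
    (hW0 : ∀ x, -1 < W x) (hW1 : ∀ x, W x < 1) {D1 D2 c1 c2 : ℝ}
    (g1 : Good (av U) (av fun x => H (U x)) D1) (g2 : Good (av W) (av fun x => H (W x)) D2)
    (dh : |(av U - av W) / 2| ≤ 1 / 2)
    (v1 : av U ^ 2 + c1 ^ 2 ≤ av fun x => U x ^ 2) (v2 : av W ^ 2 + c2 ^ 2 ≤ av fun x => W x ^ 2)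
    (hc : ((av U - av W) / 2) ^ 2 ≤ ((c1 + c2) / 2) ^ 2) :
    Good ((av U + av W) / 2) (((av fun x => H (U x)) + av fun x => H (W x)) / 2)
      ((D1 + D2) / 2 + av fun x => kap (U x) (W x)) := by
  rw [abs_le] at dh
  rcases lt_trichotomy (av U) (av W) with h | h | h
  · have := step' hW0 hW1 hU0 hU1 h g2 g1 (by linarith [dh.1]) v2 v1 (by linarith)
    simp only [kap_comm (W _)] at this
    rwa [add_comm (av W), add_comm (av fun x => H (W x)), add_comm D2] at this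
  · have k1 := av_mono (f := fun _ => 0) fun x => kap_nonneg (hU0 x) (hU1 x) (hW0 x) (hW1 x)
    rw [av_const] at k1
    rw [← h] at g2 ⊢
    rw [add_self_div_two]
    refine ⟨by linarith [g1.1, g2.1], fun r r0 r1 => ?_, fun r r0 r1 => ?_⟩
    · linarith [g1.2.1 r r0 r1, g2.2.1 r r0 r1]
    · linarith [g1.2.2 r r0 r1, g2.2.2 r r0 r1]
  · exact step' hU0 hU1 hW0 hW1 h g1 g2 dh.2 v1 v2 hc

end av

end Vale.Agent.P322
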